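import Crest.Agent.R347.MpsD
import Crest.Agent.R347.MpsD1
import Crest.Agent.R347.MpsD2
import Crest.Agent.R347.MpsD3

/-! # R347: kernel checks, part 2 (generated) -/

set_option autoImplicit false
set_option maxRecDepth 100000

namespace Crest.Agent.R347.Z

theorem c11 : eqS (stepZ 24 S10 L11) S11 = true := by decide +kernel

theorem c12 : eqS (stepZ 24 S11 L12) S12 = true := by decide +kernel

theorem c13 : eqS (stepZ 24 S12 L13) S13 = true := by decide +kernel

theorem c14 : eqS (stepZ 24 S13 L14) S14 = true := by decide +kernel

theorem c15 : eqS (stepZ 24 S14 L15) S15 = true := by decide +kernel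

theorem c16 : eqS (stepZ 24 S15 L16) S16 = true := by decide +kernel

theorem cSL : eqS (stepZ 24 S16 AA) SL = true := by decide +kernel

theorem cSR : eqS (stepZ 24 (flipZ S15) RR) SR = true := by decide +kernel

end Crest.Agent.R347.Z
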