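import Crest.Agent.R347.MpsD
import Crest.Agent.R347.MpsD1
import Crest.Agent.R347.MpsD2
import Crest.Agent.R347.MpsD3

/-! # R347: kernel checks, part 3 (generated) -/

set_option autoImplicit false
set_option maxRecDepth 100000

namespace Crest.Agent.R347.Z

theorem f20 : chkFin 24 20 (stepZ 24 S11 T20) (flipZ S10) = true := by decide +kernel

theorem f22 : chkFin 24 22 (stepZ 24 S12 T22) (flipZ S11) = true := by decide +kernel

theorem f24 : chkFin 24 24 (stepZ 24 S13 T24) (flipZ S12) = true := by decide +kernel

theorem f26 : chkFin 24 26 (stepZ 24 S14 T26) (flipZ S13) = true := by decide +kernel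

theorem f28 : chkFin 24 28 (stepZ 24 S15 T28) (flipZ S14) = true := by decide +kernel

theorem f30 : chkFin 24 30 (stepZ 24 S16 T30) (flipZ S15) = true := by decide +kernel

end Crest.Agent.R347.Z
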