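import Crest.Agent.R347.MpsD
import Crest.Agent.R347.MpsD1
import Crest.Agent.R347.MpsD2
import Crest.Agent.R347.MpsD3

/-! # R347: kernel checks, part 4 (generated) -/

set_option autoImplicit false
set_option maxRecDepth 100000

namespace Crest.Agent.R347.Z

theorem cA : chkA 24 dA AA SA = true := by decide +kernel

theorem cL : chkL 24 (5 * 2 ^ 514 * dA ^ 2) dA SL SA = true := by decide +kernel

theorem cG : chkG 24 dA (2 ^ 30) AA SA GG (-1504829266) = true := by decide +kernel

theorem cB : chkB (5 * 2 ^ 514 * dA ^ 2) (2 ^ 30) SL GG = true := by decide +kernel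

theorem cS : chkS 24 dA (2 ^ 30) AA SR (-1504829266) = true := by decide +kernel

theorem cH : chkH 24 (5 * 2 ^ 514 * dA ^ 2) dA 31 SL SA SR = true := by decide +kernel

end Crest.Agent.R347.Z
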