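import Crest.Agent.R347.MpsC1
import Crest.Agent.R347.MpsC2
import Crest.Agent.R347.MpsC3
import Crest.Agent.R347.MpsC4

/-!
# R347: the variational upper bound on the ground-state energy of the chain with fields `(-,+)`

Uniform tensor `AA / dA` (bond dimension 24, exactly isometric by a Cayley parametrisation, energy per site
`-1.40148147`), left boundary tensors `L1 … L16`, right boundary = spin flip of `L1 … L15` followed by `RR`.
For `k ≥ 31`: `mps_bound` (33 boundary sites); for `k = 20, 22, …, 30`: centre tensors `Tk`.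
(For odd `k ≤ 29` the inequality fails: the edge spins `(↓, ↑)` are then coupled unfavourably.)
-/

set_option autoImplicit false
set_option exponentiation.threshold 1000

namespace Crest.Agent.R347

open Matrix

namespace Z

theorem RchK.step2 {D n m : Nat} {f : ℝ} {S : SZ} (h : RchK D n f (5 * 2 ^ m) S) (p : Nat) (A : T3) :
    RchK D (n + 1) f (5 * 2 ^ (m + 2 * p)) (stepZ D S A) := by
  have := h.step (2 ^ p) (by positivity) A
  rwa [mul_assoc, ← pow_mul, ← pow_add, mul_comm p 2] at this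

theorem r0 : RchK 24 0 (3 / 5) (5 * 2 ^ 0) S00 := rch0

theorem r5 : RchK 24 5 (3 / 5) (5 * 2 ^ 150) S5 := (((((r0.step2 15 L1).step2 15 L2).step2 15 L3).step2 15 L4).step2 15 L5).eq c5

theorem r8 : RchK 24 8 (3 / 5) (5 * 2 ^ 240) S8 := (((r5.step2 15 L6).step2 15 L7).step2 15 L8).eq c8

theorem r10 : RchK 24 10 (3 / 5) (5 * 2 ^ 300) S10 := ((r8.step2 15 L9).step2 15 L10).eq c10

theorem r11 : RchK 24 11 (3 / 5) (5 * 2 ^ 330) S11 := (r10.step2 15 L11).eq c11

theorem r12 : RchK 24 12 (3 / 5) (5 * 2 ^ 360) S12 := (r11.step2 15 L12).eq c12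

theorem r13 : RchK 24 13 (3 / 5) (5 * 2 ^ 390) S13 := (r12.step2 15 L13).eq c13

theorem r14 : RchK 24 14 (3 / 5) (5 * 2 ^ 420) S14 := (r13.step2 15 L14).eq c14

theorem r15 : RchK 24 15 (3 / 5) (5 * 2 ^ 450) S15 := (r14.step2 15 L15).eq c15

theorem r16 : RchK 24 16 (3 / 5) (5 * 2 ^ 514) S16 := (r15.step2 32 L16).eq c16

theorem dA_pos : 0 < dA := by decide +kernel

theorem rL : RchK 24 17 (3 / 5) (5 * 2 ^ 514 * dA ^ 2) SL := (r16.step dA dA_pos AA).eq cSL

theorem rR : RchK 24 16 (-(3 / 5)) (5 * 2 ^ 514) SR := (r15.flip.step2 32 RR).eq cSR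

end Z

open Z in
theorem mps_open (k : ℕ) (hk2 : Even k) (hk : 20 ≤ k) :
    ∃ ψ : Cfg (k + 2) → ℝ, ψ ≠ 0 ∧ ψ ⬝ᵥ (HOn k (-1) *ᵥ ψ) ≤ 0 := by
  by_cases h : 31 ≤ k
  · exact inf_case rL rR rfl dA_pos (by positivity) cA cL cG cB cS cH k h
  obtain ⟨m, rfl⟩ := hk2
  have h1 : 10 ≤ m := by omega
  have h2 : m ≤ 15 := by omega
  interval_cases m
  · exact fin_case (r11.step2 13 T20) r10.flip rfl f20
  · exact fin_case (r12.step2 13 T22) r11.flip rfl f22
  · exact fin_case (r13.step2 13 T24) r12.flip rfl f24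
  · exact fin_case (r14.step2 13 T26) r13.flip rfl f26
  · exact fin_case (r15.step2 13 T28) r14.flip rfl f28
  · exact fin_case (r16.step2 13 T30) r15.flip rfl f30

end Crest.Agent.R347
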