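import Crest.Agent.R347.RP0
import Crest.Agent.R347.Mps

/-!
# R347: entries and norms of the bond operators; identification with the complex model
-/

set_option autoImplicit false

namespace Crest.Agent.R347

open Matrix Crest.MathPhysics.SpinChain

/-- `1 + m m'` for the digits `d`, `e` -/
def zzR (d e : Fin 3) : ℝ := 1 + (1 - (d.val : ℝ)) * (1 - (e.val : ℝ))

/-- `τ` arises from `σ` by `τ i = σ i + 1`, `τ j + 1 = σ j`, all other digits equal -/
def Hop {L : ℕ} (i j : Fin L) (σ τ : Cfg L) : Prop :=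
  (τ i).val = (σ i).val + 1 ∧ (τ j).val + 1 = (σ j).val ∧ ∀ k, k ≠ i → k ≠ j → σ k = τ k

instance {L : ℕ} (i j : Fin L) (σ τ : Cfg L) : Decidable (Hop i j σ τ) := by
  unfold Hop; infer_instance

namespace NrmA

abbrev M9 (R : Type) := Matrix (Fin 3 × Fin 3) (Fin 3 × Fin 3) R

/-- a two-site matrix acting at the sites `i, j` -/
def L2 {L : ℕ} (i j : Fin L) (B : M9 ℝ) : Op L :=
  Matrix.of fun σ τ => if (∀ k, k ≠ i → k ≠ j → σ k = τ k) then B (σ i, σ j) (τ i, τ j) else 0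

theorem onS_mul_onS {L : ℕ} {i j : Fin L} (hij : i ≠ j) (A B : M3) :
    onS A i * onS B j = L2 i j (Matrix.of fun p q => A p.1 q.1 * B p.2 q.2) := by
  rw [onS_eq_tens, onS_eq_tens, tens_mul]
  ext σ τ
  simp only [tens, L2, Matrix.of_apply]
  rw [← Finset.mul_prod_erase _ _ (Finset.mem_univ i),
    ← Finset.mul_prod_erase _ _ (Finset.mem_erase.2 ⟨hij.symm, Finset.mem_univ j⟩),
    Function.update_self, Function.update_self, Function.update_of_ne hij,
    Function.update_of_ne hij.symm, mul_one, one_mul]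
  have e : ∏ k ∈ (Finset.univ.erase i).erase j, (Function.update (fun _ => (1 : M3)) i A k *
      Function.update (fun _ => (1 : M3)) j B k) (σ k) (τ k) =
      ∏ k ∈ (Finset.univ.erase i).erase j, if σ k = τ k then (1 : ℝ) else 0 :=
    Finset.prod_congr rfl fun k hk => by
      rw [Function.update_of_ne (Finset.ne_of_mem_erase hk),
        Function.update_of_ne (Finset.ne_of_mem_erase (Finset.mem_of_mem_erase hk)), mul_one,
        Matrix.one_apply]
  rw [e, Finset.prod_ite_zero]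
  have h : (∀ k ∈ (Finset.univ.erase i).erase j, σ k = τ k) ↔ ∀ k, k ≠ i → k ≠ j → σ k = τ k := by
    simp only [Finset.mem_erase, Finset.mem_univ, and_true]
    exact ⟨fun h k h1 h2 => h k ⟨h2, h1⟩, fun h k hk => h k hk.2 hk.1⟩
  simp only [h]
  split_ifs <;> simp

theorem L2_add {L : ℕ} (i j : Fin L) (A B : M9 ℝ) : L2 i j (A + B) = L2 i j A + L2 i j B := by
  ext σ τ
  simp only [L2, Matrix.of_apply, Matrix.add_apply]
  split_ifs <;> simp

theorem L2_smul {L : ℕ} (i j : Fin L) (c : ℝ) (A : M9 ℝ) : L2 i j (c • A) = c • L2 i j A := by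
  ext σ τ
  simp only [L2, Matrix.of_apply, Matrix.smul_apply]
  split_ifs <;> simp

theorem L2_transpose {L : ℕ} (i j : Fin L) (A : M9 ℝ) : (L2 i j A)ᵀ = L2 i j Aᵀ := by
  ext σ τ
  simp only [L2, Matrix.of_apply, Matrix.transpose_apply]
  refine if_congr ⟨fun h k h1 h2 => (h k h1 h2).symm, fun h k h1 h2 => (h k h1 h2).symm⟩ rfl rfl

theorem cfg_eq {L : ℕ} (i j : Fin L) (σ τ : Cfg L) :
    σ = τ ↔ (∀ k, k ≠ i → k ≠ j → σ k = τ k) ∧ σ i = τ i ∧ σ j = τ j := by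
  constructor
  · rintro rfl; simp
  · rintro ⟨h, h1, h2⟩
    funext k
    by_cases a : k = i
    · rw [a, h1]
    · by_cases b : k = j
      · rw [b, h2]
      · exact h k a b

theorem L2_one {L : ℕ} (i j : Fin L) : L2 i j 1 = 1 := by
  ext σ τ
  simp only [L2, Matrix.of_apply, Matrix.one_apply, cfg_eq i j σ τ, Prod.mk.injEq]
  by_cases h : ∀ k, k ≠ i → k ≠ j → σ k = τ k
  · simp only [eq_true h, true_and, if_true]
  · simp only [eq_false h, false_and, if_false]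

theorem L2_mul {L : ℕ} {i j : Fin L} (hij : i ≠ j) (A B : M9 ℝ) :
    L2 i j A * L2 i j B = L2 i j (A * B) := by
  ext σ τ
  simp only [L2, Matrix.of_apply, Matrix.mul_apply]
  let φ : Fin 3 × Fin 3 → Cfg L := fun p => Function.update (Function.update σ i p.1) j p.2
  have φi : ∀ p, φ p i = p.1 := fun p => by simp [φ, hij]
  have φj : ∀ p, φ p j = p.2 := fun p => by simp [φ]
  have φk : ∀ p k, k ≠ i → k ≠ j → φ p k = σ k := fun p k h1 h2 => by simp [φ, h1, h2]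
  rw [← Finset.sum_of_injOn (s := Finset.univ) (t := Finset.univ) φ
    (f := fun p => if (∀ k, k ≠ i → k ≠ j → σ k = τ k) then A (σ i, σ j) p * B p (τ i, τ j) else 0)]
  · split_ifs <;> simp
  · intro p _ q _ h
    exact Prod.ext (by rw [← φi p, h, φi]) (by rw [← φj p, h, φj])
  · intro _ _; simp
  · intro ρ _ hρ
    rw [if_neg, zero_mul]
    intro h
    apply hρ
    refine ⟨(ρ i, ρ j), by simp, ?_⟩
    rw [cfg_eq i j]
    exact ⟨fun k h1 h2 => by rw [φk _ k h1 h2, h k h1 h2], φi _, φj _⟩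
  · intro p _
    rw [if_pos (fun k h1 h2 => (φk p k h1 h2).symm), φi, φj]
    by_cases h : ∀ k, k ≠ i → k ≠ j → σ k = τ k
    · rw [if_pos h, if_pos (fun k h1 h2 => by rw [φk p k h1 h2, h k h1 h2])]
    · rw [if_neg h, if_neg (fun h' => h fun k h1 h2 => by rw [← φk p k h1 h2, h' k h1 h2]), mul_zero]

def CZ : Fin 3 → Matrix (Fin 3) (Fin 3) ℤ :=
  ![!![0, 1, 0; 1, 0, 1; 0, 1, 0], !![0, 1, 0; -1, 0, 1; 0, -1, 0], !![1, 0, 0; 0, 0, 0; 0, 0, -1]]

def cZ (g : Fin 4) (a : Fin 3) : ℤ :=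
  (if g = 0 ∨ a.succ = 0 ∨ g = a.succ then 1 else -1) * ![1, -1, 2] a

/-- twice the bond, as an integer matrix -/
def H2 (g : Fin 4) : M9 ℤ := Matrix.of fun p q => ∑ a : Fin 3, cZ g a * (CZ a p.1 q.1 * CZ a p.2 q.2)

def AZ (g : Fin 4) : M9 ℤ := Matrix.of fun p q => (if p = q then 2 else 0) - H2 g p q
def BZ (g : Fin 4) : M9 ℤ := Matrix.of fun p q => (if p = q then 4 else 0) + H2 g p q

theorem sosA : ∀ g : Fin 4, (48 : ℤ) • AZ g =
    (8 : ℤ) • ((AZ g)ᵀ * AZ g) + (AZ g * BZ g)ᵀ * (AZ g * BZ g) := by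
  decide +kernel

theorem sosB : ∀ g : Fin 4, (48 : ℤ) • BZ g =
    (8 : ℤ) • ((BZ g)ᵀ * BZ g) + (AZ g * BZ g)ᵀ * (AZ g * BZ g) := by
  decide +kernel

noncomputable def cast (A : M9 ℤ) : M9 ℝ := A.map (Int.castRingHom ℝ)

theorem cast_mul (A B : M9 ℤ) : cast (A * B) = cast A * cast B := Matrix.map_mul

theorem cast_add (A B : M9 ℤ) : cast (A + B) = cast A + cast B := by
  ext p q; simp [cast]

theorem cast_smul (c : ℤ) (A : M9 ℤ) : cast (c • A) = (c : ℝ) • cast A := by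
  ext p q
  simp only [cast, Matrix.map_apply, Matrix.smul_apply, smul_eq_mul, map_mul, eq_intCast]

theorem cast_transpose (A : M9 ℤ) : cast Aᵀ = (cast A)ᵀ := rfl

theorem Cm_prod (a : Fin 3) (x y z w : Fin 3) :
    Cm a x y * Cm a z w = (![1 / 2, 1 / 2, 1] a : ℝ) * ((CZ a x y * CZ a z w : ℤ) : ℝ) := by
  have h : (1 / Real.sqrt 2) * (1 / Real.sqrt 2) = 1 / 2 := by
    rw [div_mul_div_comm, Real.mul_self_sqrt (by norm_num)]; norm_num
  have e : ∀ x y, Cm a x y = (![1 / Real.sqrt 2, 1 / Real.sqrt 2, 1] a : ℝ) * (CZ a x y : ℝ) := by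
    intro x y
    fin_cases a <;> fin_cases x <;> fin_cases y <;> simp [Cm, CZ]
  rw [e, e, Int.cast_mul, mul_mul_mul_comm]
  congr 1
  fin_cases a
  · exact h
  · exact h
  · simp

theorem bondR_eq {L : ℕ} (g : Fin 4) {i j : Fin L} (hij : i ≠ j) :
    bondR g i j = L2 i j ((1 / 2 : ℝ) • cast (H2 g)) := by
  unfold bondR
  simp only [onS_mul_onS hij, ← L2_smul, Fin.sum_univ_three, ← L2_add]
  congr 1
  ext p q
  simp only [Matrix.add_apply, Matrix.smul_apply, Matrix.of_apply, Cm_prod, cast, H2, Matrix.map_apply,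
    Fin.sum_univ_three, smul_eq_mul, eq_intCast, cZ, chr, eps]
  push_cast
  ring

theorem psd {L : ℕ} (X : Op L) (v : Cfg L → ℝ) : 0 ≤ v ⬝ᵥ ((Xᵀ * X) *ᵥ v) := by
  rw [← Matrix.mulVec_mulVec, Matrix.dotProduct_mulVec, Matrix.vecMul_transpose]
  exact Finset.sum_nonneg fun _ _ => mul_self_nonneg _

theorem psd_of_sos {L : ℕ} {i j : Fin L} (hij : i ≠ j) {A B C : M9 ℤ}
    (h : (48 : ℤ) • A = (8 : ℤ) • (Bᵀ * B) + Cᵀ * C) (v : Cfg L → ℝ) :
    0 ≤ v ⬝ᵥ (L2 i j (cast A) *ᵥ v) := by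
  have h1 := congrArg (fun M => v ⬝ᵥ (L2 i j (cast M) *ᵥ v)) h
  simp only [cast_smul, cast_add] at h1
  rw [cast_mul Bᵀ, cast_mul Cᵀ, cast_transpose, cast_transpose, L2_add, L2_smul, L2_smul, ← L2_mul hij,
    ← L2_mul hij, ← L2_transpose, ← L2_transpose, Matrix.add_mulVec, Matrix.smul_mulVec,
    Matrix.smul_mulVec, dotProduct_add, dotProduct_smul, dotProduct_smul] at h1
  have a := psd (L2 i j (cast B)) v
  have b := psd (L2 i j (cast C)) v
  simp only [smul_eq_mul] at h1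
  push_cast at h1
  linarith

theorem H2_entry : ∀ e : ℤ, ∀ g : Fin 4, ((g = 0 ∧ e = 1) ∨ (g = 3 ∧ e = -1)) → ∀ a b c d : Fin 3,
    H2 g (a, c) (b, d) + (if a = b ∧ c = d then 2 else 0) =
      2 * ((if a = b ∧ c = d then 1 + (1 - (a.val : ℤ)) * (1 - (c.val : ℤ)) else 0) +
        e * ((if b.val = a.val + 1 ∧ d.val + 1 = c.val then 1 else 0) +
          (if d.val = c.val + 1 ∧ b.val + 1 = a.val then 1 else 0))) := by
  rintro e g (⟨rfl, rfl⟩ | ⟨rfl, rfl⟩) <;> decide +kernel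

theorem dot_nonneg {L : ℕ} (v : Cfg L → ℝ) : 0 ≤ v ⬝ᵥ v :=
  Finset.sum_nonneg fun _ _ => mul_self_nonneg _

theorem map_onS {L : ℕ} (A : M3) (j : Fin L) :
    (onS A j).map (fun x : ℝ => (x : ℂ)) = onSite (A.map fun x : ℝ => (x : ℂ)) j := by
  ext σ τ
  simp only [onS, onSite, Matrix.map_apply, Matrix.of_apply]
  split_ifs <;> simp

theorem onSite_smul {L : ℕ} (c : ℂ) (A : Matrix (Fin 3) (Fin 3) ℂ) (j : Fin L) :
    onSite (c • A) j = c • onSite A j := by
  ext σ τ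
  simp only [onSite, Matrix.smul_apply, Matrix.of_apply]
  split_ifs <;> simp

theorem sqrt_half : ((Real.sqrt 2 : ℝ) : ℂ) / 2 = (((Real.sqrt 2)⁻¹ : ℝ) : ℂ) := by
  have h : Real.sqrt 2 / 2 = (Real.sqrt 2)⁻¹ := by
    rw [Real.sqrt_div_self']; simp
  rw [← h]; push_cast; rfl

theorem spinX_eq : spinX = (Cm 0).map (fun x : ℝ => (x : ℂ)) := by
  ext i j
  fin_cases i <;> fin_cases j <;>
    simp [spinX, spinPlus, spinMinus, Cm, Matrix.conjTranspose_apply, ← sqrt_half, -Complex.ofReal_inv] <;>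
    ring

theorem spinY_eq : spinY = (-Complex.I) • (Cm 1).map (fun x : ℝ => (x : ℂ)) := by
  ext i j
  fin_cases i <;> fin_cases j <;>
    simp [spinY, spinPlus, spinMinus, Cm, Matrix.conjTranspose_apply, ← sqrt_half, -Complex.ofReal_inv] <;>
    ring

theorem spinZ_eq : spinZ = (Cm 2).map (fun x : ℝ => (x : ℂ)) := by
  ext i j
  fin_cases i <;> fin_cases j <;> simp [spinZ, magneticNumber, Cm]
  norm_num

noncomputable def toC (L : ℕ) : Op L →+* Matrix (Cfg L) (Cfg L) ℂ := Complex.ofRealHom.mapMatrix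

theorem toC_apply {L : ℕ} (A : Op L) : toC L A = A.map (fun x : ℝ => (x : ℂ)) := rfl

theorem toC_smul {L : ℕ} (c : ℝ) (A : Op L) : toC L (c • A) = (c : ℂ) • toC L A := by
  ext σ τ; simp [toC_apply]

theorem toC_onS {L : ℕ} (A : M3) (j : Fin L) :
    toC L (onS A j) = onSite (A.map fun x : ℝ => (x : ℂ)) j := map_onS A j

theorem toC_bondR {L : ℕ} (i j : Fin L) : toC L (bondR 0 i j) = bond i j := by
  unfold bondR bond
  simp only [Fin.sum_univ_three, map_add, toC_smul, map_mul, toC_onS, chr_zero_left, spinOp, eps,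
    Matrix.cons_val_zero, Matrix.cons_val_one, Matrix.cons_val, spinX_eq, spinY_eq, spinZ_eq,
    onSite_smul, smul_mul_smul_comm]
  simp

end NrmA

open NrmA

/-- entries of `bond + 1` for the twists `0` (`e = 1`) and `3` (`e = -1`) -/
theorem bondR_apply {L : ℕ} (g : Fin 4) (e : ℝ) (hg : (g = 0 ∧ e = 1) ∨ (g = 3 ∧ e = -1)) (i j : Fin L)
    (hij : i ≠ j) (σ τ : Cfg L) :
    (bondR g i j + (1 : Op L)) σ τ = (if σ = τ then zzR (σ i) (σ j) else 0) +
      e * ((if Hop i j σ τ then 1 else 0) + (if Hop j i σ τ then 1 else 0)) := by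
  rw [bondR_eq g hij]
  obtain ⟨eZ, heZ, he⟩ : ∃ eZ : ℤ, ((g = 0 ∧ eZ = 1) ∨ (g = 3 ∧ eZ = -1)) ∧ (eZ : ℝ) = e := by
    rcases hg with ⟨h1, h2⟩ | ⟨h1, h2⟩
    · exact ⟨1, Or.inl ⟨h1, rfl⟩, by simp [h2]⟩
    · exact ⟨-1, Or.inr ⟨h1, rfl⟩, by simp [h2]⟩
  have key := congrArg (fun z : ℤ => (z : ℝ)) (H2_entry eZ g heZ (σ i) (τ i) (σ j) (τ j))
  simp only [Matrix.add_apply, Matrix.one_apply, L2, Matrix.of_apply, Matrix.smul_apply, NrmA.cast,
    Matrix.map_apply, eq_intCast, smul_eq_mul, cfg_eq i j σ τ, Hop, zzR]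
  push_cast at key
  rw [he] at key
  by_cases h : ∀ k, k ≠ i → k ≠ j → σ k = τ k
  · have h' : ∀ k, k ≠ j → k ≠ i → σ k = τ k := fun k a b => h k b a
    simp only [h, h', implies_true, true_and, and_true, if_true, ne_eq, eq_true h, eq_true h']
    split_ifs at key ⊢ <;> linarith
  · have h' : ¬ ∀ k, k ≠ j → k ≠ i → σ k = τ k := fun h' => h fun k a b => h' k b a
    simp only [eq_false h, eq_false h', false_and, and_false, if_false]
    ring

/-- Plan: either the Schur test with the weight `∏ u (σ k)`, `u = (1, √2, 1)`, using `bondR_apply`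
(and conjugation by `onS (Vm g) j` for the other twists), or sums of squares: `h = bondR g i j` is symmetric,
`(h - 1)(h + 1)(h + 2) = 0`, `1 - h = (1-h)²/3 + ((1-h)(h+2))²/6`, `h + 3 ≥ h + 2 = J²/2 ≥ 0`. -/
theorem bond_bound {L : ℕ} (g : Fin 4) (i j : Fin L) (hij : i ≠ j) (v : Cfg L → ℝ) :
    |v ⬝ᵥ ((bondR g i j + (1 : Op L)) *ᵥ v)| ≤ 2 * (v ⬝ᵥ v) := by
  have hA := psd_of_sos hij (sosA g) v
  have hB := psd_of_sos hij (sosB g) v
  have eA : NrmA.cast (AZ g) = (2 : ℝ) • (1 : M9 ℝ) + (-2 : ℝ) • ((1 / 2 : ℝ) • NrmA.cast (H2 g)) := by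
    ext p q
    simp only [NrmA.cast, AZ, Matrix.map_apply, Matrix.of_apply, eq_intCast, Matrix.add_apply,
      Matrix.smul_apply, Matrix.one_apply, smul_eq_mul]
    split_ifs <;> push_cast <;> ring
  have eB : NrmA.cast (BZ g) = (4 : ℝ) • (1 : M9 ℝ) + (2 : ℝ) • ((1 / 2 : ℝ) • NrmA.cast (H2 g)) := by
    ext p q
    simp only [NrmA.cast, BZ, Matrix.map_apply, Matrix.of_apply, eq_intCast, Matrix.add_apply,
      Matrix.smul_apply, Matrix.one_apply, smul_eq_mul]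
    split_ifs <;> push_cast <;> ring
  rw [eA, L2_add, L2_smul, L2_smul, L2_one, ← bondR_eq g hij] at hA
  rw [eB, L2_add, L2_smul, L2_smul, L2_one, ← bondR_eq g hij] at hB
  simp only [Matrix.add_mulVec, Matrix.smul_mulVec, Matrix.one_mulVec, dotProduct_add, dotProduct_smul,
    smul_eq_mul] at hA hB ⊢
  have := dot_nonneg v
  rw [abs_le]
  constructor <;> linarith

theorem sz_bound {L : ℕ} (j : Fin L) (v : Cfg L → ℝ) : |v ⬝ᵥ (onS (Cm 2) j *ᵥ v)| ≤ v ⬝ᵥ v := by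
  have e : onS (Cm 2) j = Matrix.diagonal fun σ : Cfg L => Cm 2 (σ j) (σ j) := by
    ext σ τ
    simp only [onS, Matrix.of_apply, Matrix.diagonal_apply]
    by_cases h : σ = τ
    · subst h; simp
    · rw [if_neg h]
      split_ifs with h1
      · have hne : σ j ≠ τ j := fun h2 => h (funext fun k => by
          by_cases hk : k = j
          · rw [hk, h2]
          · exact h1 k hk)
        revert hne
        generalize σ j = a
        generalize τ j = b
        fin_cases a <;> fin_cases b <;> simp [Cm]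
      · rfl
  rw [e]
  simp only [dotProduct, Matrix.mulVec_diagonal]
  refine (Finset.abs_sum_le_sum_abs _ _).trans (Finset.sum_le_sum fun σ _ => ?_)
  have h : |Cm 2 (σ j) (σ j)| ≤ 1 := by
    generalize σ j = a
    fin_cases a <;> simp [Cm]
  rw [mul_left_comm, abs_mul, abs_mul_self]
  nlinarith [mul_self_nonneg (v σ)]

/-- the integer matrix of the ring -/
noncomputable def XR (L : ℕ) (g : Fin 4) : Op L := (1 : ℝ) • HR L g + (L : ℝ) • (1 : Op L)

/-- the integer matrix of the chain on `n + 1` sites -/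
noncomputable def XO (n : ℕ) (s : ℝ) : Op (n + 1) :=
  (5 : ℝ) • HO n s + (5 * (n : ℝ) + 6) • (1 : Op (n + 1))

theorem XR_symm (L : ℕ) (hL : 2 ≤ L) (g : Fin 4) : (XR L g).IsHermitian := by
  refine isHermitian_of_transpose ?_
  rw [XR, transpose_add, transpose_smul, transpose_smul, transpose_one, HR_transpose L hL]

theorem XO_symm (n : ℕ) (s : ℝ) : (XO n s).IsHermitian := by
  refine isHermitian_of_transpose ?_
  rw [XO, transpose_add, transpose_smul, transpose_smul, transpose_one, HO_transpose]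

theorem XR_bound (L : ℕ) (hL : 2 ≤ L) (g : Fin 4) (v : Cfg L → ℝ) :
    |v ⬝ᵥ (XR L g *ᵥ v)| ≤ ((2 * L : ℕ) : ℝ) * (v ⬝ᵥ v) := by
  have e : XR L g = ∑ j : Fin L, (bondR (if j.val + 1 = L then g else 0) j (finRotate L j) + 1) := by
    rw [XR, HR, Finset.sum_add_distrib, one_smul]
    simp [Nat.cast_smul_eq_nsmul]
  rw [e, Matrix.sum_mulVec, dotProduct_sum]
  refine (Finset.abs_sum_le_sum_abs _ _).trans ((Finset.sum_le_sum fun j _ =>
    bond_bound _ j _ (finRotate_ne hL j) v).trans (le_of_eq ?_))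
  simp
  ring

theorem XO_bound (n : ℕ) (s : ℝ) (hs : s = 1 ∨ s = -1) (v : Cfg (n + 1) → ℝ) :
    |v ⬝ᵥ (XO n s *ᵥ v)| ≤ ((10 * n + 12 : ℕ) : ℝ) * (v ⬝ᵥ v) := by
  have e : XO n s = (5 : ℝ) • (∑ j : Fin n, (bondR 0 (Fin.castSucc j) (Fin.succ j) + 1)) +
      ((-3 * s) • onS (Cm 2) (0 : Fin (n + 1)) + (-3 : ℝ) • onS (Cm 2) (Fin.last n) +
        (6 : ℝ) • (1 : Op (n + 1))) := by
    rw [XO, HO, Finset.sum_add_distrib]
    simp only [Finset.sum_const, Finset.card_univ, Fintype.card_fin, ← Nat.cast_smul_eq_nsmul ℝ]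
    module
  have h1 : |v ⬝ᵥ ((∑ j : Fin n, (bondR 0 (Fin.castSucc j) (Fin.succ j) + 1)) *ᵥ v)| ≤
      2 * n * (v ⬝ᵥ v) := by
    rw [Matrix.sum_mulVec, dotProduct_sum]
    refine (Finset.abs_sum_le_sum_abs _ _).trans ((Finset.sum_le_sum fun j _ =>
      bond_bound _ _ _ (Fin.castSucc_lt_succ (i := j)).ne v).trans (le_of_eq ?_))
    simp
    ring
  have h2 := sz_bound (0 : Fin (n + 1)) v
  have h3 := sz_bound (Fin.last n) v
  have h4 := dot_nonneg v
  rw [e]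
  simp only [Matrix.add_mulVec, Matrix.smul_mulVec, Matrix.one_mulVec, dotProduct_add, dotProduct_smul,
    smul_eq_mul]
  push_cast
  rw [abs_le] at h1 h2 h3 ⊢
  rcases hs with rfl | rfl <;> constructor <;> linarith [h1.1, h1.2, h2.1, h2.2, h3.1, h3.2]

/-- Plan: `HR (k+2) 0 = HO (k+1) (-1) + bondR 0 (last) 0 + (3/5) • (…)`; `mps_open`, `bond_bound`, `sz_bound`. -/
theorem mps_ring : ∃ C : ℝ, ∀ L : ℕ, Even L → 22 ≤ L →
    ∃ ψ : Cfg L → ℝ, ψ ≠ 0 ∧ ψ ⬝ᵥ (HRn L 0 *ᵥ ψ) ≤ C * (ψ ⬝ᵥ ψ) := by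
  refine ⟨|eb0 - 2 * e0| + 5, fun L hL hL2 => ?_⟩
  obtain ⟨k, rfl⟩ : ∃ k, L = k + 2 := ⟨L - 2, by omega⟩
  obtain ⟨ψ, hψ, h⟩ := mps_open k (by simpa [Nat.even_add] using hL) (by omega)
  refine ⟨ψ, hψ, ?_⟩
  have e : HRn (k + 2) 0 = HOn k (-1) + (bondR 0 (Fin.last (k + 1)) 0 + 1) +
      ((-3 / 5 : ℝ) • onS (Cm 2) (0 : Fin (k + 2)) + (3 / 5 : ℝ) • onS (Cm 2) (Fin.last (k + 1)) +
        (eb0 - 2 * e0 - 1) • (1 : Op (k + 2))) := by
    rw [HRn, HOn, HR, HO, Fin.sum_univ_castSucc]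
    simp only [ite_self, finRotate_last, finRotate_apply, Fin.coeSucc_eq_succ, Fin.last_add_one]
    push_cast
    module
  have h1 := bond_bound 0 (Fin.last (k + 1)) 0 Fin.last_pos.ne' ψ
  have h2 := sz_bound (0 : Fin (k + 2)) ψ
  have h3 := sz_bound (Fin.last (k + 1)) ψ
  have h4 := dot_nonneg ψ
  have h5 := mul_le_mul_of_nonneg_right (le_abs_self (eb0 - 2 * e0)) h4
  rw [e, Matrix.add_mulVec, Matrix.add_mulVec, dotProduct_add, dotProduct_add]
  simp only [Matrix.add_mulVec (_ + _), Matrix.add_mulVec (_ • _), Matrix.smul_mulVec, Matrix.one_mulVec,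
    dotProduct_add, dotProduct_smul, smul_eq_mul]
  rw [abs_le] at h1 h2 h3
  linarith [h1.1, h1.2, h2.1, h2.2, h3.1, h3.2]

theorem ring_eq (L : ℕ) :
    heisenbergRing L = (HRn L 0 + ((L : ℝ) * e0) • (1 : Op L)).map (fun x : ℝ => (x : ℂ)) := by
  rw [HRn, sub_add_cancel, ← toC_apply, HR, map_sum]
  simp only [ite_self, toC_bondR]
  rfl

theorem open_eq (k : ℕ) :
    openChainEndField (k + 1) (3 / 5) =
      (HOn k 1 + ((k : ℝ) * e0 + eb0) • (1 : Op (k + 2))).map (fun x : ℝ => (x : ℂ)) := by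
  rw [HOn, sub_add_cancel, ← toC_apply, HO, map_sub, map_sum, toC_smul, map_add, one_smul, toC_onS,
    toC_onS, ← spinZ_eq]
  simp only [toC_bondR]
  rfl

end Crest.Agent.R347
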