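import Crest.Agent.R347.Defs

/-!
# R347: spectral formulas for real symmetric matrices
-/

set_option autoImplicit false

namespace Crest.Agent.R347

open Matrix Filter Topology

variable {n : Type} [Fintype n] [DecidableEq n]

/-- the `i`-th normalised eigenvector -/
noncomputable def ev {H : Matrix n n ℝ} (hH : H.IsHermitian) (i : n) : n → ℝ :=
  (hH.eigenvectorBasis i).ofLp

/-- spectral weight of `V` -/
noncomputable def wt {H : Matrix n n ℝ} (hH : H.IsHermitian) (V : Matrix n n ℝ) (i : n) : ℝ :=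
  ev hH i ⬝ᵥ (V *ᵥ ev hH i)

private theorem exp_intertwine (U U' A B : Matrix n n ℝ) (hU : U * U' = 1) (h : U * A = B * U) :
    U * NormedSpace.exp A = NormedSpace.exp B * U := by
  have hU' : U' * U = 1 := mul_eq_one_comm.1 hU
  have h1 := Matrix.exp_units_conj (⟨U, U', hU, hU'⟩ : (Matrix n n ℝ)ˣ) A
  simp only [Units.inv_mk] at h1
  rw [h, mul_assoc, hU, mul_one] at h1
  rw [h1, mul_assoc, hU', mul_one]

private theorem pow_intertwine (U A B : Matrix n n ℝ) (h : U * A = B * U) (k : ℕ) :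
    U * A ^ k = B ^ k * U := by
  induction k with
  | zero => simp
  | succ k ih => rw [pow_succ, ← mul_assoc, ih, mul_assoc, h, ← mul_assoc, ← pow_succ]

private theorem exp_diag' (f : n → ℝ) :
    NormedSpace.exp (diagonal f) = diagonal fun i => Real.exp (f i) := by
  rw [Matrix.exp_diagonal, Pi.exp_def, Real.exp_eq_exp_ℝ]

section spec

variable {H : Matrix n n ℝ} (hH : H.IsHermitian)

theorem ev_dot (i j : n) : ev hH i ⬝ᵥ ev hH j = if i = j then 1 else 0 := by
  have h := orthonormal_iff_ite.1 hH.eigenvectorBasis.orthonormal j i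
  rw [EuclideanSpace.inner_eq_star_dotProduct] at h
  simp only [star_trivial] at h
  unfold ev
  rw [h]
  simp only [eq_comm]

theorem mulVec_ev (i : n) : H *ᵥ ev hH i = hH.eigenvalues i • ev hH i := by
  exact hH.mulVec_eigenvectorBasis i

private noncomputable def Um : Matrix n n ℝ := Matrix.of fun a i => ev hH i a

private theorem UtU : (Um hH)ᵀ * Um hH = 1 := by
  ext i j
  rw [Matrix.one_apply, ← ev_dot hH i j]
  rfl

private theorem UUt : Um hH * (Um hH)ᵀ = 1 := mul_eq_one_comm.1 (UtU hH)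

private theorem HU : Um hH * diagonal hH.eigenvalues = H * Um hH := by
  ext a i
  have h := congrFun (mulVec_ev hH i) a
  rw [mul_diagonal]
  change ev hH i a * _ = (H *ᵥ ev hH i) a
  rw [h, Pi.smul_apply, smul_eq_mul, mul_comm]

private theorem exp_eq (t : ℝ) : NormedSpace.exp (t • H) =
    Um hH * diagonal (fun i => Real.exp (t * hH.eigenvalues i)) * (Um hH)ᵀ := by
  have h1 : Um hH * diagonal (fun i => t * hH.eigenvalues i) = (t • H) * Um hH := by
    rw [Matrix.smul_mul, ← HU hH, ← Matrix.mul_smul, ← diagonal_smul]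
    rfl
  have h2 := exp_intertwine _ _ _ _ (UUt hH) h1
  rw [exp_diag'] at h2
  rw [h2, mul_assoc, UUt, mul_one]

private theorem pow_eq (k : ℕ) : H ^ k =
    Um hH * diagonal (fun i => hH.eigenvalues i ^ k) * (Um hH)ᵀ := by
  have h2 := pow_intertwine _ _ _ (HU hH) k
  rw [diagonal_pow] at h2
  have h3 : (hH.eigenvalues ^ k) = fun i => hH.eigenvalues i ^ k := rfl
  rw [← h3, h2, mul_assoc, UUt, mul_one]

private theorem entry_eq (f : n → ℝ) (a b : n) :
    (Um hH * diagonal f * (Um hH)ᵀ) a b = ∑ i, ev hH i a * f i * ev hH i b := by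
  rw [Matrix.mul_apply]
  refine Finset.sum_congr rfl fun i _ => ?_
  rw [mul_diagonal]
  rfl

private theorem trace_diag (V : Matrix n n ℝ) (f : n → ℝ) :
    trace (V * (Um hH * diagonal f * (Um hH)ᵀ)) = ∑ i, wt hH V i * f i := by
  rw [← mul_assoc, trace_mul_comm, ← mul_assoc, ← mul_assoc]
  unfold trace
  refine Finset.sum_congr rfl fun i _ => ?_
  rw [diag_apply, mul_diagonal, mul_assoc]
  rfl

private theorem row_sq (a : n) : ∑ i, ev hH i a ^ 2 = 1 := by
  have h := congrFun (congrFun (UUt hH) a) a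
  rw [Matrix.one_apply_eq, Matrix.mul_apply] at h
  rw [← h]
  refine Finset.sum_congr rfl fun i _ => ?_
  rw [sq]
  rfl

/-- expansion in the eigenbasis -/
theorem sum_ev (v : n → ℝ) : v = ∑ i, (ev hH i ⬝ᵥ v) • ev hH i := by
  funext a
  have h : ((Um hH * (Um hH)ᵀ) *ᵥ v) a = v a := by rw [UUt, one_mulVec]
  rw [← h, ← mulVec_mulVec, Finset.sum_apply]
  change ∑ i, ev hH i a * (ev hH i ⬝ᵥ v) = _
  refine Finset.sum_congr rfl fun i _ => ?_
  rw [Pi.smul_apply, smul_eq_mul, mul_comm]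

/-- Plan: `H = U D Uᵀ` (`spectral_theorem`), `exp_conj`/`exp_units_conj`, `exp_diagonal`,
`trace_mul_comm`. -/
theorem trace_mul_exp (V : Matrix n n ℝ) (t : ℝ) :
    trace (V * NormedSpace.exp (t • H)) = ∑ i, wt hH V i * Real.exp (t * hH.eigenvalues i) := by
  rw [exp_eq hH, trace_diag]

theorem trace_mul_pow (V : Matrix n n ℝ) (k : ℕ) :
    trace (V * H ^ k) = ∑ i, wt hH V i * hH.eigenvalues i ^ k := by
  rw [pow_eq hH, trace_diag]

theorem dot_pow_mulVec (v : n → ℝ) (k : ℕ) :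
    v ⬝ᵥ (H ^ k *ᵥ v) = ∑ i, (ev hH i ⬝ᵥ v) ^ 2 * hH.eigenvalues i ^ k := by
  rw [pow_eq hH, ← mulVec_mulVec, ← mulVec_mulVec, dotProduct_mulVec, ← mulVec_transpose]
  unfold dotProduct
  refine Finset.sum_congr rfl fun i _ => ?_
  rw [mulVec_diagonal]
  change (ev hH i ⬝ᵥ v) * (_ * (ev hH i ⬝ᵥ v)) = (ev hH i ⬝ᵥ v) ^ 2 * _
  ring

theorem wt_one (i : n) : wt hH 1 i = 1 := by
  unfold wt
  rw [one_mulVec, ev_dot, if_pos rfl]

theorem wt_add (V W : Matrix n n ℝ) (i : n) : wt hH (V + W) i = wt hH V i + wt hH W i := by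
  unfold wt
  rw [add_mulVec, dotProduct_add]

theorem wt_sub (V W : Matrix n n ℝ) (i : n) : wt hH (V - W) i = wt hH V i - wt hH W i := by
  unfold wt
  rw [sub_mulVec, dotProduct_sub]

theorem wt_smul (c : ℝ) (V : Matrix n n ℝ) (i : n) : wt hH (c • V) i = c * wt hH V i := by
  unfold wt
  rw [smul_mulVec, dotProduct_smul, smul_eq_mul]

private theorem sym_dot {P : Matrix n n ℝ} (hP : Pᵀ = P) (u v : n → ℝ) : u ⬝ᵥ (P *ᵥ v) = (P *ᵥ u) ⬝ᵥ v := by
  rw [dotProduct_mulVec, ← mulVec_transpose, hP]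

private theorem wt_proj {P : Matrix n n ℝ} (hP : IsProj H P) (i : n) :
    wt hH P i = (P *ᵥ ev hH i) ⬝ᵥ (P *ᵥ ev hH i) := by
  unfold wt
  rw [← sym_dot hP.symm, mulVec_mulVec, hP.idem]

private theorem dot_self_nonneg (v : n → ℝ) : 0 ≤ v ⬝ᵥ v := Finset.sum_nonneg fun _ _ => mul_self_nonneg _

private theorem parseval (v : n → ℝ) : v ⬝ᵥ v = ∑ i, (ev hH i ⬝ᵥ v) ^ 2 := by
  have h := dot_pow_mulVec hH v 0
  simpa using h

theorem wt_nonneg {P : Matrix n n ℝ} (hP : IsProj H P) (i : n) : 0 ≤ wt hH P i := by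
  rw [wt_proj hH hP]
  exact dot_self_nonneg _

theorem wt_le_one {P : Matrix n n ℝ} (hP : IsProj H P) (i : n) : wt hH P i ≤ 1 := by
  have hQ : IsProj H (1 - P) := ⟨by rw [transpose_sub, transpose_one, hP.symm], by
    rw [sub_mul, mul_sub, mul_sub, hP.idem]; simp, by rw [sub_mul, mul_sub, hP.comm]; simp⟩
  have h := wt_nonneg hH hQ i
  rw [wt_sub, wt_one] at h
  linarith

/-- every atom of the spectral measure of a commuting projection has mass at least one.
Plan: `v = P uᵢ ≠ 0` is an eigenvector with the same eigenvalue, `P v = v`;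
`wt P j = |P u_j|² ≥ ⟨v, u_j⟩² / |v|²` (Cauchy–Schwarz), `⟨v, u_j⟩ = 0` for other eigenvalues, Parseval. -/
theorem wt_mass {P : Matrix n n ℝ} (hP : IsProj H P) (i : n) (hi : wt hH P i ≠ 0) :
    1 ≤ ∑ j ∈ Finset.univ.filter (fun j => hH.eigenvalues j = hH.eigenvalues i), wt hH P j := by
  set v := P *ᵥ ev hH i with hv
  have hHs : Hᵀ = H := by
    have := hH.eq
    rwa [conjTranspose_eq_transpose_of_trivial] at this
  have hvv : 0 < v ⬝ᵥ v := by
    rw [hv, ← wt_proj hH hP]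
    exact lt_of_le_of_ne (wt_nonneg hH hP i) (Ne.symm hi)
  have hHv : H *ᵥ v = hH.eigenvalues i • v := by
    rw [hv, mulVec_mulVec, ← hP.comm, ← mulVec_mulVec, mulVec_ev, mulVec_smul]
  have hPv : P *ᵥ v = v := by rw [hv, mulVec_mulVec, hP.idem]
  have h0 : ∀ j, hH.eigenvalues j ≠ hH.eigenvalues i → ev hH j ⬝ᵥ v = 0 := by
    intro j hj
    have h1 := sym_dot hHs (ev hH j) v
    rw [hHv, mulVec_ev, dotProduct_smul, smul_dotProduct, smul_eq_mul, smul_eq_mul] at h1
    have h2 : (hH.eigenvalues j - hH.eigenvalues i) * (ev hH j ⬝ᵥ v) = 0 := by linarith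
    exact (mul_eq_zero.1 h2).resolve_left (sub_ne_zero.2 hj)
  have h1 : ∀ j, (ev hH j ⬝ᵥ v) ^ 2 ≤ wt hH P j * (v ⬝ᵥ v) := by
    intro j
    rw [wt_proj hH hP]
    nth_rw 1 [← hPv]
    rw [sym_dot hP.symm]
    have := Finset.sum_mul_sq_le_sq_mul_sq Finset.univ (P *ᵥ ev hH j) v
    simpa only [dotProduct, sq] using this
  have h2 : v ⬝ᵥ v = ∑ j ∈ Finset.univ.filter (fun j => hH.eigenvalues j = hH.eigenvalues i),
      (ev hH j ⬝ᵥ v) ^ 2 := by
    rw [parseval hH v, Finset.sum_filter]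
    refine Finset.sum_congr rfl fun j _ => ?_
    split_ifs with hj
    · rfl
    · rw [h0 j hj]; simp
  have h3 : 1 * (v ⬝ᵥ v) ≤ (∑ j ∈ Finset.univ.filter (fun j => hH.eigenvalues j = hH.eigenvalues i),
      wt hH P j) * (v ⬝ᵥ v) := by
    rw [one_mul, Finset.sum_mul]
    exact h2.le.trans (Finset.sum_le_sum fun j _ => h1 j)
  exact le_of_mul_le_mul_right h3 hvv

theorem eig_abs_le (R : ℝ) (h : ∀ v : n → ℝ, |v ⬝ᵥ (H *ᵥ v)| ≤ R * (v ⬝ᵥ v)) (i : n) :
    |hH.eigenvalues i| ≤ R := by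
  have h1 := h (ev hH i)
  rwa [mulVec_ev, dotProduct_smul, ev_dot, if_pos rfl, smul_eq_mul, mul_one, mul_one] at h1

theorem exists_eig_le (C : ℝ) (ψ : n → ℝ) (hψ : ψ ≠ 0) (h : ψ ⬝ᵥ (H *ᵥ ψ) ≤ C * (ψ ⬝ᵥ ψ)) :
    ∃ i, hH.eigenvalues i ≤ C := by
  by_contra hn
  push Not at hn
  have h1 := dot_pow_mulVec hH ψ 1
  simp only [pow_one] at h1
  rw [h1, parseval hH ψ, Finset.mul_sum] at h
  obtain ⟨i, hi⟩ : ∃ i, ev hH i ⬝ᵥ ψ ≠ 0 := by
    by_contra h2
    push Not at h2
    refine hψ ?_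
    rw [sum_ev hH ψ]
    simp [h2]
  refine absurd h (not_le.2 (Finset.sum_lt_sum (fun j _ => ?_) ⟨i, Finset.mem_univ i, ?_⟩))
  · rw [mul_comm]
    exact mul_le_mul_of_nonneg_left (hn j).le (sq_nonneg _)
  · rw [mul_comm]
    exact mul_lt_mul_of_pos_left (hn i) (by positivity)

include hH in
/-- entries of powers are bounded by the spectral bound -/
theorem pow_entry_le (R : ℝ) (h : ∀ v : n → ℝ, |v ⬝ᵥ (H *ᵥ v)| ≤ R * (v ⬝ᵥ v)) (k : ℕ) (i j : n) :
    |(H ^ k) i j| ≤ R ^ k := by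
  rw [pow_eq hH, entry_eq]
  refine (Finset.abs_sum_le_sum_abs _ _).trans ?_
  have h1 : ∀ l, |ev hH l i * hH.eigenvalues l ^ k * ev hH l j| ≤ R ^ k / 2 * (ev hH l i ^ 2 + ev hH l j ^ 2) := by
    intro l
    have h2 : |hH.eigenvalues l| ^ k ≤ R ^ k := pow_le_pow_left₀ (abs_nonneg _) (eig_abs_le hH R h l) k
    have h3 : |ev hH l i| * |ev hH l j| ≤ (ev hH l i ^ 2 + ev hH l j ^ 2) / 2 := by
      nlinarith [sq_nonneg (|ev hH l i| - |ev hH l j|), sq_abs (ev hH l i), sq_abs (ev hH l j)]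
    rw [abs_mul, abs_mul, abs_pow]
    calc |ev hH l i| * |hH.eigenvalues l| ^ k * |ev hH l j|
        = |hH.eigenvalues l| ^ k * (|ev hH l i| * |ev hH l j|) := by ring
      _ ≤ R ^ k * ((ev hH l i ^ 2 + ev hH l j ^ 2) / 2) :=
        mul_le_mul h2 h3 (by positivity) ((by positivity : (0 : ℝ) ≤ _).trans h2)
      _ = _ := by ring
  refine (Finset.sum_le_sum fun l _ => h1 l).trans (le_of_eq ?_)
  rw [← Finset.mul_sum, Finset.sum_add_distrib, row_sq, row_sq]
  ring

include hH in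
theorem exp_diag_pos (t : ℝ) (i : n) : 0 < NormedSpace.exp (t • H) i i := by
  rw [exp_eq hH, entry_eq]
  obtain ⟨l, hl⟩ : ∃ l, ev hH l i ≠ 0 := by
    by_contra h2
    push Not at h2
    have := row_sq hH i
    simp [h2] at this
  have h1 : ∀ l, ev hH l i * Real.exp (t * hH.eigenvalues l) * ev hH l i =
      ev hH l i ^ 2 * Real.exp (t * hH.eigenvalues l) := fun l => by ring
  simp only [h1]
  exact Finset.sum_pos' (fun l _ => by positivity) ⟨l, Finset.mem_univ l, by positivity⟩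

end spec

/-- scalar shifts -/
theorem exp_shift (H : Matrix n n ℝ) (t c : ℝ) :
    NormedSpace.exp (t • (H - c • (1 : Matrix n n ℝ))) =
      Real.exp (-(t * c)) • NormedSpace.exp (t • H) := by
  have h1 : t • (H - c • (1 : Matrix n n ℝ)) = t • H + (-(t * c)) • (1 : Matrix n n ℝ) := by
    rw [smul_sub, smul_smul, neg_smul, sub_eq_add_neg]
  have h2 : NormedSpace.exp ((-(t * c)) • (1 : Matrix n n ℝ)) = Real.exp (-(t * c)) • (1 : Matrix n n ℝ) := by
    rw [smul_one_eq_diagonal, smul_one_eq_diagonal, exp_diag']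
  rw [h1, Matrix.exp_add_of_commute _ _ ((Commute.one_right _).smul_right _), h2, Matrix.mul_smul, mul_one]

private theorem trace_conj (U U' A A' V V' : Matrix n n ℝ) (hU : U * U' = 1) (hA : U * A = A' * U)
    (hV : U * V = V' * U) : trace (V * A) = trace (V' * A') := by
  have hU' : U' * U = 1 := mul_eq_one_comm.1 hU
  calc trace (V * A) = trace (U' * (U * V * A)) := by rw [← mul_assoc, ← mul_assoc, hU', one_mul]
    _ = trace (U' * (V' * A' * U)) := by rw [hV, mul_assoc V', hA, mul_assoc V']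
    _ = _ := by rw [trace_mul_comm, mul_assoc, hU, mul_one]

/-- conjugation invariance -/
theorem trace_exp_conj (U U' H H' V V' : Matrix n n ℝ) (hU : U * U' = 1) (hH : U * H = H' * U)
    (hV : U * V = V' * U) (t : ℝ) :
    trace (V * NormedSpace.exp (t • H)) = trace (V' * NormedSpace.exp (t • H')) := by
  refine trace_conj U U' _ _ V V' hU (exp_intertwine U U' _ _ hU ?_) hV
  rw [Matrix.mul_smul, hH, Matrix.smul_mul]

theorem trace_pow_conj (U U' H H' V V' : Matrix n n ℝ) (hU : U * U' = 1) (hH : U * H = H' * U)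
    (hV : U * V = V' * U) (k : ℕ) :
    trace (V * H ^ k) = trace (V' * H' ^ k) := by
  exact trace_conj U U' _ _ V V' hU (pow_intertwine U _ _ hH k) hV

theorem commute_exp (P H : Matrix n n ℝ) (h : P * H = H * P) (t : ℝ) :
    P * NormedSpace.exp (t • H) = NormedSpace.exp (t • H) * P := by
  exact ((show Commute P H from h).smul_right t).exp_right

end Crest.Agent.R347
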