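import Crest.Agent.R347.MpsT

/-!
# R347: the Gram recursion of a matrix product state
-/

set_option autoImplicit false

namespace Crest.Agent.R347

open Matrix

variable {D : ℕ}

namespace MpsV

variable {m : ℕ}

/-- `M ⊗ O`, `O` on the last site -/
def kron (M : Op m) (O : M3) : Op (m + 1) :=
  Matrix.of fun σ τ => M (Fin.init σ) (Fin.init τ) * O (σ (Fin.last m)) (τ (Fin.last m))

theorem sum_cfg (F : Cfg (m + 1) → ℝ) :
    ∑ σ, F σ = ∑ s : Fin 3, ∑ τ : Cfg m, F (Fin.snoc τ s) := by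
  rw [← (Fin.snocEquiv (fun _ : Fin (m + 1) => Fin 3)).sum_comp, Fintype.sum_prod_type]
  rfl

theorem kron_mul (M M' : Op m) (O O' : M3) : kron M O * kron M' O' = kron (M * M') (O * O') := by
  ext σ τ
  rw [Matrix.mul_apply, sum_cfg]
  simp only [kron, of_apply, Fin.init_snoc, Fin.snoc_last, Matrix.mul_apply]
  rw [Finset.sum_comm, Finset.sum_mul_sum]
  refine Finset.sum_congr rfl fun _ _ => Finset.sum_congr rfl fun _ _ => ?_
  ring

theorem kron_add (M M' : Op m) (O : M3) : kron (M + M') O = kron M O + kron M' O := by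
  ext σ τ
  simp [kron, add_mul]

theorem kron_smul (c : ℝ) (M : Op m) (O : M3) : kron (c • M) O = c • kron M O := by
  ext σ τ
  simp [kron, mul_assoc]

theorem kron_zero (O : M3) : kron (0 : Op m) O = 0 := by
  ext σ τ
  simp [kron]

theorem kron_sum {ι : Type} (s : Finset ι) (M : ι → Op m) (O : M3) :
    kron (∑ i ∈ s, M i) O = ∑ i ∈ s, kron (M i) O := by
  ext σ τ
  simp [kron, Matrix.sum_apply, Finset.sum_mul]

theorem kron_last (O : M3) : kron (1 : Op m) O = onS O (Fin.last m) := by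
  ext σ τ
  simp only [kron, onS, of_apply, Matrix.one_apply]
  have : Fin.init σ = Fin.init τ ↔ ∀ k, k ≠ Fin.last m → σ k = τ k := by
    constructor
    · intro h k hk
      obtain ⟨k, rfl⟩ := Fin.exists_castSucc_eq.2 hk
      exact congrFun h k
    · intro h
      funext k
      exact h _ (Fin.castSucc_ne_last k)
  simp only [this]
  split_ifs <;> simp

theorem kron_onS (B : M3) (i : Fin m) : kron (onS B i) 1 = onS B (Fin.castSucc i) := by
  ext σ τ
  simp only [kron, onS, of_apply, Matrix.one_apply]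
  have : (∀ k, k ≠ Fin.castSucc i → σ k = τ k) ↔
      (∀ k, k ≠ i → Fin.init σ k = Fin.init τ k) ∧ σ (Fin.last m) = τ (Fin.last m) := by
    constructor
    · intro h
      exact ⟨fun k hk => h _ fun h' => hk (Fin.castSucc_injective _ h'),
        h _ (Fin.castSucc_ne_last i).symm⟩
    · rintro ⟨h1, h2⟩ k hk
      induction k using Fin.lastCases with
      | last => exact h2
      | cast k => exact h1 k fun h' => hk (by rw [h'])
  simp only [this]
  by_cases h1 : ∀ k, k ≠ i → Fin.init σ k = Fin.init τ k <;>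
    by_cases h2 : σ (Fin.last m) = τ (Fin.last m) <;> simp [h1, h2, Fin.init]

theorem kron_one : kron (1 : Op m) 1 = 1 := by
  ext σ τ
  simp only [kron, of_apply, Matrix.one_apply]
  by_cases h : σ = τ
  · simp [h]
  · rw [if_neg h]
    by_cases h1 : Fin.init σ = Fin.init τ
    · have h2 : σ (Fin.last m) ≠ τ (Fin.last m) := fun h2 =>
        h (by rw [← Fin.snoc_init_self σ, h1, h2, Fin.snoc_init_self])
      rw [if_neg h2, mul_zero]
    · rw [if_neg h1, zero_mul]

theorem onS_add (A B : M3) (j : Fin m) : onS (A + B) j = onS A j + onS B j := by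
  ext σ τ
  simp only [onS, of_apply, Matrix.add_apply]
  split_ifs <;> simp

theorem onS_sub (A B : M3) (j : Fin m) : onS (A - B) j = onS A j - onS B j := by
  ext σ τ
  simp only [onS, of_apply, Matrix.sub_apply]
  split_ifs <;> simp

theorem onS_smul (c : ℝ) (A : M3) (j : Fin m) : onS (c • A) j = c • onS A j := by
  ext σ τ
  simp only [onS, of_apply, Matrix.smul_apply]
  split_ifs <;> simp

theorem Cm0 : Cm 0 = (1 / Real.sqrt 2) • (Dm 0 + Dm 1) := by
  ext i j
  fin_cases i <;> fin_cases j <;> simp [Cm, Dm]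

theorem Cm1 : Cm 1 = (1 / Real.sqrt 2) • (Dm 0 - Dm 1) := by
  ext i j
  fin_cases i <;> fin_cases j <;> simp [Cm, Dm]

theorem Cm2 : Cm 2 = Dm 2 := rfl

theorem bond_eq (i j : Fin m) : bondR 0 i j = ∑ a, onS (Dm a) i * onS (Dm (bar a)) j := by
  have h2 : (1 / Real.sqrt 2) * (1 / Real.sqrt 2) = 1 / 2 := by
    rw [div_mul_div_comm, Real.mul_self_sqrt (by norm_num), one_mul]
  have b0 : bar 0 = 1 := rfl
  have b1 : bar 1 = 0 := rfl
  have b2 : bar 2 = 2 := rfl
  have e0 : eps 0 = 1 := rfl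
  have e1 : eps 1 = -1 := rfl
  have e2 : eps 2 = 1 := rfl
  simp only [bondR, Fin.sum_univ_three, chr, true_or, if_true, Cm0, Cm1, Cm2, onS_smul, onS_add,
    onS_sub, b0, b1, b2, e0, e1, e2, smul_mul_smul_comm, h2, add_mul, mul_add, sub_mul, mul_sub]
  module

theorem kron_bond (i j : Fin m) :
    kron (bondR 0 i j) 1 = bondR 0 (Fin.castSucc i) (Fin.castSucc j) := by
  rw [bond_eq, bond_eq, kron_sum]
  refine Finset.sum_congr rfl fun a _ => ?_
  rw [← kron_onS, ← kron_onS, kron_mul, one_mul]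

/-- bonds and left field -/
noncomputable def HL (n : ℕ) (f : ℝ) : Op (n + 1) :=
  (∑ j : Fin n, bondR 0 (Fin.castSucc j) (Fin.succ j)) + f • onS (Dm 2) (0 : Fin (n + 1))

theorem HL_succ (n : ℕ) (f : ℝ) : HL (n + 1) f =
    kron (HL n f) 1 + ∑ a, kron (onS (Dm a) (Fin.last n)) (Dm (bar a)) := by
  rw [HL, HL, kron_add, kron_smul, kron_sum, kron_onS, Fin.sum_univ_castSucc, bond_eq]
  simp only [kron_bond, Fin.succ_castSucc, Fin.succ_last, Fin.castSucc_zero]
  have : ∀ a, onS (Dm a) (Fin.castSucc (Fin.last n)) * onS (Dm (bar a)) (Fin.last (n + 1)) =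
      kron (onS (Dm a) (Fin.last n)) (Dm (bar a)) := by
    intro a
    rw [← kron_onS, ← kron_last (Dm (bar a)), kron_mul, one_mul, mul_one]
  simp only [this]
  abel

/-- Gram matrix -/
noncomputable def gram (Φ : Fin D → Cfg m → ℝ) (M : Op m) : MD D :=
  Matrix.of fun α β => Φ α ⬝ᵥ (M *ᵥ Φ β)

theorem gram_add (Φ : Fin D → Cfg m → ℝ) (M M' : Op m) : gram Φ (M + M') = gram Φ M + gram Φ M' := by
  ext α β
  simp [gram, add_mulVec]

theorem gram_smul (Φ : Fin D → Cfg m → ℝ) (c : ℝ) (M : Op m) : gram Φ (c • M) = c • gram Φ M := by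
  ext α β
  simp [gram, smul_mulVec]

theorem gram_zero (Φ : Fin D → Cfg m → ℝ) : gram Φ 0 = 0 := by
  ext α β
  simp [gram]

theorem gram_sum {ι : Type} (s : Finset ι) (Φ : Fin D → Cfg m → ℝ) (M : ι → Op m) :
    gram Φ (∑ i ∈ s, M i) = ∑ i ∈ s, gram Φ (M i) := by
  classical
  induction s using Finset.induction_on with
  | empty => simp [gram_zero]
  | insert i s hi ih => rw [Finset.sum_insert hi, Finset.sum_insert hi, gram_add, ih]

/-- add a site -/
noncomputable def ext (Φ : Fin D → Cfg m → ℝ) (A : Fin 3 → MD D) : Fin D → Cfg (m + 1) → ℝ :=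
  fun α σ => ∑ γ, Φ γ (Fin.init σ) * A (σ (Fin.last m)) γ α

theorem sand_gram (Φ : Fin D → Cfg m → ℝ) (A : Fin 3 → MD D) (O : M3) (M : Op m) :
    sand A O (gram Φ M) = gram (ext Φ A) (kron M O) := by
  ext α β
  simp only [sand, gram, Matrix.sum_apply, Matrix.smul_apply, Matrix.mul_apply, transpose_apply,
    of_apply, dotProduct, mulVec, sum_cfg, ext, kron, Fin.init_snoc, Fin.snoc_last, smul_eq_mul,
    Finset.mul_sum, Finset.sum_mul]
  refine Finset.sum_congr rfl fun s _ => ?_
  conv_rhs => rw [Finset.sum_comm]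
  refine Finset.sum_congr rfl fun t _ => ?_
  -- left: δ γ σ τ ; right: σ τ δ γ
  calc _ = ∑ δ, ∑ γ, ∑ σ, ∑ τ, O s t * (A s γ α * (Φ γ σ * (M σ τ * Φ δ τ)) * A t δ β) := rfl
    _ = ∑ δ, ∑ σ, ∑ τ, ∑ γ, O s t * (A s γ α * (Φ γ σ * (M σ τ * Φ δ τ)) * A t δ β) := by
      refine Finset.sum_congr rfl fun δ _ => ?_
      rw [Finset.sum_comm]
      exact Finset.sum_congr rfl fun σ _ => Finset.sum_comm
    _ = ∑ σ, ∑ τ, ∑ δ, ∑ γ, O s t * (A s γ α * (Φ γ σ * (M σ τ * Φ δ τ)) * A t δ β) := by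
      rw [Finset.sum_comm]
      exact Finset.sum_congr rfl fun σ _ => Finset.sum_comm
    _ = _ := by
      refine Finset.sum_congr rfl fun σ _ => Finset.sum_congr rfl fun τ _ =>
        Finset.sum_congr rfl fun δ _ => Finset.sum_congr rfl fun γ _ => ?_
      ring

/-- the initial vector -/
def ph0 (D : ℕ) : Fin D → Cfg 0 → ℝ := fun α _ => if α.val = 0 then 1 else 0

theorem E00_eq : E00 D = gram (ph0 D) 1 := by
  ext α β
  simp only [E00, gram, of_apply, one_mulVec, dotProduct, ph0, Finset.univ_unique,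
    Finset.sum_singleton]
  by_cases h1 : α.val = 0 <;> by_cases h2 : β.val = 0 <;> simp [h1, h2]

theorem inv (f : ℝ) (l : List (Fin 3 → MD D)) : ∀ n : ℕ, l.length = n + 1 →
    ∃ Φ : Fin D → Cfg (n + 1) → ℝ, ((St.init D f).run l).N = gram Φ 1 ∧
      ((St.init D f).run l).X = gram Φ (HL n f) ∧
      ∀ a, ((St.init D f).run l).Y a = gram Φ (onS (Dm a) (Fin.last n)) := by
  induction l using List.reverseRecOn with
  | nil => intro n hn; simp at hn
  | append_singleton l A ih =>
    intro n hn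
    have hrun : (St.init D f).run (l ++ [A]) = ((St.init D f).run l).step A := by
      simp [St.run]
    rw [hrun]
    cases n with
    | zero =>
      obtain rfl : l = [] := by simpa using hn
      refine ⟨ext (ph0 D) A, ?_, ?_, fun a => ?_⟩
      · change sand A 1 (E00 D) = _
        rw [E00_eq, sand_gram, kron_one]
      · change sand A 1 0 + ∑ a, sand A (Dm (bar a)) (if a = 2 then f • E00 D else 0) = _
        rw [Fin.sum_univ_three, if_neg (by decide), if_neg (by decide), if_pos rfl, E00_eq,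
          ← gram_smul, sand_gram, kron_smul, kron_last]
        simp [HL, bar, sand]
      · change sand A (Dm a) (E00 D) = _
        rw [E00_eq, sand_gram, kron_last]
    | succ n =>
      obtain ⟨Φ, h1, h2, h3⟩ := ih n (by simpa using hn)
      refine ⟨ext Φ A, ?_, ?_, fun a => ?_⟩
      · change sand A 1 _ = _
        rw [h1, sand_gram, kron_one]
      · change sand A 1 _ + ∑ a, sand A (Dm (bar a)) _ = _
        simp only [h2, h3, sand_gram]
        rw [HL_succ, gram_add, gram_sum]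
      · change sand A (Dm a) _ = _
        rw [h1, sand_gram, kron_last]

theorem trace_gram (Φ : Fin D → Cfg m → ℝ) (M : Op m) :
    trace (gram Φ M * (E00 D)ᵀ) = (∑ α, (if α.val = 0 then (1 : ℝ) else 0) • Φ α) ⬝ᵥ
      (M *ᵥ ∑ α, (if α.val = 0 then (1 : ℝ) else 0) • Φ α) := by
  rw [sum_dotProduct]
  simp only [trace, diag, Matrix.mul_apply, transpose_apply, gram, E00, of_apply, mulVec_sum,
    dotProduct_sum, mulVec_smul, smul_dotProduct, dotProduct_smul, smul_eq_mul]
  refine Finset.sum_congr rfl fun α _ => Finset.sum_congr rfl fun β _ => ?_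
  by_cases h1 : α.val = 0 <;> by_cases h2 : β.val = 0 <;> simp [h1, h2]

end MpsV

open MpsV in
/-- Plan: `bondR 0 i j = ∑ a, onS (Dm a) i * onS (Dm (bar a)) j` (expand `onS` linearly; `1/√2² = 1/2`).
Induction on the list from the right (`List.reverseRecOn`, or index the tensors by `ℕ`), with
`P (n+1) σ = P n (Fin.init σ) * A (σ (last n))` and the sum over `Cfg (n+1)` split by `Fin.snocEquiv` /
`Fin.consEquiv`; prove the three Gram identities simultaneously with
`H^L_{n+1} = H^L_n ⊗ 1 + bond (n-1, n)`; the first step uses `St.init`.  At the end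
`ψ = Φ 0` and the pairing with `St.init D (-3/5)` picks the entry `(0,0)` of `N`, `X - (3/5) Y 2`.
If `D = 0` both sides vanish (`ψ = 0`). -/
theorem mps_var (l : List (Fin 3 → MD D)) (n : ℕ) (hl : l.length = n + 1) (s : ℝ) :
    ∃ ψ : Cfg (n + 1) → ℝ,
      ψ ⬝ᵥ ψ = pairN ((St.init D (-(3 / 5) * s)).run l) (St.init D (-(3 / 5))) ∧
      ψ ⬝ᵥ (HO n s *ᵥ ψ) = pairH ((St.init D (-(3 / 5) * s)).run l) (St.init D (-(3 / 5))) := by
  obtain ⟨Φ, h1, h2, h3⟩ := inv (-(3 / 5) * s) l n hl
  refine ⟨∑ α, (if α.val = 0 then (1 : ℝ) else 0) • Φ α, ?_, ?_⟩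
  · rw [pairN, h1]
    change _ = trace (_ * (E00 D)ᵀ)
    rw [trace_gram, one_mulVec]
  · have hH : HO n s = HL n (-(3 / 5) * s) + (-(3 / 5) : ℝ) • onS (Dm 2) (Fin.last n) := by
      rw [HO, HL, Cm2]
      module
    rw [← trace_gram, hH, gram_add, gram_smul, pairH, h1, h2, Fin.sum_univ_three, h3, h3, h3]
    simp [St.init, bar, Matrix.add_mul]

end Crest.Agent.R347
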