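import Crest.Agent.R347.RP0
import Crest.Agent.R347.Mat
import Crest.Agent.R347.MpsVar

/-!
# R347: magnetisation sectors
-/

set_option autoImplicit false

namespace Crest.Agent.R347

open Matrix

/-- projection on digit sums in `[lo, hi]` -/
def PI (N lo hi : ℕ) : Op N := diagonal fun σ => if lo ≤ ds σ ∧ ds σ ≤ hi then 1 else 0

/-- the flip-even (`e = 1`) and flip-odd (`e = -1`) parts of the sector `m = 0` -/
noncomputable def PF (L : ℕ) (e : ℝ) : Op L := (1 / 2 : ℝ) • (PI L L L + e • (VV L 1 * PI L L L))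

noncomputable def AR (L : ℕ) (g : Fin 4) (lo hi : ℕ) (β : ℝ) : ℝ :=
  trace (PI L lo hi * NormedSpace.exp ((-β) • HRn L g))

noncomputable def AF (L : ℕ) (e : ℝ) (β : ℝ) : ℝ :=
  trace (PF L e * NormedSpace.exp ((-β) • HRn L 3))

noncomputable def AC (k : ℕ) (s : ℝ) (lo hi : ℕ) (β : ℝ) : ℝ :=
  trace (PI (k + 2) lo hi * NormedSpace.exp ((-β) • HOn k s))

namespace SecA

variable {N : ℕ}

/-- `M` changes the digit sum by `c` -/
def Gr (M : Op N) (c : ℤ) : Prop := ∀ σ τ, M σ τ ≠ 0 → (ds σ : ℤ) = ds τ + c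

theorem Gr.add {M M' : Op N} {c : ℤ} (h : Gr M c) (h' : Gr M' c) : Gr (M + M') c := by
  intro σ τ hne
  by_contra hc
  have h1 : M σ τ = 0 := by_contra fun k => hc (h σ τ k)
  have h2 : M' σ τ = 0 := by_contra fun k => hc (h' σ τ k)
  exact hne (by rw [Matrix.add_apply, h1, h2, add_zero])

theorem Gr.smul {M : Op N} {c : ℤ} (h : Gr M c) (a : ℝ) : Gr (a • M) c :=
  fun σ τ hne => h σ τ fun k => hne (by rw [Matrix.smul_apply, k, smul_zero])

theorem Gr.sub {M M' : Op N} {c : ℤ} (h : Gr M c) (h' : Gr M' c) : Gr (M - M') c := by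
  rw [sub_eq_add_neg, ← neg_one_smul ℝ M']
  exact h.add (h'.smul _)

theorem Gr.sum {ι : Type} (s : Finset ι) {M : ι → Op N} {c : ℤ} (h : ∀ i, Gr (M i) c) :
    Gr (∑ i ∈ s, M i) c := by
  intro σ τ hne
  rw [Matrix.sum_apply] at hne
  obtain ⟨i, -, hi⟩ := Finset.exists_ne_zero_of_sum_ne_zero hne
  exact h i σ τ hi

theorem Gr.mul {M M' : Op N} {c c' : ℤ} (h : Gr M c) (h' : Gr M' c') : Gr (M * M') (c + c') := by
  intro σ τ hne
  rw [Matrix.mul_apply] at hne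
  obtain ⟨ρ, -, hρ⟩ := Finset.exists_ne_zero_of_sum_ne_zero hne
  rw [h σ ρ (left_ne_zero_of_mul hρ), h' ρ τ (right_ne_zero_of_mul hρ)]
  ring

theorem gr_one : Gr (1 : Op N) 0 := by
  intro σ τ hne
  have : σ = τ := by_contra fun h => hne (Matrix.one_apply_ne h)
  rw [this, add_zero]

theorem gr_onS {A : M3} {c : ℤ} (hA : ∀ a b : Fin 3, A a b ≠ 0 → (a.val : ℤ) = b.val + c) (j : Fin N) :
    Gr (onS A j) c := by
  intro σ τ hne
  simp only [onS, of_apply] at hne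
  split_ifs at hne with h
  · have h1 := hA _ _ hne
    have h2 : ∑ k ∈ Finset.univ.erase j, (σ k).val = ∑ k ∈ Finset.univ.erase j, (τ k).val :=
      Finset.sum_congr rfl fun k hk => by rw [h k (Finset.ne_of_mem_erase hk)]
    unfold ds
    rw [← Finset.add_sum_erase _ _ (Finset.mem_univ j), ← Finset.add_sum_erase _ (fun k => (τ k).val)
      (Finset.mem_univ j), h2]
    push_cast
    linarith
  · exact absurd rfl hne

theorem gr_D0 (j : Fin N) : Gr (onS (Dm 0) j) (-1) :=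
  gr_onS (fun a b => by fin_cases a <;> fin_cases b <;> simp [Dm]) j

theorem gr_D1 (j : Fin N) : Gr (onS (Dm 1) j) 1 :=
  gr_onS (fun a b => by fin_cases a <;> fin_cases b <;> simp [Dm]) j

theorem gr_C2 (j : Fin N) : Gr (onS (Cm 2) j) 0 :=
  gr_onS (fun a b => by fin_cases a <;> fin_cases b <;> simp [Cm]) j

theorem bond_eq (g : Fin 4) (hg : g = 0 ∨ g = 3) (i j : Fin N) :
    bondR g i j = chr g 1 • (onS (Dm 0) i * onS (Dm 1) j + onS (Dm 1) i * onS (Dm 0) j) +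
      onS (Cm 2) i * onS (Cm 2) j := by
  have h2 : (1 / Real.sqrt 2) * (1 / Real.sqrt 2) = 1 / 2 := by
    rw [div_mul_div_comm, Real.mul_self_sqrt (by norm_num), one_mul]
  have e0 : eps 0 = 1 := rfl
  have e1 : eps 1 = -1 := rfl
  have e2 : eps 2 = 1 := rfl
  have c0 : chr g (0 : Fin 3).succ = chr g 1 := rfl
  have c1 : chr g (1 : Fin 3).succ = chr g 1 := by rcases hg with rfl | rfl <;> simp [chr]
  have c2 : chr g (2 : Fin 3).succ = 1 := by rcases hg with rfl | rfl <;> simp [chr]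
  simp only [bondR, Fin.sum_univ_three, c0, c1, c2, MpsV.Cm0, MpsV.Cm1, onS_smul, MpsV.onS_add,
    MpsV.onS_sub, e0, e1, e2, smul_mul_smul_comm, h2, add_mul, mul_add, sub_mul, mul_sub]
  module

theorem gr_bond (g : Fin 4) (hg : g = 0 ∨ g = 3) (i j : Fin N) : Gr (bondR g i j) 0 := by
  rw [bond_eq g hg]
  exact ((Gr.add ((gr_D0 i).mul (gr_D1 j)) ((gr_D1 i).mul (gr_D0 j))).smul _).add
    ((gr_C2 i).mul (gr_C2 j))

theorem gr_HR (g : Fin 4) (hg : g = 0 ∨ g = 3) : Gr (HR N g) 0 :=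
  Gr.sum _ fun j => gr_bond _ (by split_ifs; exacts [hg, Or.inl rfl]) _ _

theorem gr_HO (n : ℕ) (s : ℝ) : Gr (HO n s) 0 :=
  (Gr.sum _ fun _ => gr_bond _ (Or.inl rfl) _ _).sub ((((gr_C2 _).smul _).add (gr_C2 _)).smul _)

theorem Gr.ds_eq {M : Op N} (h : Gr M 0) (σ τ : Cfg N) (hne : M σ τ ≠ 0) : ds σ = ds τ := by
  have := h σ τ hne
  omega

theorem ds_le (σ : Cfg N) : ds σ ≤ 2 * N := by
  have : ∑ j, (σ j).val ≤ ∑ _j : Fin N, 2 := Finset.sum_le_sum fun j _ => Nat.lt_succ_iff.1 (σ j).2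
  simpa [mul_comm, ds] using this

theorem VV1_ds {σ τ : Cfg N} (h : VV N 1 σ τ ≠ 0) : ds σ + ds τ = 2 * N := by
  have h1 : ∀ a b : Fin 3, Vm 1 a b ≠ 0 → a.val + b.val = 2 := fun a b => by
    fin_cases a <;> fin_cases b <;> simp [Vm]
  have h2 : ∀ j, (σ j).val + (τ j).val = 2 := fun j =>
    h1 _ _ (Finset.prod_ne_zero_iff.1 (show ∏ j, Vm 1 (σ j) (τ j) ≠ 0 from h) j (Finset.mem_univ j))
  simp only [ds, ← Finset.sum_add_distrib, h2]
  simp [mul_comm]

theorem VV1_diag (f : ℕ → ℝ) : VV N 1 * diagonal (fun σ => f (ds σ)) =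
    diagonal (fun σ => f (2 * N - ds σ)) * VV N 1 := by
  ext σ τ
  rw [mul_diagonal, diagonal_mul]
  by_cases h : VV N 1 σ τ = 0
  · simp [h]
  · rw [show 2 * N - ds σ = ds τ by have := VV1_ds h; omega, mul_comm]

theorem tr_diag (d : Cfg N → ℝ) (E : Op N) : trace (diagonal d * E) = ∑ σ, d σ * E σ σ := by
  simp only [trace, diag, diagonal_mul]

end SecA

open SecA

/-- the bonds with twist `0` or `3` conserve the digit sum -/
theorem bondR_ds {L : ℕ} (g : Fin 4) (hg : g = 0 ∨ g = 3) (i j : Fin L) (hij : i ≠ j) (σ τ : Cfg L)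
    (h : bondR g i j σ τ ≠ 0) : ds σ = ds τ := by
  exact (gr_bond g hg i j).ds_eq σ τ h

theorem HR_ds (L : ℕ) (hL : 2 ≤ L) (g : Fin 4) (hg : g = 0 ∨ g = 3) (σ τ : Cfg L)
    (h : HR L g σ τ ≠ 0) : ds σ = ds τ := by
  exact (gr_HR g hg).ds_eq σ τ h

theorem HO_ds (n : ℕ) (s : ℝ) (σ τ : Cfg (n + 1)) (h : HO n s σ τ ≠ 0) : ds σ = ds τ := by
  exact (gr_HO n s).ds_eq σ τ h

/-- any diagonal `0/1` function of the digit sum is a commuting projection -/
theorem isProj_ds {N : ℕ} (H : Op N) (hH : ∀ σ τ, H σ τ ≠ 0 → ds σ = ds τ) (S : ℕ → Prop)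
    [DecidablePred S] : IsProj H (diagonal fun σ => if S (ds σ) then 1 else 0) := by
  refine ⟨diagonal_transpose _, ?_, ?_⟩
  · rw [diagonal_mul_diagonal]
    congr 1
    funext σ
    split_ifs <;> simp
  · ext σ τ
    rw [diagonal_mul, mul_diagonal]
    by_cases h : H σ τ = 0
    · simp [h]
    · rw [hH σ τ h, mul_comm]

theorem isProj_shift {n : Type} [Fintype n] [DecidableEq n] {H P : Matrix n n ℝ} (h : IsProj H P)
    (a c : ℝ) : IsProj (a • H + c • (1 : Matrix n n ℝ)) P := by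
  refine ⟨h.symm, h.idem, ?_⟩
  simp only [Matrix.mul_add, Matrix.add_mul, Matrix.mul_smul, Matrix.smul_mul, h.comm,
    Matrix.mul_one, Matrix.one_mul]

theorem isProj_PI_R (L : ℕ) (hL : 2 ≤ L) (g : Fin 4) (hg : g = 0 ∨ g = 3) (lo hi : ℕ) :
    IsProj (HR L g) (PI L lo hi) := by
  exact isProj_ds _ (HR_ds L hL g hg) fun d => lo ≤ d ∧ d ≤ hi

theorem isProj_PI_O (n : ℕ) (s : ℝ) (lo hi : ℕ) : IsProj (HO n s) (PI (n + 1) lo hi) := by
  exact isProj_ds _ (HO_ds n s) fun d => lo ≤ d ∧ d ≤ hi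

/-- `VV L 1` maps digit sum `d` to `2 L - d` -/
theorem VV1_PI (L lo hi : ℕ) (hhi : hi ≤ 2 * L) (hlo : lo ≤ hi) :
    VV L 1 * PI L lo hi = PI L (2 * L - hi) (2 * L - lo) * VV L 1 := by
  rw [PI, VV1_diag fun d => if lo ≤ d ∧ d ≤ hi then 1 else 0, PI]
  congr 2
  funext σ
  have := ds_le σ
  exact if_congr (by omega) rfl rfl

theorem isProj_PF (L : ℕ) (hL : 2 ≤ L) (e : ℝ) (he : e = 1 ∨ e = -1) : IsProj (HR L 3) (PF L e) := by
  have hP := isProj_PI_R L hL 3 (Or.inr rfl) L L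
  have hV := VV1_PI L L L (by omega) le_rfl
  rw [show 2 * L - L = L by omega] at hV
  have hVt := VV_transpose L 1
  have hVH := VV_comm_HR L 3 1
  have hVV := VV_mul_self L 1
  unfold PF
  generalize VV L 1 = V at hV hVH hVV hVt ⊢
  generalize PI L L L = P at hP hV ⊢
  generalize HR L 3 = H at hP hVH ⊢
  have h1 : P * (V * P) = V * P := by rw [← Matrix.mul_assoc, ← hV, Matrix.mul_assoc, hP.idem]
  have h2 : V * P * P = V * P := by rw [Matrix.mul_assoc, hP.idem]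
  have h3 : V * P * (V * P) = P := by
    rw [Matrix.mul_assoc, h1, ← Matrix.mul_assoc, hVV, Matrix.one_mul]
  have h4 : V * P * H = H * (V * P) := by
    rw [Matrix.mul_assoc, hP.comm, ← Matrix.mul_assoc, hVH, Matrix.mul_assoc]
  refine ⟨?_, ?_, ?_⟩
  · rw [transpose_smul, transpose_add, transpose_smul, transpose_mul, hP.symm, hVt, hV]
  · simp only [Matrix.mul_add, Matrix.add_mul, Matrix.mul_smul, Matrix.smul_mul, hP.idem, h1, h2, h3,
      smul_add, smul_smul]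
    rcases he with rfl | rfl <;> module
  · simp only [Matrix.mul_add, Matrix.add_mul, Matrix.mul_smul, Matrix.smul_mul, hP.comm, h4]

theorem VV3_eq (N : ℕ) : VV N 3 = diagonal fun σ => (-1 : ℝ) ^ (ds σ + N) := by
  have h1 : ∀ a b : Fin 3, Vm 3 a b = if a = b then (-1 : ℝ) ^ (a.val + 1) else 0 := fun a b => by
    fin_cases a <;> fin_cases b <;> simp [Vm]
    norm_num
  ext σ τ
  simp only [VV, tens, of_apply, h1, diagonal_apply]
  rw [Finset.prod_ite_zero, Finset.prod_pow_eq_pow_sum, Finset.sum_add_distrib]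
  simp [funext_iff, ds]

theorem AR_nonneg (L : ℕ) (hL : 2 ≤ L) (g : Fin 4) (lo hi : ℕ) (β : ℝ) : 0 ≤ AR L g lo hi β := by
  rw [AR, PI, tr_diag]
  refine Finset.sum_nonneg fun σ _ => mul_nonneg ?_ (exp_diag_pos (HRn_symm L hL g) _ _).le
  split_ifs <;> norm_num

theorem AC_nonneg (k : ℕ) (s : ℝ) (lo hi : ℕ) (β : ℝ) : 0 ≤ AC k s lo hi β := by
  rw [AC, PI, tr_diag]
  refine Finset.sum_nonneg fun σ _ => mul_nonneg ?_ (exp_diag_pos (HOn_symm k s) _ _).le
  split_ifs <;> norm_num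

theorem AR_split (L : ℕ) (g : Fin 4) (lo mid hi : ℕ) (h1 : lo ≤ mid + 1) (h2 : mid ≤ hi) (β : ℝ) :
    AR L g lo hi β = AR L g lo mid β + AR L g (mid + 1) hi β := by
  simp only [AR, PI, tr_diag, ← Finset.sum_add_distrib, ← add_mul]
  refine Finset.sum_congr rfl fun σ _ => ?_
  congr 1
  split_ifs <;> first | (exfalso; omega) | norm_num

theorem SecA.AR_flip (L : ℕ) (g : Fin 4) (lo hi : ℕ) (hhi : hi ≤ 2 * L) (hlo : lo ≤ hi) (β : ℝ) :
    AR L g lo hi β = AR L g (2 * L - hi) (2 * L - lo) β := by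
  refine trace_exp_conj (VV L 1) (VV L 1) _ _ _ _ (VV_mul_self L 1) ?_ (VV1_PI L lo hi hhi hlo) _
  rw [HRn, Matrix.mul_sub, Matrix.sub_mul, VV_comm_HR]
  simp

theorem SecA.exp_ds {N : ℕ} {H : Op N} (hH : ∀ σ τ, H σ τ ≠ 0 → ds σ = ds τ) (t : ℝ) (σ τ : Cfg N)
    (h : NormedSpace.exp (t • H) σ τ ≠ 0) : ds σ = ds τ := by
  have := congrFun (congrFun (commute_exp _ H (isProj_ds H hH fun d => d = ds σ).comm t) σ) τ
  rw [diagonal_mul, mul_diagonal, if_pos rfl, one_mul] at this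
  by_contra hne
  rw [if_neg fun k => hne k.symm, mul_zero] at this
  exact h this

theorem ZR_dec0 (L : ℕ) (hL : 3 ≤ L) (g : Fin 4) (β : ℝ) :
    ZR g 0 L β = AR L g L L β + 2 * AR L g (L - 1) (L - 1) β + 2 * AR L g (L - 2) (L - 2) β +
      2 * AR L g 0 (L - 3) β := by
  rw [two_mul, two_mul, two_mul]
  nth_rw 2 [AR_flip L g (L - 1) (L - 1) (by omega) le_rfl, AR_flip L g (L - 2) (L - 2) (by omega) le_rfl,
    AR_flip L g 0 (L - 3) (by omega) (by omega)]
  rw [ZR, VV_zero, ← diagonal_one]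
  simp only [AR, PI, tr_diag, ← Finset.sum_add_distrib, ← add_mul]
  refine Finset.sum_congr rfl fun σ _ => ?_
  congr 1
  have := ds_le σ
  split_ifs <;> first | (exfalso; omega) | norm_num

theorem ZR_dec3 (L : ℕ) (hL : 3 ≤ L) (g : Fin 4) (β : ℝ) :
    |ZR g 3 L β - (AR L g L L β - 2 * AR L g (L - 1) (L - 1) β + 2 * AR L g (L - 2) (L - 2) β)| ≤
      2 * AR L g 0 (L - 3) β := by
  rw [two_mul, two_mul, two_mul]
  nth_rw 2 [AR_flip L g (L - 1) (L - 1) (by omega) le_rfl, AR_flip L g (L - 2) (L - 2) (by omega) le_rfl,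
    AR_flip L g 0 (L - 3) (by omega) (by omega)]
  rw [ZR, VV3_eq]
  simp only [AR, PI, tr_diag, ← Finset.sum_add_distrib, ← Finset.sum_sub_distrib, ← add_mul, ← sub_mul]
  refine (Finset.abs_sum_le_sum_abs _ _).trans (Finset.sum_le_sum fun σ _ => ?_)
  have hp := (exp_diag_pos (HRn_symm L (by omega) g) (-β) σ).le
  rw [abs_mul, abs_of_nonneg hp]
  refine mul_le_mul_of_nonneg_right ?_ hp
  have := ds_le σ
  rcases Nat.even_or_odd (ds σ + L) with h | h
  · rw [h.neg_one_pow]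
    rw [Nat.even_iff] at h
    split_ifs <;> first | (exfalso; omega) | norm_num
  · rw [h.neg_one_pow]
    rw [Nat.odd_iff] at h
    split_ifs <;> first | (exfalso; omega) | norm_num

/-- only the sector `m = 0` contributes: `exp` conserves the digit sum, `VV L 1` reverses it -/
theorem ZR_dec31 (L : ℕ) (hL : 2 ≤ L) (β : ℝ) : ZR 3 1 L β = AF L 1 β - AF L (-1) β := by
  have h1 : PF L 1 - PF L (-1) = VV L 1 * PI L L L := by
    unfold PF
    module
  rw [AF, AF, ← trace_sub, ← Matrix.sub_mul, h1, ZR, PI]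
  simp only [trace, diag, Matrix.mul_apply (M := VV L 1 * _), Matrix.mul_apply (M := VV L 1)
    (N := NormedSpace.exp _), mul_diagonal]
  refine Finset.sum_congr rfl fun σ _ => Finset.sum_congr rfl fun τ _ => ?_
  by_cases h2 : VV L 1 σ τ = 0
  · simp [h2]
  by_cases h3 : NormedSpace.exp ((-β) • HRn L 3) τ σ = 0
  · rw [h3, mul_zero, mul_zero]
  have h4 := VV1_ds h2
  have h5 := exp_ds (H := HRn L 3) ((gr_HR 3 (Or.inr rfl)).sub (gr_one.smul _)).ds_eq _ _ _ h3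
  rw [if_pos (by omega), mul_one]

theorem AR_AF (L : ℕ) (β : ℝ) : AR L 3 L L β = AF L 1 β + AF L (-1) β := by
  have h1 : PF L 1 + PF L (-1) = PI L L L := by
    unfold PF
    module
  rw [AF, AF, ← trace_add, ← Matrix.add_mul, h1, AR]

/-- partitions of the digit sums into single values `ls` and intervals `ts` -/
def Parts (N : ℕ) (ls : List ℕ) (ts : List (ℕ × ℕ)) : Prop :=
  ∀ d, d < 2 * N + 1 → ls.count d + ts.countP (fun p => decide (p.1 ≤ d ∧ d ≤ p.2)) = 1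

instance (N : ℕ) (ls : List ℕ) (ts : List (ℕ × ℕ)) : Decidable (Parts N ls ts) := by
  unfold Parts; exact Nat.decidableBallLT _ _

theorem SecA.sumA (k : ℕ) (s β : ℝ) (c : ℕ → ℝ) (ls : List ℕ) :
    (ls.map fun d => c d * AC k s d d β).sum = ∑ σ : Cfg (k + 2), c (ds σ) * (ls.count (ds σ) : ℝ) *
      NormedSpace.exp ((-β) • HOn k s) σ σ := by
  induction ls with
  | nil => simp
  | cons d ls ih =>
    rw [List.map_cons, List.sum_cons, ih, AC, PI, tr_diag, Finset.mul_sum, ← Finset.sum_add_distrib]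
    refine Finset.sum_congr rfl fun σ _ => ?_
    rw [List.count_cons]
    by_cases h : d = ds σ
    · subst h
      simp only [le_refl, and_self, if_true, beq_self_eq_true]
      push_cast
      ring
    · rw [if_neg (by omega), if_neg (by simpa using h)]
      simp

theorem SecA.sumB (k : ℕ) (s β : ℝ) (ts : List (ℕ × ℕ)) :
    (ts.map fun p => AC k s p.1 p.2 β).sum = ∑ σ : Cfg (k + 2),
      (ts.countP (fun p => decide (p.1 ≤ ds σ ∧ ds σ ≤ p.2)) : ℕ) *
        NormedSpace.exp ((-β) • HOn k s) σ σ := by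
  induction ts with
  | nil => simp
  | cons p ts ih =>
    rw [List.map_cons, List.sum_cons, ih, AC, PI, tr_diag, ← Finset.sum_add_distrib]
    refine Finset.sum_congr rfl fun σ _ => ?_
    rw [List.countP_cons]
    by_cases h : p.1 ≤ ds σ ∧ ds σ ≤ p.2
    · rw [if_pos h, if_pos (decide_eq_true h)]
      push_cast
      ring
    · rw [if_neg h, if_neg (by simpa using h)]
      simp

theorem ZO_dec0 (k : ℕ) (s β : ℝ) (ls : List ℕ) (ts : List (ℕ × ℕ)) (h : Parts (k + 2) ls ts) :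
    ZO s 0 k β = (ls.map fun d => AC k s d d β).sum + (ts.map fun p => AC k s p.1 p.2 β).sum := by
  have h1 := sumA k s β (fun _ => 1) ls
  simp only [one_mul] at h1
  rw [h1, sumB, ZO, VV_zero, ← diagonal_one, tr_diag, ← Finset.sum_add_distrib]
  refine Finset.sum_congr rfl fun σ _ => ?_
  rw [← add_mul, ← Nat.cast_add, h _ (Nat.lt_succ_of_le (ds_le σ)), Nat.cast_one]

theorem ZO_dec3 (k : ℕ) (s β : ℝ) (ls : List ℕ) (ts : List (ℕ × ℕ)) (h : Parts (k + 2) ls ts) :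
    |ZO s 3 k β - (ls.map fun d => (-1 : ℝ) ^ (d + k) * AC k s d d β).sum| ≤
      (ts.map fun p => AC k s p.1 p.2 β).sum := by
  rw [sumA k s β (fun d => (-1 : ℝ) ^ (d + k)), sumB, ZO, VV3_eq, tr_diag, ← Finset.sum_sub_distrib]
  refine (Finset.abs_sum_le_sum_abs _ _).trans (Finset.sum_le_sum fun σ _ => ?_)
  have hp := (exp_diag_pos (HOn_symm k s) (-β) σ).le
  rw [← sub_mul, abs_mul, abs_of_nonneg hp]
  refine mul_le_mul_of_nonneg_right (le_of_eq ?_) hp
  have h1 : ((ls.count (ds σ) : ℝ)) + (ts.countP (fun p => decide (p.1 ≤ ds σ ∧ ds σ ≤ p.2)) : ℕ) = 1 := by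
    exact_mod_cast h _ (Nat.lt_succ_of_le (ds_le σ))
  rw [show (-1 : ℝ) ^ (ds σ + (k + 2)) - (-1) ^ (ds σ + k) * (ls.count (ds σ) : ℝ) =
    (-1) ^ (ds σ + k) * (1 - (ls.count (ds σ) : ℝ)) by ring, abs_mul, abs_neg_one_pow, one_mul,
    ← h1, add_sub_cancel_left, abs_of_nonneg (Nat.cast_nonneg _)]

/-- reflection of the sites -/
def Rf (N : ℕ) : Op N := Matrix.of fun σ τ => if σ = τ ∘ Fin.rev then 1 else 0

namespace SecA

theorem Rf_mul {N : ℕ} (M : Op N) (σ τ : Cfg N) : (Rf N * M) σ τ = M (σ ∘ Fin.rev) τ := by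
  rw [Matrix.mul_apply, Finset.sum_eq_single (σ ∘ Fin.rev)]
  · rw [Rf, of_apply, if_pos (by funext i; simp), one_mul]
  · intro ρ _ hρ
    rw [Rf, of_apply, if_neg, zero_mul]
    rintro rfl
    exact hρ (by funext i; simp)
  · simp

theorem mul_Rf {N : ℕ} (M : Op N) (σ τ : Cfg N) : (M * Rf N) σ τ = M σ (τ ∘ Fin.rev) := by
  simp [Matrix.mul_apply, Rf]

theorem Rf_Rf {N : ℕ} : Rf N * Rf N = 1 := by
  ext σ τ
  rw [mul_Rf, Rf, of_apply, Matrix.one_apply]
  exact if_congr (by rw [show (τ ∘ Fin.rev) ∘ Fin.rev = τ by funext i; simp]) rfl rfl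

theorem Rf_diag {N : ℕ} (f : ℕ → ℝ) :
    Rf N * diagonal (fun σ => f (ds σ)) = diagonal (fun σ => f (ds σ)) * Rf N := by
  ext σ τ
  rw [mul_diagonal, diagonal_mul, Rf, of_apply]
  split_ifs with h
  · have : ds σ = ds τ := by
      rw [h]
      exact Equiv.sum_comp Fin.revPerm fun j => (τ j).val
    rw [this, mul_comm]
  · simp

theorem Rf_onS {N : ℕ} (A : M3) (j : Fin N) : Rf N * onS A j = onS A j.rev * Rf N := by
  ext σ τ
  rw [Rf_mul, mul_Rf]
  simp only [onS, of_apply, Function.comp_apply, Fin.rev_rev]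
  refine if_congr ⟨fun h k hk => ?_, fun h k hk => ?_⟩ rfl rfl
  · have := h k.rev fun e => hk (by rw [← e, Fin.rev_rev])
    rwa [Fin.rev_rev] at this
  · have := h k.rev fun e => hk (Fin.rev_injective e)
    rwa [Fin.rev_rev] at this

theorem Rf_bond {N : ℕ} {i j : Fin N} (h : i ≠ j) :
    Rf N * bondR 0 i j = bondR 0 j.rev i.rev * Rf N := by
  unfold bondR
  rw [Finset.mul_sum, Finset.sum_mul]
  refine Finset.sum_congr rfl fun a _ => ?_
  rw [Matrix.mul_smul, Matrix.smul_mul, onS_comm _ _ h, ← Matrix.mul_assoc, Rf_onS, Matrix.mul_assoc,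
    Rf_onS, Matrix.mul_assoc]

theorem flip_HO (n : ℕ) :
    Rf (n + 1) * VV (n + 1) 1 * HO n (-1) = HO n (-1) * (Rf (n + 1) * VV (n + 1) 1) := by
  have h1 : Rf (n + 1) * VV (n + 1) 1 * ∑ j : Fin n, bondR 0 (Fin.castSucc j) (Fin.succ j) =
      (∑ j : Fin n, bondR 0 (Fin.castSucc j) (Fin.succ j)) * (Rf (n + 1) * VV (n + 1) 1) := by
    rw [Finset.mul_sum, Finset.sum_mul, ← Equiv.sum_comp Fin.revPerm]
    refine Finset.sum_congr rfl fun j _ => ?_
    rw [Matrix.mul_assoc, VV_comm_bondR, ← Matrix.mul_assoc, Rf_bond (Fin.castSucc_lt_succ).ne,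
      Matrix.mul_assoc, Fin.revPerm_apply, Fin.rev_succ, Fin.rev_castSucc, Fin.rev_rev]
  have h2 : ∀ j : Fin (n + 1), Rf (n + 1) * VV (n + 1) 1 * onS (Cm 2) j =
      -(onS (Cm 2) j.rev * (Rf (n + 1) * VV (n + 1) 1)) := by
    intro j
    rw [Matrix.mul_assoc, VV_mul_onS, Matrix.mul_smul, ← Matrix.mul_assoc, Rf_onS, Matrix.mul_assoc,
      show chr 1 (2 : Fin 3).succ = -1 by simp [chr], neg_one_smul]
  simp only [HO, Matrix.mul_sub, Matrix.sub_mul, Matrix.mul_smul, Matrix.smul_mul, Matrix.mul_add,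
    Matrix.add_mul, h1, h2, Fin.rev_zero, Fin.rev_last]
  module

end SecA

/-- Plan: `U = Rf * VV 1` is orthogonal, commutes with `HO n (-1)` and reverses the digit sum. -/
theorem trace_flipO (k : ℕ) (S : ℕ → Prop) [DecidablePred S] (β : ℝ) :
    trace (diagonal (fun σ : Cfg (k + 2) => if S (ds σ) then (1 : ℝ) else 0) *
        NormedSpace.exp ((-β) • HOn k (-1))) =
      trace (diagonal (fun σ : Cfg (k + 2) => if S (2 * (k + 2) - ds σ) then (1 : ℝ) else 0) *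
        NormedSpace.exp ((-β) • HOn k (-1))) := by
  refine trace_exp_conj (Rf (k + 2) * VV (k + 2) 1) (VV (k + 2) 1 * Rf (k + 2)) _ _ _ _ ?_ ?_ ?_ _
  · rw [Matrix.mul_assoc, ← Matrix.mul_assoc (VV _ _), VV_mul_self, Matrix.one_mul, Rf_Rf]
  · rw [HOn, Matrix.mul_sub, Matrix.sub_mul, flip_HO]
    simp
  · rw [Matrix.mul_assoc, VV1_diag fun d => if S d then 1 else 0, ← Matrix.mul_assoc,
      Rf_diag fun d => if S (2 * (k + 2) - d) then 1 else 0, Matrix.mul_assoc]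

theorem AC_flip (k lo hi : ℕ) (hhi : hi ≤ 2 * (k + 2)) (hlo : lo ≤ hi) (β : ℝ) :
    AC k (-1) lo hi β = AC k (-1) (2 * (k + 2) - hi) (2 * (k + 2) - lo) β := by
  rw [AC, PI, trace_flipO k fun d => lo ≤ d ∧ d ≤ hi, AC, PI]
  congr 3
  funext σ
  have := ds_le σ
  exact if_congr (by omega) rfl rfl

end Crest.Agent.R347
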