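import Crest.Agent.R347.Pack

/-!
# R347: the space package
-/

set_option autoImplicit false

namespace Crest.Agent.R347

private theorem exists_max_of_summable {ι : Type} [Nonempty ι] (f : ι → ℝ) (h0 : ∀ i, 0 ≤ f i)
    (hs : Summable fun i => f i ^ 6) : ∃ i₀, ∀ i, f i ≤ f i₀ := by
  by_cases h : ∀ i, f i = 0
  · exact ⟨Classical.arbitrary ι, fun i => by rw [h i, h]⟩
  · push Not at h
    obtain ⟨i₁, hi₁⟩ := h
    have hpos : 0 < f i₁ := lt_of_le_of_ne (h0 i₁) (Ne.symm hi₁)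
    have h1 := hs.tendsto_cofinite_zero.eventually (gt_mem_nhds (pow_pos hpos 6))
    rw [Filter.eventually_cofinite] at h1
    obtain ⟨i₀, -, hi₀⟩ := Set.exists_max_image _ f h1 ⟨i₁, by simp⟩
    refine ⟨i₀, fun i => ?_⟩
    by_cases h2 : f i ^ 6 < f i₁ ^ 6
    · exact (lt_of_pow_lt_pow_left₀ 6 hpos.le h2).le.trans (hi₀ i₁ (by simp))
    · exact hi₀ i h2

/-- Plan: `X i ^ 6` is summable with positive sum, so `|X|` attains its maximum `lam > 0` at some `i₀`
(only finitely many `|X i| ≥ |X i₁| > 0`).  `b L = (Z L - lam^L)/lam^L = ∑' i ≠ i₀, (X i/lam)^L`,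
`q = sSup {|X i| : i ≠ i₀}` (`0` if empty; e.g. `⨆ i, if i = i₀ then 0 else |X i|`), `w = W i₀`,
`r k = ∑' i ≠ i₀, W i * |X i|^k` (summable: `HasSum` in `ℝ` is absolute).
`pw`: each term `(|X i|/lam)^L ≤ b L`, so `b L' ≤ b L ^ (L'/L)`. -/
theorem space_exists {ι : Type} (X W : ι → ℝ) (hW : ∀ i, 0 ≤ W i) (Z c : ℕ → ℝ)
    (hZ : ∀ L, Even L → 6 ≤ L → HasSum (fun i => X i ^ L) (Z L))
    (hc : ∀ k, 6 ≤ k → HasSum (fun i => W i * X i ^ k) (c k)) (hpos : 0 < Z 6) :
    ∃ (lam q w : ℝ) (b r : ℕ → ℝ), SpaceP Z c lam q w b r := by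
  classical
  have h6 := hZ 6 (by decide) le_rfl
  have hne : ∃ i, X i ≠ 0 := by
    by_contra hn
    push Not at hn
    have : HasSum (fun i => X i ^ 6) 0 := by
      simpa [hn] using (hasSum_zero : HasSum (fun _ : ι => (0 : ℝ)) 0)
    exact hpos.ne' (h6.unique this)
  obtain ⟨i₁, hi₁⟩ := hne
  haveI : Nonempty ι := ⟨i₁⟩
  have habs : ∀ L, Even L → ∀ i, |X i| ^ L = X i ^ L := fun L hL i => hL.pow_abs _
  obtain ⟨i₀, hi₀⟩ := exists_max_of_summable (fun i => |X i|) (fun i => abs_nonneg _)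
    (by simpa only [habs 6 (by decide)] using h6.summable)
  have hlam : 0 < |X i₀| := lt_of_lt_of_le (abs_pos.2 hi₁) (hi₀ i₁)
  set lam := |X i₀| with hlamdef
  let Y : ι → ℝ := fun i => if i = i₀ then 0 else |X i|
  have hY0 : ∀ i, 0 ≤ Y i := fun i => by
    simp only [Y]
    split_ifs
    · exact le_rfl
    · exact abs_nonneg _
  have hYX : ∀ i, Y i ≤ |X i| := fun i => by
    simp only [Y]
    split_ifs
    · exact abs_nonneg _
    · exact le_rfl
  have hYZ : ∀ L, Even L → 6 ≤ L → HasSum (fun i => Y i ^ L) (Z L - lam ^ L) := by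
    intro L hL h6L
    have h1 := hasSum_ite_sub_hasSum (hZ L hL h6L) i₀
    have h2 : (fun i => Y i ^ L) = fun i => if i = i₀ then 0 else X i ^ L := by
      funext i
      simp only [Y]
      split_ifs
      · exact zero_pow (by omega)
      · exact habs L hL i
    rw [hlamdef, habs L hL, h2]
    exact h1
  obtain ⟨i₂, hi₂⟩ := exists_max_of_summable Y hY0 (hYZ 6 (by decide) le_rfl).summable
  set q := Y i₂ with hq
  have hq0 : 0 ≤ q := hY0 i₂
  have hql : q ≤ lam := (hYX i₂).trans (hi₀ i₂)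
  have hYr : ∀ k, 6 ≤ k → ∀ i, |(if i = i₀ then 0 else W i * X i ^ k)| = W i * Y i ^ k := by
    intro k hk i
    simp only [Y]
    split_ifs
    · rw [zero_pow (by omega)]; simp
    · rw [abs_mul, abs_of_nonneg (hW i), abs_pow]
  have hcr : ∀ k, 6 ≤ k → HasSum (fun i => if i = i₀ then 0 else W i * X i ^ k) (c k - W i₀ * X i₀ ^ k) :=
    fun k hk => hasSum_ite_sub_hasSum (hc k hk) i₀
  have hrs : ∀ k, 6 ≤ k → Summable fun i => W i * Y i ^ k := by
    intro k hk
    simpa only [hYr k hk] using (hcr k hk).summable.abs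
  have hstep : ∀ L L', L ≤ L' → ∀ i, Y i ^ L' ≤ q ^ (L' - L) * Y i ^ L := by
    intro L L' hLL i
    calc Y i ^ L' = Y i ^ (L' - L) * Y i ^ L := by rw [← pow_add, Nat.sub_add_cancel hLL]
      _ ≤ _ := mul_le_mul_of_nonneg_right (pow_le_pow_left₀ (hY0 i) (hi₂ i) _) (pow_nonneg (hY0 i) _)
  have hb0 : ∀ L, Even L → 6 ≤ L → 0 ≤ (Z L - lam ^ L) / lam ^ L := fun L hL h6L =>
    div_nonneg ((hYZ L hL h6L).nonneg fun i => pow_nonneg (hY0 i) _) (pow_pos hlam _).le
  have hqp : ∀ L, Even L → 6 ≤ L → q ^ L ≤ (Z L - lam ^ L) / lam ^ L * lam ^ L := by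
    intro L hL h6L
    rw [div_mul_cancel₀ _ (pow_pos hlam _).ne']
    exact le_hasSum (hYZ L hL h6L) i₂ fun j _ => pow_nonneg (hY0 j) _
  have hbb : ∀ L L', Even L → Even L' → 6 ≤ L → L ≤ L' →
      (Z L' - lam ^ L') / lam ^ L' ≤ (q / lam) ^ (L' - L) * ((Z L - lam ^ L) / lam ^ L) := by
    intro L L' hL hL' h6L hLL
    have h1 : Z L' - lam ^ L' ≤ q ^ (L' - L) * (Z L - lam ^ L) :=
      hasSum_le (hstep L L' hLL) (hYZ L' hL' (h6L.trans hLL)) ((hYZ L hL h6L).mul_left _)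
    have h2 : lam ^ L' = lam ^ (L' - L) * lam ^ L := by rw [← pow_add, Nat.sub_add_cancel hLL]
    rw [div_pow, div_mul_div_comm, ← h2]
    exact div_le_div_of_nonneg_right h1 (pow_pos hlam _).le
  refine ⟨lam, q, W i₀, fun L => (Z L - lam ^ L) / lam ^ L, fun k => ∑' i, W i * Y i ^ k,
    hlam, fun L _ _ => ?_, hb0, fun L L' hL hL' h6L hLL => ?_, fun L L' hL hL' h6L hLL => ?_, hq0, hql, hqp,
    hW i₀, fun k _ => ?_, fun k hk h6k => ?_, fun k hk h6k => ?_, fun k k' h6k hkk => ?_⟩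
  · have := (pow_pos hlam L).ne'
    field_simp
    ring
  · have h1 := hbb L L' hL hL' h6L hLL
    have h2 : (q / lam) ^ L ≤ (Z L - lam ^ L) / lam ^ L := by
      rw [div_pow, div_le_iff₀ (pow_pos hlam _)]
      exact hqp L hL h6L
    set B := (Z L - lam ^ L) / lam ^ L
    have hB : 0 ≤ B := hb0 L hL h6L
    calc ((Z L' - lam ^ L') / lam ^ L') ^ L ≤ ((q / lam) ^ (L' - L) * B) ^ L :=
          pow_le_pow_left₀ (hb0 L' hL' (h6L.trans hLL)) h1 _
      _ = ((q / lam) ^ L) ^ (L' - L) * B ^ L := by rw [mul_pow, ← pow_mul, ← pow_mul, mul_comm L]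
      _ ≤ B ^ (L' - L) * B ^ L :=
          mul_le_mul_of_nonneg_right (pow_le_pow_left₀ (by positivity) h2 _) (pow_nonneg hB _)
      _ = B ^ L' := by rw [← pow_add, Nat.sub_add_cancel hLL]
  · refine (hbb L L' hL hL' h6L hLL).trans (mul_le_of_le_one_left (hb0 L hL h6L) ?_)
    exact pow_le_one₀ (by positivity) ((div_le_one hlam).2 hql)
  · exact tsum_nonneg fun i => mul_nonneg (hW i) (pow_nonneg (hY0 i) _)
  · have h1 : HasSum (fun i => W i * Y i ^ k) (c k - W i₀ * X i₀ ^ k) := by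
      have h2 : (fun i => W i * Y i ^ k) = fun i => if i = i₀ then 0 else W i * X i ^ k := by
        funext i
        simp only [Y]
        split_ifs
        · rw [zero_pow (by omega), mul_zero]
        · rw [habs k hk]
      rw [h2]
      exact hcr k h6k
    rw [h1.tsum_eq, hlamdef, habs k hk]
    ring
  · have h1 : |c k - W i₀ * X i₀ ^ k| ≤ ∑' i, W i * Y i ^ k :=
      (hcr k h6k).norm_le_of_bounded (hrs k h6k).hasSum fun i => (hYr k h6k i).le
    rcases le_total 0 (X i₀) with h2 | h2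
    · left
      rwa [hlamdef, abs_of_nonneg h2]
    · right
      rw [hlamdef, abs_of_nonpos h2, hk.neg_pow, mul_neg, ← sub_eq_add_neg]
      exact h1
  · rw [← tsum_mul_left]
    refine (hrs k' (h6k.trans hkk)).tsum_le_tsum (fun i => ?_) ((hrs k h6k).mul_left _)
    calc W i * Y i ^ k' ≤ W i * (q ^ (k' - k) * Y i ^ k) := mul_le_mul_of_nonneg_left (hstep k k' hkk i) (hW i)
      _ = _ := by ring

end Crest.Agent.R347
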