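import Crest.Agent.R347.RP0
import Crest.Agent.R347.Mat

/-!
# R347: permuting the axes
-/

set_option autoImplicit false

namespace Crest.Agent.R347

open Matrix

theorem Sym_conj (L : ℕ) (π : Fin 4 → Fin 4) (hπ : π 0 = 0) (U U' : Op L) (hU : U * U' = 1)
    (hb : ∀ g i j, U * bondR g i j = bondR (π g) i j * U) (g h : Fin 4)
    (hV : U * VV L h = VV L (π h) * U) (β : ℝ) : ZR (π g) (π h) L β = ZR g h L β := by
  unfold ZR
  symm
  refine trace_exp_conj U U' _ _ _ _ hU ?_ hV _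
  unfold HRn HR
  rw [Matrix.mul_sub, Matrix.sub_mul, Finset.mul_sum, Finset.sum_mul]
  congr 1
  · refine Finset.sum_congr rfl fun j _ => ?_
    rw [hb]
    congr 2
    split_ifs
    · rfl
    · exact hπ
  · simp

theorem Sym_tens_onS {L : ℕ} (W A B : M3) (h : W * A = B * W) (j : Fin L) :
    tens (fun _ => W) * onS A j = onS B j * tens (fun _ => W) := by
  rw [onS_eq_tens, onS_eq_tens, tens_mul, tens_mul]
  congr 1
  funext k
  by_cases hk : k = j
  · subst hk; simpa using h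
  · simp [Function.update_of_ne hk]

theorem Sym_onS_neg {L : ℕ} (A : M3) (j : Fin L) : onS (-A) j = -onS A j := by
  ext σ τ
  simp only [onS, of_apply, Matrix.neg_apply]
  split_ifs <;> simp

noncomputable def SymW : M3 :=
  !![1 / 2, 1 / Real.sqrt 2, 1 / 2; -(1 / Real.sqrt 2), 0, 1 / Real.sqrt 2;
    1 / 2, -(1 / Real.sqrt 2), 1 / 2]

theorem Sym_r : (Real.sqrt 2)⁻¹ * (Real.sqrt 2)⁻¹ = 2⁻¹ := by
  rw [← mul_inv, Real.mul_self_sqrt (by norm_num)]

theorem SymW_orth : SymW * SymWᵀ = 1 := by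
  have hr := Sym_r
  ext a b
  fin_cases a <;> fin_cases b <;> simp [SymW, mul_apply, Fin.sum_univ_three] <;> linarith

theorem SymW_C0 : SymW * Cm 0 = Cm 2 * SymW := by
  have hr := Sym_r
  ext a b
  fin_cases a <;> fin_cases b <;> simp [SymW, Cm, mul_apply, Fin.sum_univ_three] <;> linarith

theorem SymW_C1 : SymW * Cm 1 = Cm 1 * SymW := by
  ext a b
  fin_cases a <;> fin_cases b <;> simp [SymW, Cm, mul_apply, Fin.sum_univ_three]

theorem SymW_C2 : SymW * Cm 2 = (-Cm 0) * SymW := by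
  have hr := Sym_r
  ext a b
  fin_cases a <;> fin_cases b <;> simp [SymW, Cm, mul_apply, Fin.sum_univ_three] <;> linarith

theorem SymW_V (h : Fin 4) : SymW * Vm h = Vm (Equiv.swap 1 3 h) * SymW := by
  fin_cases h
  · have : Equiv.swap (1 : Fin 4) 3 0 = 0 := by decide
    simp [this, Vm]
  · have : Equiv.swap (1 : Fin 4) 3 1 = 3 := by decide
    ext a b
    fin_cases a <;> fin_cases b <;> simp [this, SymW, Vm, mul_apply, Fin.sum_univ_three]
  · have : Equiv.swap (1 : Fin 4) 3 2 = 2 := by decide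
    ext a b
    fin_cases a <;> fin_cases b <;> simp [this, SymW, Vm, mul_apply, Fin.sum_univ_three]
  · have : Equiv.swap (1 : Fin 4) 3 3 = 1 := by decide
    ext a b
    fin_cases a <;> fin_cases b <;> simp [this, SymW, Vm, mul_apply, Fin.sum_univ_three]

theorem Sym_chr13 (g : Fin 4) : chr (Equiv.swap 1 3 g) 1 = chr g 3 ∧
    chr (Equiv.swap 1 3 g) 2 = chr g 2 ∧ chr (Equiv.swap 1 3 g) 3 = chr g 1 := by
  unfold chr
  refine ⟨?_, ?_, ?_⟩ <;> congr 1 <;> revert g <;> decide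

theorem Sym_chr12 (g : Fin 4) : chr (Equiv.swap 1 2 g) 1 = chr g 2 ∧
    chr (Equiv.swap 1 2 g) 2 = chr g 1 ∧ chr (Equiv.swap 1 2 g) 3 = chr g 3 := by
  unfold chr
  refine ⟨?_, ?_, ?_⟩ <;> congr 1 <;> revert g <;> decide

theorem Sym_bond_eq {L : ℕ} (g : Fin 4) (i j : Fin L) : bondR g i j =
    chr g 1 • (onS (Cm 0) i * onS (Cm 0) j) - chr g 2 • (onS (Cm 1) i * onS (Cm 1) j) +
      chr g 3 • (onS (Cm 2) i * onS (Cm 2) j) := by
  unfold bondR
  rw [Fin.sum_univ_three]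
  have h1 : (0 : Fin 3).succ = (1 : Fin 4) := rfl
  have h2 : (1 : Fin 3).succ = (2 : Fin 4) := rfl
  have h3 : (2 : Fin 3).succ = (3 : Fin 4) := rfl
  rw [h1, h2, h3]
  simp [eps, sub_eq_add_neg]

/-- the phase `i ^ (digit sum)` -/
noncomputable def SymPh {L : ℕ} (σ : Cfg L) : ℂ := ∏ j, Complex.I ^ (σ j).val

def SymRel {L : ℕ} (c : ℂ) (A B : Op L) : Prop :=
  ∀ σ τ, SymPh σ * (A σ τ : ℂ) = c * (B σ τ : ℂ) * SymPh τ

theorem SymRel.mul {L : ℕ} {c d : ℂ} {A B A' B' : Op L} (h : SymRel c A B) (h' : SymRel d A' B') :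
    SymRel (c * d) (A * A') (B * B') := by
  intro σ τ
  simp only [mul_apply, Complex.ofReal_sum, Complex.ofReal_mul, Finset.mul_sum, Finset.sum_mul]
  refine Finset.sum_congr rfl fun ρ _ => ?_
  calc SymPh σ * ((A σ ρ : ℂ) * (A' ρ τ : ℂ)) = (SymPh σ * (A σ ρ : ℂ)) * (A' ρ τ : ℂ) := by ring
    _ = c * (B σ ρ : ℂ) * (SymPh ρ * (A' ρ τ : ℂ)) := by rw [h]; ring
    _ = _ := by rw [h']; ring

theorem SymRel_tens {L : ℕ} (c : Fin L → ℂ) (A B : Fin L → M3)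
    (h : ∀ j a b, Complex.I ^ (a : Fin 3).val * (A j a b : ℂ) =
      c j * (B j a b : ℂ) * Complex.I ^ (b : Fin 3).val) :
    SymRel (∏ j, c j) (tens A) (tens B) := by
  intro σ τ
  simp only [SymPh, tens, of_apply, Complex.ofReal_prod, ← Finset.prod_mul_distrib]
  exact Finset.prod_congr rfl fun j _ => h j _ _

theorem SymRel_onS {L : ℕ} (c : ℂ) (A B : M3)
    (h : ∀ a b, Complex.I ^ (a : Fin 3).val * (A a b : ℂ) =
      c * (B a b : ℂ) * Complex.I ^ (b : Fin 3).val) (j : Fin L) :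
    SymRel c (onS A j) (onS B j) := by
  have h1 := SymRel_tens (Function.update (fun _ => (1 : ℂ)) j c)
    (Function.update (fun _ => (1 : M3)) j A) (Function.update (fun _ => (1 : M3)) j B) (by
      intro k a b
      by_cases hk : k = j
      · subst hk; simpa using h a b
      · simp only [Function.update_of_ne hk, one_apply]
        split_ifs with hab
        · subst hab; simp
        · simp)
  rw [Finset.prod_update_of_mem (Finset.mem_univ _)] at h1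
  simpa [onS_eq_tens] using h1

noncomputable def SymEta {L : ℕ} (σ : Cfg L) : ℝ := (SymPh σ).re + (SymPh σ).im

theorem Sym_I_pow (d : ℕ) : (Complex.I ^ d).re * (Complex.I ^ d).im = 0 ∧
    (Complex.I ^ d).re ^ 2 + (Complex.I ^ d).im ^ 2 = 1 := by
  induction d with
  | zero => simp
  | succ d ih =>
    obtain ⟨h1, h2⟩ := ih
    rw [pow_succ]
    simp only [Complex.mul_re, Complex.mul_im, Complex.I_re, Complex.I_im]
    constructor <;> nlinarith

theorem SymEta_sq {L : ℕ} (σ : Cfg L) : SymEta σ * SymEta σ = 1 := by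
  unfold SymEta SymPh
  rw [Finset.prod_pow_eq_pow_sum]
  obtain ⟨h1, h2⟩ := Sym_I_pow (∑ j, (σ j).val)
  nlinarith

theorem SymRel.real {L : ℕ} {c : ℝ} {A B : Op L} (h : SymRel (c : ℂ) A B) :
    diagonal SymEta * A = c • (B * diagonal SymEta) := by
  ext σ τ
  have h1 := congrArg Complex.re (h σ τ)
  have h2 := congrArg Complex.im (h σ τ)
  simp only [Complex.mul_re, Complex.mul_im, Complex.ofReal_re, Complex.ofReal_im] at h1 h2
  simp only [diagonal_mul, Matrix.smul_apply, mul_diagonal, smul_eq_mul, SymEta]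
  linarith

theorem Sym_I0 (a b : Fin 3) : Complex.I ^ a.val * (Cm 0 a b : ℂ) =
    (-Complex.I) * (Cm 1 a b : ℂ) * Complex.I ^ b.val := by
  fin_cases a <;> fin_cases b <;> simp [Cm] <;> ring_nf <;> simp

theorem Sym_I1 (a b : Fin 3) : Complex.I ^ a.val * (Cm 1 a b : ℂ) =
    (-Complex.I) * (Cm 0 a b : ℂ) * Complex.I ^ b.val := by
  fin_cases a <;> fin_cases b <;> simp [Cm] <;> ring_nf <;> simp

theorem Sym_I2 (a b : Fin 3) : Complex.I ^ a.val * (Cm 2 a b : ℂ) =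
    1 * (Cm 2 a b : ℂ) * Complex.I ^ b.val := by
  fin_cases a <;> fin_cases b <;> simp [Cm]

theorem Sym_IV (h : Fin 4) (a b : Fin 3) : Complex.I ^ a.val * (Vm h a b : ℂ) =
    1 * (Vm (Equiv.swap 1 2 h) a b : ℂ) * Complex.I ^ b.val := by
  fin_cases h
  · have : Equiv.swap (1 : Fin 4) 2 0 = 0 := by decide
    fin_cases a <;> fin_cases b <;> simp [this, Vm]
  · have : Equiv.swap (1 : Fin 4) 2 1 = 2 := by decide
    fin_cases a <;> fin_cases b <;> simp [this, Vm]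
  · have : Equiv.swap (1 : Fin 4) 2 2 = 1 := by decide
    fin_cases a <;> fin_cases b <;> simp [this, Vm]
  · have : Equiv.swap (1 : Fin 4) 2 3 = 3 := by decide
    fin_cases a <;> fin_cases b <;> simp [this, Vm]

/-- Plan: the real rotation `W = 1 + Y + Y² = !![1/2, 1/√2, 1/2; -1/√2, 0, 1/√2; 1/2, -1/√2, 1/2]`
(`Y = Cm 1`) is orthogonal, `W * Cm 0 = ± Cm 2 * W`, `W * Cm 2 = ∓ Cm 0 * W`, `W * Cm 1 = Cm 1 * W`,
`W * Vm h = Vm (swap 1 3 h) * W`.  Use `U = tens fun _ => W`, `onS_eq_tens`, `tens_mul`,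
`trace_exp_conj`. -/
theorem ZR_swap13 (g h : Fin 4) (L : ℕ) (β : ℝ) :
    ZR (Equiv.swap 1 3 g) (Equiv.swap 1 3 h) L β = ZR g h L β := by
  refine Sym_conj L (Equiv.swap 1 3) (by decide) (tens fun _ => SymW) (tens fun _ => SymWᵀ) ?_ ?_ g h
    ?_ β
  · rw [tens_mul]; simp only [SymW_orth]; exact tens_one
  · intro g i j
    obtain ⟨h1, h2, h3⟩ := Sym_chr13 g
    have key : ∀ A B : M3, SymW * A = B * SymW →
        tens (fun _ => SymW) * (onS A i * onS A j) = (onS B i * onS B j) * tens (fun _ => SymW) := by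
      intro A B hAB
      rw [← Matrix.mul_assoc, Sym_tens_onS _ _ _ hAB, Matrix.mul_assoc, Sym_tens_onS _ _ _ hAB,
        Matrix.mul_assoc]
    rw [Sym_bond_eq, Sym_bond_eq, h1, h2, h3]
    simp only [Matrix.mul_add, Matrix.mul_sub, Matrix.add_mul, Matrix.sub_mul, Matrix.mul_smul,
      Matrix.smul_mul]
    rw [key _ _ SymW_C0, key _ _ SymW_C1, key _ _ SymW_C2, Sym_onS_neg, Sym_onS_neg, neg_mul_neg]
    abel
  · unfold VV
    rw [tens_mul, tens_mul]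
    simp only [SymW_V]

/-- Plan: the diagonal sign matrix `η σ = (-1)^⌊M/2⌋`, `M = L - ds σ : ℤ` the magnetisation (for instance
`η σ = if (L + 3 * ds σ) % 4 < 2 then 1 else -1`, as `M ≡ L + 3 ds σ mod 4`).  `η` commutes with the terms
conserving `M` and anticommutes with those changing `M` by `±2`: in terms of `P = S⁺/√2`,
`Cm 0 ⊗ Cm 0 = (P+Pᵀ)⊗(P+Pᵀ)/2`, `Cm 1 ⊗ Cm 1 = (P-Pᵀ)⊗(P-Pᵀ)/2`, so
`η (Cm 0 ⊗ Cm 0) η = -(Cm 1 ⊗ Cm 1)` and vice versa; `η (VV 1) η = VV 2`, `η (VV 3) η = VV 3`.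
Entrywise: `η σ * η τ` is determined by `ds σ - ds τ` when this is even.  (Alternatively conjugate over `ℂ`
with `diag (i^m)`.) -/
theorem ZR_swap12 (g h : Fin 4) (L : ℕ) (hL : 2 ≤ L) (β : ℝ) :
    ZR (Equiv.swap 1 2 g) (Equiv.swap 1 2 h) L β = ZR g h L β := by
  refine Sym_conj L (Equiv.swap 1 2) (by decide) (diagonal SymEta) (diagonal SymEta) ?_ ?_ g h ?_ β
  · rw [diagonal_mul_diagonal]; simp only [SymEta_sq]; exact diagonal_one
  · intro g i j
    obtain ⟨h1, h2, h3⟩ := Sym_chr12 g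
    have e1 : (-Complex.I) * (-Complex.I) = ((-1 : ℝ) : ℂ) := by simp
    have e2 : (1 : ℂ) * 1 = ((1 : ℝ) : ℂ) := by simp
    have k0 := (SymRel_onS _ _ _ Sym_I0 i).mul (SymRel_onS _ _ _ Sym_I0 j)
    have k1 := (SymRel_onS _ _ _ Sym_I1 i).mul (SymRel_onS _ _ _ Sym_I1 j)
    have k2 := (SymRel_onS _ _ _ Sym_I2 i).mul (SymRel_onS _ _ _ Sym_I2 j)
    rw [e1] at k0 k1
    rw [e2] at k2
    rw [Sym_bond_eq, Sym_bond_eq, h1, h2, h3]
    simp only [Matrix.mul_add, Matrix.mul_sub, Matrix.add_mul, Matrix.sub_mul, Matrix.mul_smul,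
      Matrix.smul_mul]
    rw [k0.real, k1.real, k2.real]
    simp only [neg_smul, one_smul, smul_neg]
    abel
  · have k := SymRel_tens (fun _ : Fin L => (1 : ℂ)) (fun _ => Vm h)
      (fun _ => Vm (Equiv.swap 1 2 h)) (fun _ a b => Sym_IV h a b)
    have e2 : (∏ _j : Fin L, (1 : ℂ)) = ((1 : ℝ) : ℂ) := by simp
    rw [e2] at k
    have := k.real
    rw [one_smul] at this
    exact this

theorem Zs_00 (L : ℕ) (hL : 2 ≤ L) (β : ℝ) : Zs 0 0 L β = (ZR 0 0 L β + 3 * ZR 3 0 L β) / 4 := by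
  have h1 : ZR 1 0 L β = ZR 3 0 L β := ZR_swap13 3 0 L β
  have h2 : ZR 2 0 L β = ZR 1 0 L β := ZR_swap12 1 0 L hL β
  simp only [Zs, Fin.sum_univ_four, h2, h1]
  simp [chr]; ring

theorem Zs_0x (σ : Fin 4) (hσ : σ ≠ 0) (L : ℕ) (hL : 2 ≤ L) (β : ℝ) :
    Zs 0 σ L β = (ZR 0 0 L β - ZR 3 0 L β) / 4 := by
  have h1 : ZR 1 0 L β = ZR 3 0 L β := ZR_swap13 3 0 L β
  have h2 : ZR 2 0 L β = ZR 1 0 L β := ZR_swap12 1 0 L hL β
  simp only [Zs, Fin.sum_univ_four, h2, h1]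
  fin_cases σ
  · exact absurd rfl hσ
  all_goals simp [chr]; ring

theorem Zs_30 (L : ℕ) (hL : 2 ≤ L) (β : ℝ) :
    Zs 3 0 L β = (ZR 0 3 L β + ZR 3 3 L β + 2 * ZR 3 1 L β) / 4 := by
  have h1 : ZR 1 3 L β = ZR 3 1 L β := ZR_swap13 3 1 L β
  have h2 : ZR 2 3 L β = ZR 1 3 L β := ZR_swap12 1 3 L hL β
  simp only [Zs, Fin.sum_univ_four, h2, h1]
  simp [chr]; ring

theorem Zs_33 (L : ℕ) (hL : 2 ≤ L) (β : ℝ) :
    Zs 3 3 L β = (ZR 0 3 L β + ZR 3 3 L β - 2 * ZR 3 1 L β) / 4 := by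
  have h1 : ZR 1 3 L β = ZR 3 1 L β := ZR_swap13 3 1 L β
  have h2 : ZR 2 3 L β = ZR 1 3 L β := ZR_swap12 1 3 L hL β
  simp only [Zs, Fin.sum_univ_four, h2, h1]
  simp [chr]; ring

theorem Zs_31 (σ : Fin 4) (hσ : σ = 1 ∨ σ = 2) (L : ℕ) (hL : 2 ≤ L) (β : ℝ) :
    Zs 3 σ L β = (ZR 0 3 L β - ZR 3 3 L β) / 4 := by
  have h1 : ZR 1 3 L β = ZR 3 1 L β := ZR_swap13 3 1 L β
  have h2 : ZR 2 3 L β = ZR 1 3 L β := ZR_swap12 1 3 L hL β
  simp only [Zs, Fin.sum_univ_four, h2, h1]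
  rcases hσ with rfl | rfl <;> simp [chr] <;> ring

theorem sum_Zs (h : Fin 4) (L : ℕ) (β : ℝ) : ∑ σ : Fin 4, Zs h σ L β = ZR 0 h L β := by
  simp only [Zs, Fin.sum_univ_four]
  simp [chr]; ring

theorem ZR_0h (h : Fin 4) (hh : h ≠ 0) (L : ℕ) (hL : 2 ≤ L) (β : ℝ) : ZR 0 h L β = ZR 0 3 L β := by
  have h1 : ZR 0 1 L β = ZR 0 3 L β := ZR_swap13 0 3 L β
  have h2 : ZR 0 2 L β = ZR 0 1 L β := ZR_swap12 0 1 L hL β
  fin_cases h
  · exact absurd rfl hh
  · exact h1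
  · exact h2.trans h1
  · rfl

end Crest.Agent.R347
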