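import Mathlib

/-!
# R347: the abstract packages (time direction, time twist, space direction, families)
-/

set_option autoImplicit false

namespace Crest.Agent.R347

/-- `Z β = ∑ yᵢ^β`, `mu` the largest `yᵢ`, `a β` the relative weight of the others -/
structure TimeP (Z : ℕ → ℝ) (mu : ℝ) (a : ℕ → ℝ) (gap : ℝ → Prop) : Prop where
  mu_pos : 0 < mu
  hZ : ∀ β, Z β = mu ^ β * (1 + a β)
  nonneg : ∀ β, 0 ≤ a β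
  pw : ∀ β β', 1 ≤ β → β ≤ β' → a β' ^ β ≤ a β ^ β'
  anti : ∀ β β', β ≤ β' → a β' ≤ a β
  gap : ∀ (β : ℕ) (c : ℝ), 1 ≤ β → a β * Real.exp (β * c) < 1 → gap c

/-- symmetry sectors in the time direction: one sector `Z0` and `m` equivalent ones -/
def TwP (m : ℕ) (Z Z0 : ℕ → ℝ) (mu : ℝ) (a : ℕ → ℝ) : Prop :=
  1 ≤ mu → ∀ β : ℕ, 1 ≤ β → Z β < m → ∃ u v : ℝ, 0 ≤ u ∧ 0 ≤ v ∧ u + mu ^ β = Z0 β ∧
    u + m * v + mu ^ β = Z β ∧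
    ∀ β' : ℕ, β ≤ β' → a β' ≤ u ^ ((β' : ℝ) / β) + m * v ^ ((β' : ℝ) / β)

/-- `Z L = ∑ xᵢ^L`, `c k = ∑ wᵢ xᵢ^k`; `lam = max |xᵢ|` with weight `w`, `q` bounds the others -/
structure SpaceP (Z c : ℕ → ℝ) (lam q w : ℝ) (b r : ℕ → ℝ) : Prop where
  lam_pos : 0 < lam
  hZ : ∀ L, Even L → 6 ≤ L → Z L = lam ^ L * (1 + b L)
  nonneg : ∀ L, Even L → 6 ≤ L → 0 ≤ b L
  pw : ∀ L L', Even L → Even L' → 6 ≤ L → L ≤ L' → b L' ^ L ≤ b L ^ L'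
  anti : ∀ L L', Even L → Even L' → 6 ≤ L → L ≤ L' → b L' ≤ b L
  q_nonneg : 0 ≤ q
  q_le : q ≤ lam
  q_pow : ∀ L, Even L → 6 ≤ L → q ^ L ≤ b L * lam ^ L
  w_nonneg : 0 ≤ w
  r_nonneg : ∀ k, 6 ≤ k → 0 ≤ r k
  c_even : ∀ k, Even k → 6 ≤ k → c k = w * lam ^ k + r k
  c_odd : ∀ k, Odd k → 6 ≤ k → |c k - w * lam ^ k| ≤ r k ∨ |c k + w * lam ^ k| ≤ r k
  r_dec : ∀ k k', 6 ≤ k → k ≤ k' → r k' ≤ q ^ (k' - k) * r k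

/-- the limiting spectral family of one sector -/
structure Fam (Z c : ℕ → ℝ) (X W : ℕ → ℝ) : Prop where
  w_nonneg : ∀ i, 0 ≤ W i
  hZ : ∀ L, 5 ≤ L → HasSum (fun i => X i ^ L) (Z L)
  hc : ∀ k, 5 ≤ k → HasSum (fun i => W i * X i ^ k) (c k)
  pos : ∀ (d : ℕ) (a : ℕ → ℝ), (∀ t : ℝ, 0 ≤ ∑ j ∈ Finset.range d, a j * t ^ j) →
    ∀ s : Finset ℕ, ∑ i ∈ s, W i * ∑ j ∈ Finset.range d, a j * X i ^ j ≤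
      ∑ j ∈ Finset.range d, a j * c j

/-- all data entering the bootstrap (`L`, `k` lengths, `β` inverse temperatures) -/
structure Data where
  Z : ℕ → ℕ → ℝ
  Z0 : ℕ → ℕ → ℝ
  mu : ℕ → ℝ
  a : ℕ → ℕ → ℝ
  gapR : ℕ → ℝ → Prop
  c : ℕ → ℕ → ℝ
  c0 : ℕ → ℕ → ℝ
  nu : ℕ → ℝ
  ao : ℕ → ℕ → ℝ
  gapO : ℕ → ℝ → Prop
  lam : ℕ → ℝ
  q : ℕ → ℝ
  w : ℕ → ℝ
  b : ℕ → ℕ → ℝ
  r : ℕ → ℕ → ℝ
  timeR : ∀ L, Even L → 6 ≤ L → TimeP (Z L) (mu L) (a L) (gapR L)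
  twR : ∀ L, Even L → 6 ≤ L → TwP 3 (Z L) (Z0 L) (mu L) (a L)
  timeO : ∀ k, 6 ≤ k → TimeP (c k) (nu k) (ao k) (gapO k)
  twO : ∀ k, Even k → 6 ≤ k → TwP 2 (c k) (c0 k) (nu k) (ao k)
  space : ∀ β, 1 ≤ β → SpaceP (fun L => Z L β) (fun k => c k β) (lam β) (q β) (w β)
    (fun L => b L β) (fun k => r k β)
  muC : ∃ C : ℝ, 0 < C ∧ ∀ L, Even L → 22 ≤ L → C ≤ mu L
  nu1 : ∀ k, Even k → 20 ≤ k → 1 ≤ nu k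

/-- `∑ coef * base ^ n` -/
def evalB (l : List (ℚ × ℚ)) (n : ℕ) : ℚ := (l.map fun p => p.1 * p.2 ^ n).sum

end Crest.Agent.R347
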