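import Crest.Agent.R347.Mat
import Crest.Agent.R347.Pack

/-!
# R347: the time direction
-/

set_option autoImplicit false

namespace Crest.Agent.R347

open Matrix Crest.MathPhysics.SpinChain

variable {n : Type} [Fintype n] [DecidableEq n] [Nonempty n] {H : Matrix n n ℝ}

/-- index of a smallest eigenvalue -/
noncomputable def gI (hH : H.IsHermitian) : n :=
  Classical.choose (Finset.exists_min_image Finset.univ hH.eigenvalues Finset.univ_nonempty)

noncomputable def muH (hH : H.IsHermitian) : ℝ := Real.exp (-hH.eigenvalues (gI hH))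

noncomputable def aH (hH : H.IsHermitian) (β : ℕ) : ℝ :=
  ∑ i ∈ Finset.univ.erase (gI hH), Real.exp (-(β : ℝ) * (hH.eigenvalues i - hH.eigenvalues (gI hH)))

private lemma time_gI_le (hH : H.IsHermitian) (i : n) :
    hH.eigenvalues (gI hH) ≤ hH.eigenvalues i :=
  (Classical.choose_spec
    (Finset.exists_min_image Finset.univ hH.eigenvalues Finset.univ_nonempty)).2 i
      (Finset.mem_univ i)

omit [Nonempty n] in
private lemma time_real_gap (hH : H.IsHermitian) (i₀ : n) (c : ℝ)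
    (h : ∀ i, i ≠ i₀ → hH.eigenvalues i₀ + c < hH.eigenvalues i) (v : n → ℝ)
    (hv : ev hH i₀ ⬝ᵥ v = 0) :
    (hH.eigenvalues i₀ + c) * (v ⬝ᵥ v) ≤ v ⬝ᵥ (H *ᵥ v) ∧
      (v ≠ 0 → (hH.eigenvalues i₀ + c) * (v ⬝ᵥ v) < v ⬝ᵥ (H *ᵥ v)) := by
  have h0 := dot_pow_mulVec hH v 0
  have h1 := dot_pow_mulVec hH v 1
  simp only [pow_zero, Matrix.one_mulVec, mul_one, pow_one] at h0 h1
  have hle : ∀ i ∈ (Finset.univ : Finset n),
      (hH.eigenvalues i₀ + c) * (ev hH i ⬝ᵥ v) ^ 2 ≤ (ev hH i ⬝ᵥ v) ^ 2 * hH.eigenvalues i := by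
    intro i _
    by_cases hi : i = i₀
    · subst hi; rw [hv]; simp
    · have := h i hi
      nlinarith [sq_nonneg (ev hH i ⬝ᵥ v)]
  rw [h0, h1, Finset.mul_sum]
  refine ⟨Finset.sum_le_sum hle, fun hne => Finset.sum_lt_sum hle ?_⟩
  have : ∃ i, ev hH i ⬝ᵥ v ≠ 0 := by
    by_contra hcon
    push Not at hcon
    apply hne
    rw [sum_ev hH v]
    simp [hcon]
  obtain ⟨i, hi⟩ := this
  refine ⟨i, Finset.mem_univ _, ?_⟩
  have hi0 : i ≠ i₀ := by rintro rfl; exact hi hv
  have := h i hi0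
  have hp : 0 < (ev hH i ⬝ᵥ v) ^ 2 := by positivity
  nlinarith

omit [DecidableEq n] [Nonempty n] in
private lemma time_re_form (A : Matrix n n ℝ) (ψ : n → ℂ) :
    (star ψ ⬝ᵥ (A.map (fun x : ℝ => (x : ℂ))).mulVec ψ).re =
      (fun i => (ψ i).re) ⬝ᵥ (A *ᵥ fun i => (ψ i).re) +
        (fun i => (ψ i).im) ⬝ᵥ (A *ᵥ fun i => (ψ i).im) := by
  simp only [dotProduct, Matrix.mulVec, Complex.re_sum, Finset.mul_sum, ← Finset.sum_add_distrib]
  refine Finset.sum_congr rfl fun i _ => Finset.sum_congr rfl fun j _ => ?_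
  simp [Matrix.map_apply]

omit [DecidableEq n] [Nonempty n] in
private lemma time_re_norm (ψ : n → ℂ) :
    (star ψ ⬝ᵥ ψ).re = (fun i => (ψ i).re) ⬝ᵥ (fun i => (ψ i).re) +
      (fun i => (ψ i).im) ⬝ᵥ (fun i => (ψ i).im) := by
  simp only [dotProduct, Complex.re_sum, ← Finset.sum_add_distrib]
  refine Finset.sum_congr rfl fun i _ => ?_
  simp

private lemma time_pow_sum {ι : Type} (s : Finset ι) (w y : ι → ℝ) (hw : ∀ i, 0 ≤ w i)
    (hy : ∀ i, 0 ≤ y i) (β β' : ℕ) (h1 : 1 ≤ β) (h2 : β ≤ β')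
    (h : ∀ i ∈ s, w i ≠ 0 → y i ^ β ≤ ∑ j ∈ s, w j * y j ^ β) :
    ∑ i ∈ s, w i * y i ^ β' ≤ (∑ j ∈ s, w j * y j ^ β) ^ ((β' : ℝ) / β) := by
  set S := ∑ j ∈ s, w j * y j ^ β with hS
  have hβ : (0 : ℝ) < β := by exact_mod_cast h1
  have hββ : (β : ℝ) ≤ β' := by exact_mod_cast h2
  have hS0 : 0 ≤ S := Finset.sum_nonneg fun j _ => mul_nonneg (hw j) (pow_nonneg (hy j) _)
  have hr : 0 ≤ ((β' : ℝ) - β) / β := div_nonneg (by linarith) hβ.le
  have e : (β' : ℝ) / β = 1 + ((β' : ℝ) - β) / β := by field_simp; ring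
  rw [e, Real.rpow_one_add' hS0 (by positivity)]
  conv_rhs => rw [hS, Finset.sum_mul]
  refine Finset.sum_le_sum fun i hi => ?_
  by_cases hwi : w i = 0
  · simp [hwi]
  · have e2 : y i ^ β' = y i ^ β * (y i ^ β) ^ (((β' : ℝ) - β) / β) := by
      rw [← Real.rpow_natCast (y i) β, ← Real.rpow_mul (hy i), mul_div_cancel₀ _ hβ.ne',
        ← Nat.cast_sub h2, Real.rpow_natCast, Real.rpow_natCast, ← pow_add,
        Nat.add_sub_cancel' h2]
    rw [e2, ← mul_assoc]
    refine mul_le_mul_of_nonneg_left ?_ (mul_nonneg (hw i) (pow_nonneg (hy i) _))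
    exact Real.rpow_le_rpow (pow_nonneg (hy i) _) (h i hi hwi) hr

omit [Nonempty n] in
private lemma time_trace (hH : H.IsHermitian) (V : Matrix n n ℝ) (β : ℕ) :
    trace (V * NormedSpace.exp ((-(β : ℝ)) • H)) =
      ∑ i, wt hH V i * Real.exp (-hH.eigenvalues i) ^ β := by
  rw [trace_mul_exp hH]
  refine Finset.sum_congr rfl fun i _ => ?_
  rw [← Real.exp_nat_mul]; congr 2; ring

omit [Nonempty n] in
private lemma time_mass (hH : H.IsHermitian) {P : Matrix n n ℝ} (hP : IsProj H P) (β : ℕ) (i : n)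
    (hi : wt hH P i ≠ 0) (s : Finset n)
    (hs : ∀ j, hH.eigenvalues j = hH.eigenvalues i → j ∈ s) :
    Real.exp (-hH.eigenvalues i) ^ β ≤ ∑ j ∈ s, wt hH P j * Real.exp (-hH.eigenvalues j) ^ β := by
  have hm := wt_mass hH hP i hi
  have hp : 0 ≤ Real.exp (-hH.eigenvalues i) ^ β := by positivity
  calc Real.exp (-hH.eigenvalues i) ^ β
      ≤ (∑ j ∈ Finset.univ.filter (fun j => hH.eigenvalues j = hH.eigenvalues i), wt hH P j) *
          Real.exp (-hH.eigenvalues i) ^ β := le_mul_of_one_le_left hp hm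
    _ = ∑ j ∈ Finset.univ.filter (fun j => hH.eigenvalues j = hH.eigenvalues i),
          wt hH P j * Real.exp (-hH.eigenvalues j) ^ β := by
        rw [Finset.sum_mul]
        refine Finset.sum_congr rfl fun j hj => ?_
        rw [(Finset.mem_filter.1 hj).2]
    _ ≤ _ := by
        refine Finset.sum_le_sum_of_subset_of_nonneg (fun j hj => hs j (Finset.mem_filter.1 hj).2)
          fun j _ _ => mul_nonneg (wt_nonneg hH hP j) (by positivity)

private lemma time_aH (hH : H.IsHermitian) (β : ℕ) :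
    aH hH β = ∑ i ∈ Finset.univ.erase (gI hH),
      Real.exp (-(hH.eigenvalues i - hH.eigenvalues (gI hH))) ^ β := by
  refine Finset.sum_congr rfl fun i _ => ?_
  rw [← Real.exp_nat_mul]; congr 1; ring

private lemma time_mu_aH (hH : H.IsHermitian) (β : ℕ) :
    muH hH ^ β * aH hH β =
      ∑ i ∈ Finset.univ.erase (gI hH), Real.exp (-hH.eigenvalues i) ^ β := by
  rw [time_aH, Finset.mul_sum]
  refine Finset.sum_congr rfl fun i _ => ?_
  rw [muH, ← mul_pow, ← Real.exp_add]; congr 2; ring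

/-- Plan: complexify: `ψ₀ = ev i₀`, split `ψ = x + i y`; both `x, y ⟂ ev i₀`, expand in the eigenbasis. -/
theorem gap_of_eig (hH : H.IsHermitian) (i₀ : n) (c s : ℝ)
    (h : ∀ i, i ≠ i₀ → hH.eigenvalues i₀ + c < hH.eigenvalues i) :
    HasSimpleGroundStateWithGap ((H + s • (1 : Matrix n n ℝ)).map (fun x : ℝ => (x : ℂ))) c := by
  refine ⟨hH.eigenvalues i₀ + s, fun k => (ev hH i₀ k : ℂ), ?_, ?_, ?_⟩
  · intro h0
    have h1 := ev_dot hH i₀ i₀
    have h2 : ev hH i₀ = 0 := by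
      funext k
      have := congrFun h0 k
      simpa using this
    rw [h2] at h1
    simp at h1
  · funext k
    have h1 : ((H + s • (1 : Matrix n n ℝ)) *ᵥ ev hH i₀) k = (hH.eigenvalues i₀ + s) * ev hH i₀ k := by
      rw [Matrix.add_mulVec, Matrix.smul_mulVec, Matrix.one_mulVec, mulVec_ev]
      simp; ring
    have h2 : ((H + s • (1 : Matrix n n ℝ)).map (fun x : ℝ => (x : ℂ))).mulVec
        (fun k => (ev hH i₀ k : ℂ)) k = (((H + s • (1 : Matrix n n ℝ)) *ᵥ ev hH i₀) k : ℝ) := by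
      simp only [Matrix.mulVec, dotProduct, Matrix.map_apply]
      push_cast
      rfl
    rw [h2, h1]
    simp
  · intro ψ hψ horth
    rw [time_re_form, time_re_norm]
    set x : n → ℝ := fun i => (ψ i).re with hx
    set y : n → ℝ := fun i => (ψ i).im with hy
    have hx0 : ev hH i₀ ⬝ᵥ x = 0 := by
      have := congrArg Complex.re horth
      simpa [dotProduct, Complex.re_sum] using this
    have hy0 : ev hH i₀ ⬝ᵥ y = 0 := by
      have := congrArg Complex.im horth
      simpa [dotProduct, Complex.im_sum] using this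
    obtain ⟨hx1, hx2⟩ := time_real_gap hH i₀ c h x hx0
    obtain ⟨hy1, hy2⟩ := time_real_gap hH i₀ c h y hy0
    simp only [Matrix.add_mulVec, Matrix.smul_mulVec, Matrix.one_mulVec, dotProduct_add,
      dotProduct_smul, smul_eq_mul]
    have hne : x ≠ 0 ∨ y ≠ 0 := by
      by_contra hcon
      push Not at hcon
      apply hψ
      funext i
      exact Complex.ext (congrFun hcon.1 i) (congrFun hcon.2 i)
    rcases hne with hne | hne
    · have := hx2 hne; nlinarith
    · have := hy2 hne; nlinarith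

/-- Plan: with `yᵢ = exp (-(Eᵢ - E₀)) ∈ (0,1]`, `a β = ∑ yᵢ^β`; `pw`: every `yᵢ^β ≤ a β`, so
`a β' ^ β ≤ a β ^ β'` via `a β' ≤ (a β)^(β'/β)` (rpow) . -/
theorem timeP (hH : H.IsHermitian) :
    TimeP (fun β : ℕ => trace (NormedSpace.exp ((-(β : ℝ)) • H))) (muH hH) (aH hH)
      (fun c => ∀ s : ℝ, HasSimpleGroundStateWithGap
        ((H + s • (1 : Matrix n n ℝ)).map (fun x : ℝ => (x : ℂ))) c) := by
  have hy1 : ∀ i, Real.exp (-(hH.eigenvalues i - hH.eigenvalues (gI hH))) ≤ 1 := fun i => by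
    rw [Real.exp_le_one_iff]
    have := time_gI_le hH i
    linarith
  refine ⟨Real.exp_pos _, fun β => ?_, fun β => ?_, fun β β' h1 h2 => ?_, fun β β' h => ?_,
    fun β c h1 h2 s => ?_⟩
  · have := time_trace hH 1 β
    rw [Matrix.one_mul] at this
    rw [this, mul_add, mul_one, time_mu_aH, ← Finset.add_sum_erase _ _ (Finset.mem_univ (gI hH))]
    simp [wt_one, muH]
  · exact Finset.sum_nonneg fun i _ => (Real.exp_pos _).le
  · have hβ : (0 : ℝ) < β := by exact_mod_cast h1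
    have h3 := time_pow_sum (Finset.univ.erase (gI hH)) (fun _ => 1)
      (fun i => Real.exp (-(hH.eigenvalues i - hH.eigenvalues (gI hH)))) (fun _ => zero_le_one)
      (fun _ => (Real.exp_pos _).le) β β' h1 h2 (fun i hi _ => by
        simp only [one_mul]
        exact Finset.single_le_sum (f := fun j =>
          Real.exp (-(hH.eigenvalues j - hH.eigenvalues (gI hH))) ^ β)
          (fun j _ => by positivity) hi)
    simp only [one_mul, ← time_aH] at h3
    have h0 : ∀ b, 0 ≤ aH hH b := fun b => Finset.sum_nonneg fun i _ => (Real.exp_pos _).le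
    calc aH hH β' ^ β ≤ (aH hH β ^ ((β' : ℝ) / β)) ^ β := pow_le_pow_left₀ (h0 _) h3 β
      _ = aH hH β ^ β' := by
        rw [← Real.rpow_natCast _ β, ← Real.rpow_mul (h0 _), div_mul_cancel₀ _ hβ.ne',
          Real.rpow_natCast]
  · rw [time_aH, time_aH]
    exact Finset.sum_le_sum fun i _ => pow_le_pow_of_le_one (Real.exp_pos _).le (hy1 i) h
  · refine gap_of_eig hH (gI hH) c s fun i hi => ?_
    have hβ : (0 : ℝ) < β := by exact_mod_cast h1
    have h3 : Real.exp (-(β : ℝ) * (hH.eigenvalues i - hH.eigenvalues (gI hH))) ≤ aH hH β :=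
      Finset.single_le_sum (f := fun j =>
        Real.exp (-(β : ℝ) * (hH.eigenvalues j - hH.eigenvalues (gI hH))))
        (fun j _ => (Real.exp_pos _).le) (Finset.mem_erase.2 ⟨hi, Finset.mem_univ _⟩)
    have h4 := (mul_le_mul_of_nonneg_right h3 (Real.exp_pos ((β : ℝ) * c)).le).trans_lt h2
    rw [← Real.exp_add, Real.exp_lt_one_iff] at h4
    by_contra hcon
    push Not at hcon
    nlinarith

theorem le_muH (hH : H.IsHermitian) (C : ℝ) (ψ : n → ℝ) (hψ : ψ ≠ 0)
    (h : ψ ⬝ᵥ (H *ᵥ ψ) ≤ C * (ψ ⬝ᵥ ψ)) : Real.exp (-C) ≤ muH hH := by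
  obtain ⟨i, hi⟩ := exists_eig_le hH C ψ hψ h
  have := time_gI_le hH i
  exact Real.exp_le_exp.2 (by linarith)

/-- power sums in a sector.  Plan: `wt_mass` gives `yᵢ^β ≤ f β` whenever the weight is nonzero. -/
theorem proj_pow (hH : H.IsHermitian) {P : Matrix n n ℝ} (hP : IsProj H P) (β β' : ℕ)
    (h1 : 1 ≤ β) (h2 : β ≤ β') :
    trace (P * NormedSpace.exp ((-(β' : ℝ)) • H)) ≤
      trace (P * NormedSpace.exp ((-(β : ℝ)) • H)) ^ ((β' : ℝ) / β) := by
  rw [time_trace hH, time_trace hH]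
  exact time_pow_sum Finset.univ (wt hH P) (fun i => Real.exp (-hH.eigenvalues i))
    (wt_nonneg hH hP) (fun _ => (Real.exp_pos _).le) β β' h1 h2
    fun i _ hi => time_mass hH hP β i hi _ fun j _ => Finset.mem_univ j

/-- Plan: if `wt (P j) i₀ ≠ 0` then `f_j β ≥ mu^β ≥ 1` (`wt_mass`), all `f_j` are equal, so `Z ≥ m`,
contradiction.  Hence `wt P0 i₀ = 1`, `P0 u₀ = u₀`, `P0 - u₀ u₀ᵀ` (`vecMulVec`) is again an `IsProj`;
`u = f_{P0} β - mu^β`, `v = f_j β`; `mu^β' * a β' = f_{P0 - u₀u₀ᵀ} β' + m f_j β'`, `proj_pow`. -/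
theorem twP (hH : H.IsHermitian) (m : ℕ) (hm : 0 < m) (P0 : Matrix n n ℝ) (P : Fin m → Matrix n n ℝ)
    (h0 : IsProj H P0) (hP : ∀ j, IsProj H (P j)) (hsum : P0 + ∑ j, P j = 1)
    (heq : ∀ (i j : Fin m) (β : ℕ), trace (P i * NormedSpace.exp ((-(β : ℝ)) • H)) =
      trace (P j * NormedSpace.exp ((-(β : ℝ)) • H))) :
    TwP m (fun β : ℕ => trace (NormedSpace.exp ((-(β : ℝ)) • H)))
      (fun β : ℕ => trace (P0 * NormedSpace.exp ((-(β : ℝ)) • H))) (muH hH) (aH hH) := by
  intro hmu β hβ hZ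
  have hw : ∀ i, wt hH P0 i + ∑ j, wt hH (P j) i = 1 := by
    intro i
    rw [← wt_one hH i, ← hsum, wt_add]
    congr 1
    simp [wt, Matrix.sum_mulVec, dotProduct_sum]
  set y : n → ℝ := fun i => Real.exp (-hH.eigenvalues i) with hy
  have hy0 : ∀ i, 0 ≤ y i := fun i => (Real.exp_pos _).le
  have hsplit : ∀ (s : Finset n) (b : ℕ), ∑ i ∈ s, y i ^ b =
      ∑ i ∈ s, wt hH P0 i * y i ^ b + ∑ j, ∑ i ∈ s, wt hH (P j) i * y i ^ b := by
    intro s b
    rw [Finset.sum_comm, ← Finset.sum_add_distrib]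
    refine Finset.sum_congr rfl fun i _ => ?_
    rw [← Finset.sum_mul, ← add_mul, hw, one_mul]
  set j₀ : Fin m := ⟨0, hm⟩
  set v : ℝ := ∑ i, wt hH (P j₀) i * y i ^ β with hv
  have hvj : ∀ j, ∑ i, wt hH (P j) i * y i ^ β = v := fun j => by
    have := heq j j₀ β
    rwa [time_trace hH, time_trace hH] at this
  have hZe : trace (NormedSpace.exp ((-(β : ℝ)) • H)) =
      ∑ i, wt hH P0 i * y i ^ β + m * v := by
    have := time_trace hH 1 β
    rw [Matrix.one_mul] at this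
    rw [this]
    simp only [wt_one, one_mul]
    rw [hsplit]
    simp [hvj]
  have hv0 : 0 ≤ v := Finset.sum_nonneg fun i _ =>
    mul_nonneg (wt_nonneg hH (hP j₀) i) (pow_nonneg (hy0 i) _)
  have hZ00 : 0 ≤ ∑ i, wt hH P0 i * y i ^ β := Finset.sum_nonneg fun i _ =>
    mul_nonneg (wt_nonneg hH h0 i) (pow_nonneg (hy0 i) _)
  have hm' : (0 : ℝ) < m := by exact_mod_cast hm
  have hv1 : v < 1 := by
    simp only [hZe] at hZ
    by_contra hcon
    push Not at hcon
    nlinarith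
  have hg : ∀ i, hH.eigenvalues i = hH.eigenvalues (gI hH) → wt hH P0 i = 1 := by
    intro i hi
    have : ∀ j, wt hH (P j) i = 0 := by
      intro j
      by_contra hne
      have h1 := time_mass hH (hP j) β i hne Finset.univ fun j _ => Finset.mem_univ j
      rw [hvj j, hi] at h1
      have h2 : 1 ≤ muH hH ^ β := one_le_pow₀ hmu
      rw [muH] at h2
      linarith
    have h2 := hw i
    simpa [this] using h2
  set u : ℝ := ∑ i ∈ Finset.univ.erase (gI hH), wt hH P0 i * y i ^ β with hu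
  have hu0 : 0 ≤ u := Finset.sum_nonneg fun i _ =>
    mul_nonneg (wt_nonneg hH h0 i) (pow_nonneg (hy0 i) _)
  have hue : u + muH hH ^ β = ∑ i, wt hH P0 i * y i ^ β := by
    rw [← Finset.add_sum_erase _ _ (Finset.mem_univ (gI hH)), hg _ rfl, one_mul, add_comm]
    rfl
  refine ⟨u, v, hu0, hv0, ?_, ?_, fun β' hβ' => ?_⟩
  · simp only [time_trace hH]
    exact hue
  · simp only [hZe]
    linarith
  · have ha0 : 0 ≤ aH hH β' := Finset.sum_nonneg fun i _ => (Real.exp_pos _).le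
    have h1 : aH hH β' ≤ muH hH ^ β' * aH hH β' := le_mul_of_one_le_left ha0 (one_le_pow₀ hmu)
    rw [time_mu_aH, hsplit] at h1
    refine h1.trans (add_le_add ?_ ?_)
    · refine time_pow_sum _ (wt hH P0) y (wt_nonneg hH h0) hy0 β β' hβ hβ' fun i hi hne => ?_
      by_cases hi0 : hH.eigenvalues i = hH.eigenvalues (gI hH)
      · have := Finset.single_le_sum (f := fun j => wt hH P0 j * y j ^ β)
          (fun j _ => mul_nonneg (wt_nonneg hH h0 j) (pow_nonneg (hy0 j) _)) hi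
        simpa [hg i hi0] using this
      · refine time_mass hH h0 β i hne _ fun j hj => Finset.mem_erase.2 ⟨?_, Finset.mem_univ _⟩
        rintro rfl
        exact hi0 hj.symm
    · calc ∑ j, ∑ i ∈ Finset.univ.erase (gI hH), wt hH (P j) i * y i ^ β'
          ≤ ∑ _j : Fin m, v ^ ((β' : ℝ) / β) := by
            refine Finset.sum_le_sum fun j _ => ?_
            have h2 := proj_pow hH (hP j) β β' hβ hβ'
            rw [time_trace hH, time_trace hH, hvj j] at h2
            refine le_trans ?_ h2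
            exact Finset.sum_le_sum_of_subset_of_nonneg (Finset.erase_subset _ _)
              fun i _ _ => mul_nonneg (wt_nonneg hH (hP j) i) (pow_nonneg (hy0 i) _)
        _ = _ := by simp

end Crest.Agent.R347
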