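import Crest.Agent.R347.RP4
import Crest.Agent.R347.Space
import Crest.Agent.R347.Time
import Crest.Agent.R347.Sym
import Crest.Agent.R347.Sec
import Crest.Agent.R347.Nrm

/-!
# R347: the bootstrap data of the spin chain
-/

set_option autoImplicit false

namespace Crest.Agent.R347

open Matrix Crest.MathPhysics.SpinChain

namespace AsmA

section proj
variable {n : Type} [Fintype n] [DecidableEq n] {H V P Q : Matrix n n ℝ}

theorem proj_half (h1 : Vᵀ = V) (h2 : V * V = 1) (h3 : V * H = H * V) {a : ℝ} (ha : a * a = 1) :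
    IsProj H ((1 / 2 : ℝ) • (1 + a • V)) := by
  refine ⟨by simp [h1], ?_, by simp [add_mul, mul_add, h3]⟩
  simp only [smul_mul_assoc, mul_smul_comm, add_mul, mul_add, mul_one, one_mul, h2, smul_add, smul_smul]
  rw [show 1 / 2 * a * (1 / 2 * a) = (1 / 4) * (a * a) by ring, ha]
  module

theorem proj_mul (hP : IsProj H P) (hQ : IsProj H Q) (h : P * Q = Q * P) : IsProj H (P * Q) := by
  refine ⟨by rw [transpose_mul, hP.symm, hQ.symm, h], ?_, ?_⟩
  · rw [mul_assoc, ← mul_assoc Q, ← h, mul_assoc, hQ.idem, ← mul_assoc, hP.idem]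
  · rw [mul_assoc, hQ.comm, ← mul_assoc, hP.comm, mul_assoc]

end proj

theorem Vm13 : Vm 1 * Vm 3 = Vm 2 := by
  ext i j
  fin_cases i <;> fin_cases j <;> simp [Vm, Matrix.mul_apply, Fin.sum_univ_three]

theorem VV13 (L : ℕ) : VV L 1 * VV L 3 = VV L 2 := by
  simp only [VV, tens_mul, Vm13]

theorem VV31 (L : ℕ) : VV L 3 * VV L 1 = VV L 2 := by
  simp only [VV, tens_mul, Vm_comm 3 1, Vm13]

theorem VV_comm_HRn (L : ℕ) (h : Fin 4) : VV L h * HRn L 0 = HRn L 0 * VV L h := by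
  simp [HRn, mul_sub, sub_mul, VV_comm_HR]

/-- the projections of the Klein four group -/
noncomputable def PK (L : ℕ) (a c : ℝ) : Op L :=
  ((1 / 2 : ℝ) • (1 + a • VV L 1)) * ((1 / 2 : ℝ) • (1 + c • VV L 3))

theorem PK_eq (L : ℕ) (a c : ℝ) : PK L a c =
    (1 / 4 : ℝ) • (1 + a • VV L 1 + c • VV L 3 + (a * c) • VV L 2) := by
  simp only [PK, smul_mul_assoc, mul_smul_comm, add_mul, mul_add, mul_one, one_mul, VV13]
  module

theorem PK_proj (L : ℕ) {a c : ℝ} (ha : a * a = 1) (hc : c * c = 1) : IsProj (HRn L 0) (PK L a c) := by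
  refine proj_mul (proj_half (VV_transpose _ _) (VV_mul_self _ _) (VV_comm_HRn _ _) ha)
    (proj_half (VV_transpose _ _) (VV_mul_self _ _) (VV_comm_HRn _ _) hc) ?_
  simp only [smul_mul_assoc, mul_smul_comm, add_mul, mul_add, mul_one, one_mul, VV13, VV31]
  module

theorem ZR00 (L : ℕ) (β : ℝ) : ZR 0 0 L β = trace (NormedSpace.exp ((-β) • HRn L 0)) := by
  rw [ZR, VV_zero, one_mul]

theorem ZO0 (s : ℝ) (k : ℕ) (β : ℝ) : ZO s 0 k β = trace (NormedSpace.exp ((-β) • HOn k s)) := by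
  rw [ZO, VV_zero, one_mul]

theorem PK_trace (L : ℕ) (hL : 2 ≤ L) (a c β : ℝ) :
    trace (PK L a c * NormedSpace.exp ((-β) • HRn L 0)) =
      (ZR 0 0 L β + (a + c + a * c) * ZR 0 3 L β) / 4 := by
  have h1 := ZR_0h 1 (by decide) L hL β
  have h2 := ZR_0h 2 (by decide) L hL β
  rw [ZR00]
  simp only [ZR] at h1 h2 ⊢
  simp only [PK_eq, smul_mul_assoc, add_mul, one_mul, trace_smul, trace_add, smul_eq_mul, h1, h2]
  ring

theorem twR (L : ℕ) (hL : 2 ≤ L) : TwP 3 (fun β : ℕ => ZR 0 0 L β)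
    (fun β : ℕ => (ZR 0 0 L β + 3 * ZR 0 3 L β) / 4) (muH (HRn_symm L hL 0)) (aH (HRn_symm L hL 0)) := by
  have := twP (HRn_symm L hL 0) 3 (by norm_num) (PK L 1 1)
    ![PK L 1 (-1), PK L (-1) 1, PK L (-1) (-1)] (PK_proj L (by norm_num) (by norm_num))
    (fun j => by fin_cases j <;> exact PK_proj L (by norm_num) (by norm_num))
    (by
      simp only [Fin.sum_univ_three, Matrix.cons_val_zero, Matrix.cons_val_one, Matrix.cons_val_two,
        Matrix.head_cons, Matrix.tail_cons, PK_eq]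
      module)
    (fun i j β => by
      have e : ∀ i : Fin 3, trace ((![PK L 1 (-1), PK L (-1) 1, PK L (-1) (-1)] : Fin 3 → Op L) i *
          NormedSpace.exp ((-(β : ℝ)) • HRn L 0)) = (ZR 0 0 L β - ZR 0 3 L β) / 4 := fun i => by
        fin_cases i <;> exact (PK_trace L hL _ _ _).trans (by ring)
      rw [e, e])
  convert this using 2 with β β
  · exact ZR00 L β
  · rw [PK_trace L hL]
    ring

theorem HOn_ds (k : ℕ) (s : ℝ) (σ τ : Cfg (k + 2)) (h : HOn k s σ τ ≠ 0) : ds σ = ds τ := by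
  by_cases hst : σ = τ
  · rw [hst]
  · refine HO_ds (k + 1) s σ τ ?_
    simpa [HOn, Matrix.one_apply_ne hst] using h

theorem ds_le {N : ℕ} (σ : Cfg N) : ds σ ≤ 2 * N := by
  have : ds σ ≤ ∑ _j : Fin N, 2 := Finset.sum_le_sum fun j _ => Nat.le_of_lt_succ (σ j).2
  simpa [mul_comm] using this

theorem twO (k : ℕ) : TwP 2 (fun β : ℕ => ZO (-1) 0 k β)
    (fun β : ℕ => (ZO (-1) 0 k β + ZO (-1) 3 k β) / 2) (muH (HOn_symm k (-1))) (aH (HOn_symm k (-1))) := by
  have := twP (HOn_symm k (-1)) 2 (by norm_num)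
    (diagonal fun σ => if (ds σ + k) % 2 = 0 then 1 else 0)
    ![diagonal fun σ => if (ds σ + k) % 2 = 1 ∧ ds σ < k + 2 then 1 else 0,
      diagonal fun σ => if (ds σ + k) % 2 = 1 ∧ k + 2 < ds σ then 1 else 0]
    (isProj_ds _ (HOn_ds k _) fun d => (d + k) % 2 = 0)
    (fun j => by
      fin_cases j
      exacts [isProj_ds _ (HOn_ds k _) fun d => (d + k) % 2 = 1 ∧ d < k + 2,
        isProj_ds _ (HOn_ds k _) fun d => (d + k) % 2 = 1 ∧ k + 2 < d])
    (by
      simp only [Fin.sum_univ_two, Matrix.cons_val_zero, Matrix.cons_val_one, diagonal_add]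
      rw [← diagonal_one]
      congr 1
      funext σ
      split_ifs <;> first | omega | norm_num)
    (fun i j β => by
      have e : trace (diagonal (fun σ : Cfg (k + 2) =>
            if (ds σ + k) % 2 = 1 ∧ ds σ < k + 2 then (1 : ℝ) else 0) *
            NormedSpace.exp ((-(β : ℝ)) • HOn k (-1))) =
          trace (diagonal (fun σ : Cfg (k + 2) =>
            if (ds σ + k) % 2 = 1 ∧ k + 2 < ds σ then (1 : ℝ) else 0) *
            NormedSpace.exp ((-(β : ℝ)) • HOn k (-1))) := by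
        rw [trace_flipO k (fun d => (d + k) % 2 = 1 ∧ d < k + 2)]
        congr 3
        funext σ
        have := ds_le σ
        exact if_congr (by omega) rfl rfl
      fin_cases i <;> fin_cases j
      exacts [rfl, e, e.symm, rfl])
  convert this using 2 with β β
  · exact ZO0 _ k β
  · have e : (diagonal fun σ : Cfg (k + 2) => if (ds σ + k) % 2 = 0 then (1 : ℝ) else 0) =
        (1 / 2 : ℝ) • (1 + VV (k + 2) 3) := by
      rw [VV3_eq, ← diagonal_one, diagonal_add, ← diagonal_smul]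
      congr 1
      funext σ
      rw [Pi.smul_apply, ← add_assoc, pow_add, neg_one_pow_eq_pow_mod_two]
      split_ifs with h
      · rw [h]; norm_num
      · rw [show (ds σ + k) % 2 = 1 by omega]; norm_num
    rw [e, ZO0, ZO, smul_mul_assoc, add_mul, one_mul, trace_smul, trace_add, smul_eq_mul]
    ring

theorem space (β : ℕ) : ∃ (lam q w : ℝ) (b r : ℕ → ℝ),
    SpaceP (fun L => ZR 0 0 L β) (fun k => ZO (fav k) 0 k β) lam q w b r := by
  choose X W hF using fun σ => fam_exists 0 σ β (Nat.cast_nonneg β)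
  refine space_exists (ι := (ℕ ⊕ ℕ) ⊕ (ℕ ⊕ ℕ))
    (Sum.elim (Sum.elim (X 0) (X 1)) (Sum.elim (X 2) fun i => -X 3 i))
    (Sum.elim (Sum.elim (W 0) (W 1)) (Sum.elim (W 2) (W 3))) ?_ _ _ (fun L hL h6 => ?_)
    (fun k h6 => ?_) ?_
  · rintro ((i | i) | (i | i)) <;> exact (hF _).w_nonneg i
  · have h5 : 5 ≤ L := by omega
    rw [← sum_Zs, Fin.sum_univ_four, add_assoc]
    refine HasSum.sum (HasSum.sum ((hF 0).hZ L h5) ((hF 1).hZ L h5))
      (HasSum.sum ((hF 2).hZ L h5) ?_)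
    simpa [Function.comp_def, hL.neg_pow] using (hF 3).hZ L h5
  · have h5 : 5 ≤ k := by omega
    have e : ZO (fav k) 0 k β =
        (cs 0 0 k β + cs 0 1 k β) + (cs 0 2 k β + (-1) ^ k * cs 0 3 k β) := by
      rcases Nat.even_or_odd k with h | h
      · simp [cs, fav, h, h.neg_one_pow]
        ring
      · simp [cs, fav, Nat.not_even_iff_odd.2 h, h.neg_one_pow]
        ring
    rw [e]
    refine HasSum.sum (HasSum.sum ((hF 0).hc k h5) ((hF 1).hc k h5))
      (HasSum.sum ((hF 2).hc k h5) ?_)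
    refine (((hF 3).hc k h5).mul_left ((-1) ^ k)).congr_fun fun i => ?_
    simp only [Function.comp_apply, Sum.elim_inr]
    rw [neg_pow]
    ring
  · have T := timeP (HRn_symm 6 (by norm_num) 0)
    rw [ZR00, T.hZ β]
    exact mul_pos (pow_pos T.mu_pos _) (by linarith [T.nonneg β])

end AsmA
open AsmA

/-- Plan: `mu L = muH`, `a L = aH` of `HRn L 0` (for `L ≥ 2`, junk otherwise via `dite`, or prove
`IsHermitian` for all `L`); `twP` with `m = 3`, `P σ = (1/4) • ∑ h, chr σ h • VV L h`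
(`VV` is a representation of the Klein group commuting with `HRn L 0`; equal traces by `ZR_0h`);
for even `k`, `twP` with `m = 2`: `P0` = even `ds σ + k`, `P 0`, `P 1` = odd with `ds σ < k+2` resp. `> k+2`
(`isProj_ds`, `trace_flipO`, `VV3_eq`).  Space: the four families `fam_exists 0 σ β` on `Fin 4 × ℕ` with
`X` replaced by `-X` for `σ = 3` (`HasSum.sigma`-type lemmas or `Sum` types; `sum_Zs`; `cs 0 0 k + (-1)^k cs 0 3 k
= ZO (fav k) 0 k`, `cs 0 1 = cs 0 2 = 0`), `space_exists`, `choose`.  `muC`: `mps_ring`, `le_muH`;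
`nu1`: `mps_open`, `le_muH`.  Gaps: `ring_eq`, `open_eq`. -/
theorem data_exists : ∃ D : Data,
    (∀ L β : ℕ, 2 ≤ L → D.Z L β = ZR 0 0 L β) ∧
    (∀ L β : ℕ, 2 ≤ L → D.Z0 L β = (ZR 0 0 L β + 3 * ZR 0 3 L β) / 4) ∧
    (∀ k β : ℕ, Even k → D.c k β = ZO (-1) 0 k β) ∧
    (∀ k β : ℕ, Even k → D.c0 k β = (ZO (-1) 0 k β + ZO (-1) 3 k β) / 2) ∧
    (∀ (L : ℕ) (c : ℝ), D.gapR L c → HasSimpleGroundStateWithGap (heisenbergRing L) c) ∧
    (∀ (k : ℕ) (c : ℝ), Odd k → D.gapO k c →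
      HasSimpleGroundStateWithGap (openChainEndField (k + 1) (3 / 5)) c) := by
  choose lam q w b r hS using space
  refine ⟨⟨fun L β => ZR 0 0 L β, fun L β => (ZR 0 0 L β + 3 * ZR 0 3 L β) / 4,
    fun L => if h : 2 ≤ L then muH (HRn_symm L h 0) else 0,
    fun L => if h : 2 ≤ L then aH (HRn_symm L h 0) else 0,
    fun L c => HasSimpleGroundStateWithGap (heisenbergRing L) c,
    fun k β => ZO (fav k) 0 k β, fun k β => (ZO (-1) 0 k β + ZO (-1) 3 k β) / 2,
    fun k => muH (HOn_symm k (fav k)), fun k => aH (HOn_symm k (fav k)),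
    fun k c => ∀ s : ℝ, HasSimpleGroundStateWithGap
      ((HOn k (fav k) + s • (1 : Op (k + 2))).map (fun x : ℝ => (x : ℂ))) c,
    lam, q, w, fun L β => b β L, fun k β => r β k, fun L _ h6 => ?_, fun L _ h6 => ?_, fun k _ => ?_,
    fun k hk _ => ?_, fun β _ => hS β, ?_, fun k hk h20 => ?_⟩, fun _ _ _ => rfl, fun _ _ _ => rfl,
    fun k β hk => ?_, fun _ _ _ => rfl, fun _ _ h => h, fun k c hk h => ?_⟩
  · have h2 : 2 ≤ L := by omega
    have T := timeP (HRn_symm L h2 0)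
    simp only [dif_pos h2, ZR00]
    exact ⟨T.mu_pos, T.hZ, T.nonneg, T.pw, T.anti, fun β c h1 h => ring_eq L ▸ T.gap β c h1 h _⟩
  · have h2 : 2 ≤ L := by omega
    simp only [dif_pos h2]
    exact twR L h2
  · simp only [ZO0]
    exact timeP (HOn_symm k (fav k))
  · have e : fav k = -1 := if_pos hk
    have := twO k
    rwa [← e] at this ⊢
  · obtain ⟨C, hC⟩ := mps_ring
    refine ⟨Real.exp (-C), Real.exp_pos _, fun L hLe h => ?_⟩
    obtain ⟨ψ, h0, h1⟩ := hC L hLe h
    have h2 : 2 ≤ L := by omega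
    simp only [dif_pos h2]
    exact le_muH _ C ψ h0 h1
  · have e : fav k = -1 := if_pos hk
    obtain ⟨ψ, h0, h1⟩ := mps_open k hk h20
    have := le_muH (HOn_symm k (fav k)) 0 ψ h0 (by rw [e, zero_mul]; exact h1)
    simpa using this
  · simp only [fav, if_pos hk]
  · have e : fav k = 1 := if_neg (Nat.not_even_iff_odd.2 hk)
    rw [open_eq, ← e]
    exact h _

end Crest.Agent.R347
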