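import Crest.Agent.R347.Pack

/-!
# R347: bootstrap facts and basic lemmas
-/

set_option autoImplicit false

namespace Crest.Agent.R347

namespace Data

variable (D : Data)

def A (L1 L2 β : ℕ) (t : ℚ) : Prop := ∀ L, Even L → L1 ≤ L → L ≤ L2 → D.a L β ≤ t
def MU (L β : ℕ) (t : ℚ) : Prop := D.mu L ^ β ≤ t
def B (L β : ℕ) (t : ℚ) : Prop := D.b L β ≤ t
def DD (β L : ℕ) (t : ℚ) : Prop := D.lam β ^ (2 * L) ≤ t * D.lam (2 * β) ^ L
def CC (L β : ℕ) (t : ℚ) : Prop := D.mu L ^ (2 * β) ≤ t * D.mu (2 * L) ^ β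
def LAM (β L : ℕ) (t : ℚ) : Prop := D.lam β ^ L ≤ t
def QQ (β d : ℕ) (t : ℚ) : Prop := D.q β ^ d ≤ t * D.lam β ^ d
def AO (k β : ℕ) (t : ℚ) : Prop := D.ao k β ≤ t
def NU (k β : ℕ) (t : ℚ) : Prop := D.nu k ^ β ≤ t
def BO (k β : ℕ) (t : ℚ) : Prop := 0 < D.w β ∧ D.r k β ≤ t * (D.w β * D.lam β ^ k)
def WW (k β : ℕ) (t : ℚ) : Prop :=
  (D.w β * D.lam β ^ k) ^ 2 ≤ t * (D.w (2 * β) * D.lam (2 * β) ^ k)
def IR (β : ℕ) (lZ l0 : List (ℚ × ℚ)) : Prop :=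
  ∀ L, Even L → 10 ≤ L → D.Z L β ≤ evalB lZ L ∧ D.Z0 L β ≤ evalB l0 L
def IOp (β k0 : ℕ) (lZ l0 : List (ℚ × ℚ)) : Prop :=
  ∀ k, Even k → k0 ≤ k → D.c k β ≤ evalB lZ k ∧ D.c0 k β ≤ evalB l0 k
def ZB (L β : ℕ) (zt z0 : ℚ) : Prop := D.Z L β ≤ zt ∧ D.Z0 L β ≤ z0
def CB (k β : ℕ) (zt z0 : ℚ) : Prop := D.c k β ≤ zt ∧ D.c0 k β ≤ z0

/-- Plan: `C^β ≤ mu L^β ≤ Z L β = lam^L (1 + b L) ≤ lam^L (1 + b 22)` for all even `L ≥ 22`;
if `lam < 1` the right side tends to `0`. -/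
theorem lam_ge_one (β : ℕ) (hβ : 1 ≤ β) : 1 ≤ D.lam β := by
  by_contra hn
  push Not at hn
  obtain ⟨C, hC, hmu⟩ := D.muC
  have S := D.space β hβ
  have hb : 0 ≤ D.b 22 β := S.nonneg 22 (by decide) (by norm_num)
  obtain ⟨n, hn'⟩ := exists_pow_lt_of_lt_one (show 0 < C ^ β / (1 + D.b 22 β) by positivity) hn
  have hL : Even (2 * n + 22) := ⟨n + 11, by ring⟩
  have T := D.timeR (2 * n + 22) hL (by omega)
  have h1 : C ^ β ≤ D.mu (2 * n + 22) ^ β := pow_le_pow_left₀ hC.le (hmu _ hL (by omega)) β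
  have h2 : D.mu (2 * n + 22) ^ β ≤ D.Z (2 * n + 22) β := by
    rw [T.hZ β]
    exact le_mul_of_one_le_right (pow_pos T.mu_pos β).le (by linarith [T.nonneg β])
  have h3 : D.Z (2 * n + 22) β = D.lam β ^ (2 * n + 22) * (1 + D.b (2 * n + 22) β) := S.hZ _ hL (by omega)
  have h4 : D.b (2 * n + 22) β ≤ D.b 22 β := S.anti 22 _ (by decide) hL (by norm_num) (by omega)
  have h4' : 0 ≤ D.b (2 * n + 22) β := S.nonneg _ hL (by omega)
  have h5 : D.lam β ^ (2 * n + 22) ≤ D.lam β ^ n := pow_le_pow_of_le_one S.lam_pos.le hn.le (by omega)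
  have h6 : D.lam β ^ (2 * n + 22) * (1 + D.b (2 * n + 22) β) ≤ D.lam β ^ n * (1 + D.b 22 β) :=
    mul_le_mul h5 (by linarith) (by linarith) (pow_pos S.lam_pos n).le
  rw [lt_div_iff₀ (by linarith)] at hn'
  linarith

/-- Plan: `1 ≤ lam^L ≤ Z L β = mu^β (1 + a β) ≤ mu^β (1 + a 0)` for all `β ≥ 1`. -/
theorem mu_ge_one (L : ℕ) (hL : Even L) (h6 : 6 ≤ L) : 1 ≤ D.mu L := by
  by_contra hn
  push Not at hn
  have T := D.timeR L hL h6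
  have ha : 0 ≤ D.a L 0 := T.nonneg 0
  obtain ⟨n, hn'⟩ := exists_pow_lt_of_lt_one (show 0 < 1 / (1 + D.a L 0) by positivity) hn
  have S := D.space (n + 1) (by omega)
  have h1 : 1 ≤ D.lam (n + 1) ^ L := one_le_pow₀ (D.lam_ge_one (n + 1) (by omega))
  have h3 : D.Z L (n + 1) = D.lam (n + 1) ^ L * (1 + D.b L (n + 1)) := S.hZ L hL h6
  have h4 : 0 ≤ D.b L (n + 1) := S.nonneg L hL h6
  have h5 : D.mu L ^ (n + 1) ≤ D.mu L ^ n := pow_le_pow_of_le_one T.mu_pos.le hn.le (by omega)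
  have h6 : D.mu L ^ (n + 1) * (1 + D.a L (n + 1)) ≤ D.mu L ^ n * (1 + D.a L 0) :=
    mul_le_mul h5 (by linarith [T.anti 0 (n + 1) (by omega)]) (by linarith [T.nonneg (n + 1)])
      (pow_pos T.mu_pos n).le
  rw [lt_div_iff₀ (by linarith)] at hn'
  rw [← T.hZ, h3] at h6
  nlinarith

/-- Plan: `lam (2β)^L ≤ Z L (2β) ≤ (Z L β)^2 ≤ lam β^(2L) (1 + b 6 β)^2` for all even `L ≥ 6`. -/
theorem lam_two (β : ℕ) (hβ : 1 ≤ β) : D.lam (2 * β) ≤ D.lam β ^ 2 := by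
  by_contra hn
  push Not at hn
  have S := D.space β hβ
  have S2 := D.space (2 * β) (by omega)
  have hl := S.lam_pos
  have hb : 0 ≤ D.b 6 β := S.nonneg 6 (by decide) le_rfl
  have hρ : 1 < D.lam (2 * β) / D.lam β ^ 2 := (one_lt_div (by positivity)).2 hn
  obtain ⟨n, hn'⟩ := pow_unbounded_of_one_lt ((1 + D.b 6 β) ^ 2) hρ
  have hL : Even (2 * n + 6) := ⟨n + 3, by ring⟩
  set L := 2 * n + 6 with hLdef
  have T := D.timeR L hL (by omega)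
  have h1 : D.lam (2 * β) ^ L ≤ D.Z L (2 * β) := by
    have h : D.Z L (2 * β) = D.lam (2 * β) ^ L * (1 + D.b L (2 * β)) := S2.hZ L hL (by omega)
    have h' : 0 ≤ D.b L (2 * β) := S2.nonneg L hL (by omega)
    rw [h]
    exact le_mul_of_one_le_right (pow_pos S2.lam_pos L).le (by linarith)
  have h2 : D.Z L (2 * β) ≤ D.Z L β ^ 2 := by
    rw [T.hZ, T.hZ, mul_pow, ← pow_mul, mul_comm β 2]
    refine mul_le_mul_of_nonneg_left ?_ (pow_pos T.mu_pos _).le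
    have := T.anti β (2 * β) (by omega)
    have := T.nonneg β
    nlinarith
  have h3 : D.Z L β ^ 2 ≤ (D.lam β ^ 2) ^ L * (1 + D.b 6 β) ^ 2 := by
    have h : D.Z L β = D.lam β ^ L * (1 + D.b L β) := S.hZ L hL (by omega)
    have h' : 0 ≤ D.b L β := S.nonneg L hL (by omega)
    have h'' : D.b L β ≤ D.b 6 β := S.anti 6 L (by decide) hL le_rfl (by omega)
    rw [h, mul_pow, ← pow_mul, ← pow_mul, mul_comm L 2]
    exact mul_le_mul_of_nonneg_left (pow_le_pow_left₀ (by linarith) (by linarith) 2) (by positivity)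
  have h4 : (D.lam (2 * β) / D.lam β ^ 2) ^ n ≤ (D.lam (2 * β) / D.lam β ^ 2) ^ L :=
    pow_le_pow_right₀ hρ.le (by omega)
  have h5 : (D.lam (2 * β) / D.lam β ^ 2) ^ L ≤ (1 + D.b 6 β) ^ 2 := by
    rw [div_pow, div_le_iff₀ (by positivity)]
    linarith
  linarith

end Data

/-- the purity lemma: first `1 + a ≤ R < 2`, then monotonicity of `(1+a)²/(1+a²)` on `[0,1]` -/
theorem purity (a a2 R t : ℝ) (ha : 0 ≤ a) (ha2 : 0 ≤ a2) (h1 : a2 ≤ a) (h2 : a2 ≤ a ^ 2)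
    (h : (1 + a) ^ 2 ≤ R * (1 + a2)) (hR : R < 2) (ht0 : 0 ≤ t) (ht1 : t ≤ 1)
    (ht : R * (1 + t ^ 2) ≤ (1 + t) ^ 2) : a ≤ t := by
  have hR0 : 0 < R := by
    by_contra hn
    push Not at hn
    nlinarith
  have h3 : 1 + a ≤ R := by
    have : (1 + a) * (1 + a) ≤ R * (1 + a) := by nlinarith
    exact le_of_mul_le_mul_right this (by linarith)
  have h4 : a < 1 := by linarith
  by_contra hn
  push Not at hn
  have h5 : (1 + a) ^ 2 ≤ R * (1 + a ^ 2) := by nlinarith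
  have h6 : (1 + a) ^ 2 * (1 + t ^ 2) ≤ R * (1 + a ^ 2) * (1 + t ^ 2) :=
    mul_le_mul_of_nonneg_right h5 (by positivity)
  have h7 : R * (1 + t ^ 2) * (1 + a ^ 2) ≤ (1 + t) ^ 2 * (1 + a ^ 2) :=
    mul_le_mul_of_nonneg_right ht (by positivity)
  have h8 : 0 < (a - t) * (1 - a * t) := mul_pos (by linarith) (by nlinarith)
  nlinarith

theorem TimeP.purity {Z : ℕ → ℝ} {mu : ℝ} {a : ℕ → ℝ} {gap : ℝ → Prop} (T : TimeP Z mu a gap)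
    (β : ℕ) (hβ : 1 ≤ β) (R t : ℝ) (h : Z β ^ 2 ≤ R * Z (2 * β)) (hR : R < 2) (ht0 : 0 ≤ t)
    (ht1 : t ≤ 1) (ht : R * (1 + t ^ 2) ≤ (1 + t) ^ 2) : a β ≤ t := by
  have h1 : a (2 * β) ≤ a β ^ 2 := by
    have h2 := T.pw β (2 * β) hβ (by omega)
    rw [pow_mul] at h2
    exact le_of_pow_le_pow_left₀ (by omega) (by positivity) h2
  refine R347.purity (a β) (a (2 * β)) R t (T.nonneg _) (T.nonneg _) (T.anti _ _ (by omega)) h1 ?_ hR ht0 ht1 ht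
  rw [T.hZ, T.hZ, mul_pow, ← pow_mul, mul_comm β 2, mul_left_comm] at h
  exact le_of_mul_le_mul_left h (pow_pos T.mu_pos _)

theorem SpaceP.purity {Z c : ℕ → ℝ} {lam q w : ℝ} {b r : ℕ → ℝ} (S : SpaceP Z c lam q w b r)
    (L : ℕ) (hL : Even L) (h6 : 6 ≤ L) (R t : ℝ) (h : Z L ^ 2 ≤ R * Z (2 * L)) (hR : R < 2)
    (ht0 : 0 ≤ t) (ht1 : t ≤ 1) (ht : R * (1 + t ^ 2) ≤ (1 + t) ^ 2) : b L ≤ t := by
  have hL2 : Even (2 * L) := even_two_mul L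
  have h1 : b (2 * L) ≤ b L ^ 2 := by
    have h2 := S.pw L (2 * L) hL hL2 h6 (by omega)
    rw [pow_mul] at h2
    exact le_of_pow_le_pow_left₀ (by omega) (by positivity) h2
  refine R347.purity (b L) (b (2 * L)) R t (S.nonneg _ hL h6) (S.nonneg _ hL2 (by omega))
    (S.anti _ _ hL hL2 h6 (by omega)) h1 ?_ hR ht0 ht1 ht
  rw [S.hZ L hL h6, S.hZ _ hL2 (by omega), mul_pow, ← pow_mul, mul_comm L 2, mul_left_comm] at h
  exact le_of_mul_le_mul_left h (pow_pos S.lam_pos _)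

private theorem rpow_div_le (x s : ℝ) (β β' : ℕ) (h1 : 1 ≤ β) (hx : 0 ≤ x) (hs : 0 ≤ s) (h : x ^ β' ≤ s ^ β) :
    x ^ ((β' : ℝ) / β) ≤ s := by
  have hβ : (β : ℝ) ≠ 0 := by exact_mod_cast (by omega : β ≠ 0)
  refine le_of_pow_le_pow_left₀ (n := β) (by omega) hs ?_
  rw [← Real.rpow_natCast, ← Real.rpow_mul hx, div_mul_cancel₀ _ hβ, Real.rpow_natCast]
  exact h

/-- Plan: `u ≤ z0 - 1`, `u + m v ≤ zt - 1`; `u ↦ u^s + m ((zt - 1 - u)/m)^s` is convex on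
`[0, min (z0-1) (zt-1)]` (`convexOn_rpow`), so it is bounded by its values at the end points. -/
theorem tw_bound {m : ℕ} {Z Z0 : ℕ → ℝ} {mu : ℝ} {a : ℕ → ℝ} (T : TwP m Z Z0 mu a) (hmu : 1 ≤ mu)
    (β β' : ℕ) (h1 : 1 ≤ β) (h2 : β ≤ β') (zt z0 t t1 t2 t3 : ℝ) (hZ : Z β ≤ zt) (hZ0 : Z0 β ≤ z0)
    (hm : zt < m) (p1 : 0 ≤ t1) (p2 : 0 ≤ t2) (p3 : 0 ≤ t3)
    (e1 : ((zt - 1) / m) ^ β' ≤ t1 ^ β) (e2 : (min (z0 - 1) (zt - 1)) ^ β' ≤ t2 ^ β)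
    (e3 : (max (zt - z0) 0 / m) ^ β' ≤ t3 ^ β) (f1 : m * t1 ≤ t) (f2 : t2 + m * t3 ≤ t) :
    a β' ≤ t := by
  obtain ⟨u, v, hu, hv, e0, eZ, hb⟩ := T hmu β h1 (lt_of_le_of_lt hZ hm)
  have hmu1 : 1 ≤ mu ^ β := one_le_pow₀ hmu
  have hm0 : (0 : ℝ) ≤ m := Nat.cast_nonneg m
  have hmv : 0 ≤ m * v := mul_nonneg hm0 hv
  have hu1 : u ≤ z0 - 1 := by linarith
  have hu2 : u + m * v ≤ zt - 1 := by linarith
  have hmpos : (0 : ℝ) < m := by linarith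
  set p : ℝ := (β' : ℝ) / β with hp
  have hβ : (0 : ℝ) < β := by exact_mod_cast (by omega : 0 < β)
  have hp1 : 1 ≤ p := by
    rw [hp, one_le_div hβ]
    exact_mod_cast h2
  set M := min (z0 - 1) (zt - 1) with hM
  have huM : u ≤ M := le_min hu1 (by linarith)
  have hM0 : 0 ≤ M := hu.trans huM
  have hA0 : 0 ≤ (zt - 1) / m := div_nonneg (by linarith) hm0
  have hB0 : 0 ≤ max (zt - z0) 0 / m := div_nonneg (le_max_right _ _) hm0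
  have g1 := rpow_div_le _ _ β β' h1 hA0 p1 e1
  have g2 := rpow_div_le _ _ β β' h1 hM0 p2 e2
  have g3 := rpow_div_le _ _ β β' h1 hB0 p3 e3
  rw [← hp] at g1 g2 g3
  have hmax : max (zt - z0) 0 = zt - 1 - M := by
    rw [hM]
    rcases le_total (z0 - 1) (zt - 1) with h | h
    · rw [min_eq_left h, max_eq_left (by linarith)]; ring
    · rw [min_eq_right h, max_eq_right (by linarith)]; ring
  obtain ⟨θ, hθ0, hθ1, hθ⟩ : ∃ θ : ℝ, 0 ≤ θ ∧ θ ≤ 1 ∧ u = θ * M := by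
    rcases hM0.eq_or_lt with h | h
    · exact ⟨0, le_rfl, zero_le_one, by linarith⟩
    · exact ⟨u / M, div_nonneg hu hM0, (div_le_one h).2 huM, by field_simp⟩
  have c1 := (convexOn_rpow hp1).2 (Set.mem_Ici.2 le_rfl) (Set.mem_Ici.2 hM0) (sub_nonneg.2 hθ1) hθ0 (by ring)
  have c2 := (convexOn_rpow hp1).2 (Set.mem_Ici.2 hA0) (Set.mem_Ici.2 hB0) (sub_nonneg.2 hθ1) hθ0 (by ring)
  simp only [smul_eq_mul, mul_zero, zero_add, Real.zero_rpow (by linarith : p ≠ 0)] at c1 c2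
  rw [← hθ] at c1
  have hv2 : v ≤ (1 - θ) * ((zt - 1) / m) + θ * (max (zt - z0) 0 / m) := by
    rw [hmax]
    have : (1 - θ) * ((zt - 1) / m) + θ * ((zt - 1 - M) / m) = (zt - 1 - u) / m := by
      rw [hθ]; field_simp; ring
    rw [this, le_div_iff₀ hmpos]
    linarith
  have c3 : v ^ p ≤ (1 - θ) * t1 + θ * t3 := by
    refine (Real.rpow_le_rpow hv hv2 (by linarith)).trans (c2.trans ?_)
    exact add_le_add (mul_le_mul_of_nonneg_left g1 (sub_nonneg.2 hθ1)) (mul_le_mul_of_nonneg_left g3 hθ0)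
  have c4 : u ^ p ≤ θ * t2 := c1.trans (mul_le_mul_of_nonneg_left g2 hθ0)
  have c5 := mul_le_mul_of_nonneg_left c3 hm0
  have c6 := mul_le_mul_of_nonneg_left f1 (sub_nonneg.2 hθ1)
  have c7 := mul_le_mul_of_nonneg_left f2 hθ0
  have c8 := hb β' h2
  nlinarith

theorem tw_mu {m : ℕ} {Z Z0 : ℕ → ℝ} {mu : ℝ} {a : ℕ → ℝ} (T : TwP m Z Z0 mu a) (hmu : 1 ≤ mu)
    (β : ℕ) (h1 : 1 ≤ β) (hm : Z β < m) : mu ^ β ≤ Z0 β := by
  obtain ⟨u, v, hu, -, e0, -, -⟩ := T hmu β h1 hm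
  linarith

/-- `x^p ≤ t`, `t^p' ≤ s^p` give `x^p' ≤ s` -/
theorem pow_transfer (x t s : ℝ) (p p' : ℕ) (hx : 0 ≤ x) (hp : 1 ≤ p) (hs : 0 ≤ s) (h : x ^ p ≤ t)
    (h' : t ^ p' ≤ s ^ p) : x ^ p' ≤ s := by
  refine le_of_pow_le_pow_left₀ (n := p) (by omega) hs ?_
  rw [← pow_mul, mul_comm, pow_mul]
  exact (pow_le_pow_left₀ (pow_nonneg hx p) h p').trans h' 

/-- the ratio form: `x^p ≤ t y^p`, `t^p' ≤ s^p` give `x^p' ≤ s y^p'` -/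
theorem pow_transfer' (x y t s : ℝ) (p p' : ℕ) (hx : 0 ≤ x) (hy : 0 < y) (hp : 1 ≤ p) (hs : 0 ≤ s)
    (h : x ^ p ≤ t * y ^ p) (h' : t ^ p' ≤ s ^ p) : x ^ p' ≤ s * y ^ p' := by
  have h1 := pow_transfer (x / y) t s p p' (div_nonneg hx hy.le) hp hs
    (by rw [div_pow, div_le_iff₀ (pow_pos hy p)]; exact h) h'
  rwa [div_pow, div_le_iff₀ (pow_pos hy p')] at h1

private theorem exp_log_pow (θ N : ℝ) (p q β : ℕ) (hN : 0 < N) (hq : 0 < q) :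
    (θ * Real.exp (β * ((p : ℝ) / q * Real.log N))) ^ q = θ ^ q * N ^ (p * β) := by
  have hq' : (q : ℝ) ≠ 0 := by exact_mod_cast hq.ne'
  rw [mul_pow, ← Real.exp_nat_mul]
  congr 1
  rw [show (q : ℝ) * (β * ((p : ℝ) / q * Real.log N)) = ((p * β : ℕ) : ℝ) * Real.log N by
    push_cast; field_simp, Real.exp_nat_mul, Real.exp_log hN]

theorem exp_log_le (θ N : ℝ) (p q β : ℕ) (hθ : 0 ≤ θ) (hN : 0 < N) (hq : 0 < q)
    (h : θ ^ q * N ^ (p * β) ≤ 1) : θ * Real.exp (β * ((p : ℝ) / q * Real.log N)) ≤ 1 := by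
  refine le_of_pow_le_pow_left₀ (n := q) hq.ne' zero_le_one ?_
  rwa [exp_log_pow θ N p q β hN hq, one_pow]

theorem exp_log_lt (θ N : ℝ) (p q β : ℕ) (hθ : 0 ≤ θ) (hN : 0 < N) (hq : 0 < q)
    (h : θ ^ q * N ^ (p * β) < 1) : θ * Real.exp (β * ((p : ℝ) / q * Real.log N)) < 1 := by
  refine lt_of_pow_lt_pow_left₀ q zero_le_one ?_
  rwa [exp_log_pow θ N p q β hN hq, one_pow]

end Crest.Agent.R347
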