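import Crest.Agent.R347.Boot0

/-!
# R347: bootstrap rules for the ring (side conditions are decidable statements about rationals)
-/

set_option autoImplicit false

namespace Crest.Agent.R347

namespace Data

variable {D : Data}

private theorem ev {L : ℕ} (h : L % 2 = 0) : Even L := Nat.even_iff.2 h

private theorem one_add_b_le {L β : ℕ} (hL : Even L) (h6 : 6 ≤ L) (hβ : 1 ≤ β) {t1 t2 : ℚ}
    (h1 : D.A L L β t1) (h2 : D.MU L β t2) : D.Z L β ≤ (1 + t1) * t2 := by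
  have T := D.timeR L hL h6
  have ha : D.a L β ≤ t1 := h1 L hL le_rfl le_rfl
  have hm : D.mu L ^ β ≤ t2 := h2
  have := T.nonneg β
  rw [T.hZ, mul_comm]
  exact mul_le_mul (by linarith) hm (pow_pos T.mu_pos β).le (by linarith)

private theorem lam_le_Z {L β : ℕ} (hL : Even L) (h6 : 6 ≤ L) (hβ : 1 ≤ β) : D.lam β ^ L ≤ D.Z L β := by
  have S := D.space β hβ
  have h : D.Z L β = D.lam β ^ L * (1 + D.b L β) := S.hZ L hL h6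
  have h' : 0 ≤ D.b L β := S.nonneg L hL h6
  rw [h]
  exact le_mul_of_one_le_right (pow_pos S.lam_pos L).le (by linarith)

private theorem mu_le_Z {L : ℕ} (β : ℕ) (hL : Even L) (h6 : 6 ≤ L) : D.mu L ^ β ≤ D.Z L β := by
  have T := D.timeR L hL h6
  rw [T.hZ]
  exact le_mul_of_one_le_right (pow_pos T.mu_pos β).le (by linarith [T.nonneg β])

private theorem Z_le_lam {L β : ℕ} (hL : Even L) (h6 : 6 ≤ L) (hβ : 1 ≤ β) {t : ℝ} (ht : D.b L β ≤ t) :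
    D.Z L β ≤ D.lam β ^ L * (1 + t) := by
  have S := D.space β hβ
  have h : D.Z L β = D.lam β ^ L * (1 + D.b L β) := S.hZ L hL h6
  rw [h]
  exact mul_le_mul_of_nonneg_left (by linarith) (pow_pos S.lam_pos L).le

private theorem Z_le_mu {L β : ℕ} (hL : Even L) (h6 : 6 ≤ L) {t : ℝ} (ht : D.a L β ≤ t) :
    D.Z L β ≤ D.mu L ^ β * (1 + t) := by
  have T := D.timeR L hL h6
  rw [T.hZ]
  exact mul_le_mul_of_nonneg_left (by linarith) (pow_pos T.mu_pos β).le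

theorem rZB {β : ℕ} {lZ l0 : List (ℚ × ℚ)} (h : D.IR β lZ l0) (L : ℕ) (zt z0 : ℚ)
    (hc : L % 2 = 0 ∧ 10 ≤ L ∧ evalB lZ L ≤ zt ∧ evalB l0 L ≤ z0) : D.ZB L β zt z0 := by
  obtain ⟨c1, c2, c3, c4⟩ := hc
  obtain ⟨h1, h2⟩ := h L (ev c1) c2
  exact ⟨h1.trans (by exact_mod_cast c3), h2.trans (by exact_mod_cast c4)⟩

theorem rInitA {L β : ℕ} {zt z0 : ℚ} (h : D.ZB L β zt z0) (β' : ℕ) (t t1 t2 t3 : ℚ)
    (hc : L % 2 = 0 ∧ 6 ≤ L ∧ 1 ≤ β ∧ β ≤ β' ∧ zt < 3 ∧ 0 ≤ t1 ∧ 0 ≤ t2 ∧ 0 ≤ t3 ∧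
      ((zt - 1) / 3) ^ β' ≤ t1 ^ β ∧ (min (z0 - 1) (zt - 1)) ^ β' ≤ t2 ^ β ∧
      (max (zt - z0) 0 / 3) ^ β' ≤ t3 ^ β ∧ 3 * t1 ≤ t ∧ t2 + 3 * t3 ≤ t) : D.A L L β' t := by
  obtain ⟨c1, c2, c3, c4, c5, c6, c7, c8, c9, c10, c11, c12, c13⟩ := hc
  intro L' _ hl1 hl2
  obtain rfl : L' = L := le_antisymm hl2 hl1
  exact tw_bound (D.twR L' (ev c1) c2) (D.mu_ge_one L' (ev c1) c2) β β' c3 c4 zt z0 t t1 t2 t3 h.1 h.2
    (by exact_mod_cast c5) (by exact_mod_cast c6) (by exact_mod_cast c7) (by exact_mod_cast c8)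
    (by exact_mod_cast c9) (by exact_mod_cast c10) (by exact_mod_cast c11) (by exact_mod_cast c12)
    (by exact_mod_cast c13)

theorem rInitMU {L β : ℕ} {zt z0 : ℚ} (h : D.ZB L β zt z0)
    (hc : L % 2 = 0 ∧ 6 ≤ L ∧ 1 ≤ β ∧ zt < 3) : D.MU L β z0 := by
  obtain ⟨c1, c2, c3, c4⟩ := hc
  have h4 : (zt : ℝ) < (3 : ℕ) := by exact_mod_cast c4
  exact (tw_mu (D.twR L (ev c1) c2) (D.mu_ge_one L (ev c1) c2) β c3 (lt_of_le_of_lt h.1 h4)).trans h.2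

theorem rPwA {L1 L2 β : ℕ} {t : ℚ} (h : D.A L1 L2 β t) (β' : ℕ) (t' : ℚ)
    (hc : 6 ≤ L1 ∧ 1 ≤ β ∧ β ≤ β' ∧ 0 ≤ t' ∧ t ^ β' ≤ t' ^ β) : D.A L1 L2 β' t' := by
  obtain ⟨c1, c2, c3, c4, c5⟩ := hc
  intro L hL hl1 hl2
  have T := D.timeR L hL (c1.trans hl1)
  refine le_of_pow_le_pow_left₀ (n := β) (by omega) (by exact_mod_cast c4) ?_
  refine (T.pw β β' c2 c3).trans ((pow_le_pow_left₀ (T.nonneg β) (h L hL hl1 hl2) β').trans ?_)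
  exact_mod_cast c5

theorem rPwMU {L β : ℕ} {t : ℚ} (h : D.MU L β t) (β' : ℕ) (t' : ℚ)
    (hc : L % 2 = 0 ∧ 6 ≤ L ∧ 1 ≤ β ∧ 0 ≤ t' ∧ t ^ β' ≤ t' ^ β) : D.MU L β' t' := by
  obtain ⟨c1, c2, c3, c4, c5⟩ := hc
  exact pow_transfer _ t t' β β' (D.timeR L (ev c1) c2).mu_pos.le c3 (by exact_mod_cast c4) h
    (by exact_mod_cast c5)

/-- `1 + b ≤ lam^L (1 + b) = mu^β (1 + a)` -/
theorem rU1B {L β : ℕ} {t1 t2 : ℚ} (h1 : D.A L L β t1) (h2 : D.MU L β t2) (t : ℚ)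
    (hc : L % 2 = 0 ∧ 6 ≤ L ∧ 1 ≤ β ∧ (1 + t1) * t2 ≤ 1 + t) : D.B L β t := by
  obtain ⟨c1, c2, c3, c4⟩ := hc
  have h3 := one_add_b_le (ev c1) c2 c3 h1 h2
  have S := D.space β c3
  have h : D.Z L β = D.lam β ^ L * (1 + D.b L β) := S.hZ L (ev c1) c2
  have h' : 0 ≤ D.b L β := S.nonneg L (ev c1) c2
  have h4 : 1 ≤ D.lam β ^ L := one_le_pow₀ (D.lam_ge_one β c3)
  have h5 : ((1 : ℝ) + t1) * t2 ≤ 1 + t := by exact_mod_cast c4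
  have h6 : 1 + D.b L β ≤ D.lam β ^ L * (1 + D.b L β) := le_mul_of_one_le_left (by linarith) h4
  unfold B
  linarith

theorem rU1L {L β : ℕ} {t1 t2 : ℚ} (h1 : D.A L L β t1) (h2 : D.MU L β t2) (t : ℚ)
    (hc : L % 2 = 0 ∧ 6 ≤ L ∧ 1 ≤ β ∧ (1 + t1) * t2 ≤ t) : D.LAM β L t := by
  obtain ⟨c1, c2, c3, c4⟩ := hc
  have h3 := one_add_b_le (ev c1) c2 c3 h1 h2
  have h5 : ((1 : ℝ) + t1) * t2 ≤ t := by exact_mod_cast c4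
  exact (lam_le_Z (ev c1) c2 c3).trans (h3.trans h5)

theorem rPwL {β L : ℕ} {t : ℚ} (h : D.LAM β L t) (d : ℕ) (t' : ℚ)
    (hc : 1 ≤ L ∧ 1 ≤ β ∧ 0 ≤ t' ∧ t ^ d ≤ t' ^ L) : D.LAM β d t' := by
  obtain ⟨c1, c2, c3, c4⟩ := hc
  exact pow_transfer _ t t' L d (D.space β c2).lam_pos.le c1 (by exact_mod_cast c3) h (by exact_mod_cast c4)

theorem rPwB {L β : ℕ} {t : ℚ} (h : D.B L β t) (L' : ℕ) (t' : ℚ)
    (hc : L % 2 = 0 ∧ L' % 2 = 0 ∧ 6 ≤ L ∧ L ≤ L' ∧ 1 ≤ β ∧ 0 ≤ t' ∧ t ^ L' ≤ t' ^ L) :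
    D.B L' β t' := by
  obtain ⟨c1, c2, c3, c4, c5, c6, c7⟩ := hc
  have S := D.space β c5
  refine le_of_pow_le_pow_left₀ (n := L) (by omega) (by exact_mod_cast c6) ?_
  refine (S.pw L L' (ev c1) (ev c2) c3 c4).trans
    ((pow_le_pow_left₀ (S.nonneg L (ev c1) c3) (show D.b L β ≤ t from h) L').trans ?_)
  exact_mod_cast c7

theorem rQ {L β : ℕ} {t : ℚ} (h : D.B L β t) (d : ℕ) (s : ℚ)
    (hc : L % 2 = 0 ∧ 6 ≤ L ∧ 1 ≤ β ∧ 0 ≤ s ∧ t ^ d ≤ s ^ L) : D.QQ β d s := by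
  obtain ⟨c1, c2, c3, c4, c5⟩ := hc
  have S := D.space β c3
  refine pow_transfer' _ _ t s L d S.q_nonneg S.lam_pos (by omega) (by exact_mod_cast c4) ?_
    (by exact_mod_cast c5)
  exact (S.q_pow L (ev c1) c2).trans
    (mul_le_mul_of_nonneg_right (show D.b L β ≤ t from h) (pow_pos S.lam_pos L).le)

/-- `lam β^(2L) ≤ (Z L β)² = mu^(2β) (1+a)² ≤ Z L (2β) (1+a)²` -/
theorem rK {L β β2 : ℕ} {t1 t2 : ℚ} (h1 : D.A L L β t1) (h2 : D.B L β2 t2) (t : ℚ)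
    (hc : L % 2 = 0 ∧ 6 ≤ L ∧ 1 ≤ β ∧ β2 = 2 * β ∧ (1 + t1) ^ 2 * (1 + t2) ≤ t) : D.DD β L t := by
  obtain ⟨c1, c2, c3, rfl, c5⟩ := hc
  have hL := ev c1
  have T := D.timeR L hL c2
  have S := D.space β c3
  have S2 := D.space (2 * β) (by omega)
  have ha : D.a L β ≤ t1 := h1 L hL le_rfl le_rfl
  have a1 := lam_le_Z (D := D) hL c2 c3
  have a2 := Z_le_mu hL c2 ha
  have a3 := mu_le_Z (D := D) (2 * β) hL c2
  have a4 := Z_le_lam hL c2 (show 1 ≤ 2 * β by omega) (show D.b L (2 * β) ≤ t2 from h2)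
  have h5 : ((1 : ℝ) + t1) ^ 2 * (1 + t2) ≤ t := by exact_mod_cast c5
  unfold DD
  calc D.lam β ^ (2 * L) = (D.lam β ^ L) ^ 2 := by rw [← pow_mul, mul_comm]
    _ ≤ (D.mu L ^ β * (1 + t1)) ^ 2 := pow_le_pow_left₀ (pow_pos S.lam_pos L).le (a1.trans a2) 2
    _ = D.mu L ^ (2 * β) * (1 + t1) ^ 2 := by rw [mul_pow, ← pow_mul, mul_comm β 2]
    _ ≤ D.lam (2 * β) ^ L * (1 + t2) * (1 + t1) ^ 2 :=
        mul_le_mul_of_nonneg_right (a3.trans a4) (by positivity)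
    _ = (1 + t1) ^ 2 * (1 + t2) * D.lam (2 * β) ^ L := by ring
    _ ≤ _ := mul_le_mul_of_nonneg_right h5 (pow_pos S2.lam_pos L).le

/-- for even `L ∈ [L1, L2]`: `b L ≤ b L1 ≤ t1`, `ρ = lam β²/lam (2β) ≥ 1` (`lam_two`), `ρ^L ≤ ρ^L2 ≤ s`,
so `(Z L β)² ≤ s (1+t1)² Z L (2β)`; `TimeP.purity` -/
theorem rR3 {β L0 L1 : ℕ} {t0 t1 : ℚ} (h0 : D.DD β L0 t0) (h1 : D.B L1 β t1) (L2 : ℕ) (s t : ℚ)
    (hc : L1 % 2 = 0 ∧ 6 ≤ L1 ∧ 1 ≤ β ∧ 1 ≤ L0 ∧ 0 ≤ s ∧ t0 ^ L2 ≤ s ^ L0 ∧ s * (1 + t1) ^ 2 < 2 ∧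
      0 ≤ t ∧ t ≤ 1 ∧ s * (1 + t1) ^ 2 * (1 + t ^ 2) ≤ (1 + t) ^ 2) : D.A L1 L2 β t := by
  obtain ⟨c1, c2, c3, c4, c5, c6, c7, c8, c9, c10⟩ := hc
  intro L hL hl1 hl2
  have h6 : 6 ≤ L := c2.trans hl1
  have T := D.timeR L hL h6
  have S := D.space β c3
  have S2 := D.space (2 * β) (by omega)
  have hb : D.b L β ≤ t1 := (S.anti L1 L (ev c1) hL c2 hl1).trans h1
  have hb0 : 0 ≤ D.b L β := S.nonneg L hL h6
  have hρ : 1 ≤ D.lam β ^ 2 / D.lam (2 * β) := (one_le_div S2.lam_pos).2 (D.lam_two β c3)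
  have a0 : (D.lam β ^ 2 / D.lam (2 * β)) ^ L0 ≤ t0 := by
    rw [div_pow, div_le_iff₀ (pow_pos S2.lam_pos _), ← pow_mul]
    exact h0
  have a1 : (D.lam β ^ 2 / D.lam (2 * β)) ^ L2 ≤ s :=
    pow_transfer _ t0 s L0 L2 (by linarith) c4 (by exact_mod_cast c5) a0 (by exact_mod_cast c6)
  have a2 : (D.lam β ^ 2 / D.lam (2 * β)) ^ L ≤ s := (pow_le_pow_right₀ hρ hl2).trans a1
  rw [div_pow, div_le_iff₀ (pow_pos S2.lam_pos _)] at a2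
  have a3 := Z_le_lam hL h6 c3 hb
  have a4 := lam_le_Z (D := D) hL h6 (show 1 ≤ 2 * β by omega)
  have a5 := lam_le_Z (D := D) hL h6 c3
  have hs : (0 : ℝ) ≤ s := by exact_mod_cast c5
  refine T.purity β c3 (s * (1 + t1) ^ 2) t ?_ (by exact_mod_cast c7) (by exact_mod_cast c8)
    (by exact_mod_cast c9) (by exact_mod_cast c10)
  calc D.Z L β ^ 2 ≤ (D.lam β ^ L * (1 + t1)) ^ 2 :=
        pow_le_pow_left₀ ((pow_pos S.lam_pos L).le.trans a5) a3 2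
    _ = (D.lam β ^ 2) ^ L * (1 + t1) ^ 2 := by rw [mul_pow, ← pow_mul, ← pow_mul, mul_comm L 2]
    _ ≤ s * D.Z L (2 * β) * (1 + t1) ^ 2 :=
        mul_le_mul_of_nonneg_right (a2.trans (mul_le_mul_of_nonneg_left a4 hs)) (by positivity)
    _ = _ := by ring

/-- `mu L^(2β) ≤ (Z L β)² = lam^(2L) (1+b)² ≤ Z (2L) β (1+b)²` -/
theorem rC {L L2 β : ℕ} {t1 t2 : ℚ} (h1 : D.B L β t1) (h2 : D.A L2 L2 β t2) (t : ℚ)
    (hc : L % 2 = 0 ∧ 6 ≤ L ∧ 1 ≤ β ∧ L2 = 2 * L ∧ (1 + t1) ^ 2 * (1 + t2) ≤ t) : D.CC L β t := by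
  obtain ⟨c1, c2, c3, rfl, c5⟩ := hc
  have hL := ev c1
  have hL2 : Even (2 * L) := even_two_mul L
  have T := D.timeR L hL c2
  have T2 := D.timeR (2 * L) hL2 (by omega)
  have ha : D.a (2 * L) β ≤ t2 := h2 _ hL2 le_rfl le_rfl
  have a1 := mu_le_Z (D := D) β hL c2
  have a2 := Z_le_lam hL c2 c3 (show D.b L β ≤ t1 from h1)
  have a3 := lam_le_Z (D := D) hL2 (by omega) c3
  have a4 := Z_le_mu hL2 (by omega) ha
  have h5 : ((1 : ℝ) + t1) ^ 2 * (1 + t2) ≤ t := by exact_mod_cast c5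
  unfold CC
  calc D.mu L ^ (2 * β) = (D.mu L ^ β) ^ 2 := by rw [← pow_mul, mul_comm]
    _ ≤ (D.lam β ^ L * (1 + t1)) ^ 2 := pow_le_pow_left₀ (pow_pos T.mu_pos β).le (a1.trans a2) 2
    _ = D.lam β ^ (2 * L) * (1 + t1) ^ 2 := by rw [mul_pow, ← pow_mul, mul_comm L 2]
    _ ≤ D.mu (2 * L) ^ β * (1 + t2) * (1 + t1) ^ 2 :=
        mul_le_mul_of_nonneg_right (a3.trans a4) (by positivity)
    _ = (1 + t1) ^ 2 * (1 + t2) * D.mu (2 * L) ^ β := by ring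
    _ ≤ _ := mul_le_mul_of_nonneg_right h5 (pow_pos T2.mu_pos β).le

theorem rR4 {L β0 β : ℕ} {t0 t1 : ℚ} (h0 : D.CC L β0 t0) (h1 : D.A L L β t1) (s t : ℚ)
    (hc : L % 2 = 0 ∧ 6 ≤ L ∧ 1 ≤ β ∧ 1 ≤ β0 ∧ 0 ≤ s ∧ t0 ^ β ≤ s ^ β0 ∧ s * (1 + t1) ^ 2 < 2 ∧
      0 ≤ t ∧ t ≤ 1 ∧ s * (1 + t1) ^ 2 * (1 + t ^ 2) ≤ (1 + t) ^ 2) : D.B L β t := by
  obtain ⟨c1, c2, c3, c4, c5, c6, c7, c8, c9, c10⟩ := hc
  have hL := ev c1
  have hL2 : Even (2 * L) := even_two_mul L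
  have T := D.timeR L hL c2
  have T2 := D.timeR (2 * L) hL2 (by omega)
  have S := D.space β c3
  have ha : D.a L β ≤ t1 := h1 L hL le_rfl le_rfl
  have a0 : (D.mu L ^ 2) ^ β0 ≤ t0 * D.mu (2 * L) ^ β0 := by
    rw [← pow_mul]
    exact h0
  have a2 : (D.mu L ^ 2) ^ β ≤ s * D.mu (2 * L) ^ β :=
    pow_transfer' _ _ t0 s β0 β (by positivity) T2.mu_pos c4 (by exact_mod_cast c5) a0 (by exact_mod_cast c6)
  have a3 := Z_le_mu hL c2 ha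
  have a4 := mu_le_Z (D := D) β hL2 (by omega)
  have a5 := mu_le_Z (D := D) β hL c2
  have hs : (0 : ℝ) ≤ s := by exact_mod_cast c5
  refine S.purity L hL c2 (s * (1 + t1) ^ 2) t ?_ (by exact_mod_cast c7) (by exact_mod_cast c8)
    (by exact_mod_cast c9) (by exact_mod_cast c10)
  calc D.Z L β ^ 2 ≤ (D.mu L ^ β * (1 + t1)) ^ 2 :=
        pow_le_pow_left₀ ((pow_pos T.mu_pos β).le.trans a5) a3 2
    _ = (D.mu L ^ 2) ^ β * (1 + t1) ^ 2 := by rw [mul_pow, ← pow_mul, ← pow_mul, mul_comm β 2]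
    _ ≤ s * D.Z (2 * L) β * (1 + t1) ^ 2 :=
        mul_le_mul_of_nonneg_right (a2.trans (mul_le_mul_of_nonneg_left a4 hs)) (by positivity)
    _ = _ := by ring

theorem rWkA {L1 L2 β : ℕ} {t : ℚ} (h : D.A L1 L2 β t) (L1' L2' : ℕ) (t' : ℚ)
    (hc : L1 ≤ L1' ∧ L2' ≤ L2 ∧ t ≤ t') : D.A L1' L2' β t' := by
  obtain ⟨c1, c2, c3⟩ := hc
  intro L hL hl1 hl2
  exact (h L hL (c1.trans hl1) (hl2.trans c2)).trans (by exact_mod_cast c3)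

/-- the gap on a range of lengths -/
theorem rGap {L1 L2 β : ℕ} {t : ℚ} (h : D.A L1 L2 β t)
    (hc : 6 ≤ L1 ∧ 1 ≤ β ∧ 0 ≤ t ∧ t ^ 105 * (80 / 79) ^ (4 * β) < 1) :
    ∀ L, Even L → L1 ≤ L → L ≤ L2 → D.gapR L (4 / 105 * Real.log (80 / 79)) := by
  obtain ⟨c1, c2, c3, c4⟩ := hc
  intro L hL hl1 hl2
  have T := D.timeR L hL (c1.trans hl1)
  refine T.gap β _ c2 ?_
  have h1 := exp_log_lt t (80 / 79) 4 105 β (by exact_mod_cast c3) (by norm_num) (by norm_num)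
    (by have h2 := (Rat.cast_lt (K := ℝ)).2 c4; push_cast at h2; exact h2)
  push_cast at h1
  exact lt_of_le_of_lt (mul_le_mul_of_nonneg_right (h L hL hl1 hl2) (Real.exp_pos _).le) h1

end Data

end Crest.Agent.R347
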