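import Crest.Agent.R347.Boot0

/-!
# R347: bootstrap rules for the chain with free ends
-/

set_option autoImplicit false

namespace Crest.Agent.R347

namespace Data

variable {D : Data}

theorem B2.c_pos (D : Data) {k : ℕ} (h6 : 6 ≤ k) (β : ℕ) : 0 < D.c k β := by
  have T := D.timeO k h6
  rw [T.hZ]
  have := T.nonneg β
  have := T.mu_pos
  positivity

theorem B2.nu_le_c (D : Data) {k : ℕ} (h6 : 6 ≤ k) (β : ℕ) : D.nu k ^ β ≤ D.c k β := by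
  have T := D.timeO k h6
  rw [T.hZ]
  exact le_mul_of_one_le_right (pow_pos T.mu_pos β).le (by linarith [T.nonneg β])

theorem B2.c_le (D : Data) {k β : ℕ} (h6 : 6 ≤ k) {t : ℚ} (h : D.AO k β t) :
    D.c k β ≤ D.nu k ^ β * (1 + t) := by
  have T := D.timeO k h6
  rw [T.hZ]
  exact mul_le_mul_of_nonneg_left (by unfold AO at h; linarith) (pow_pos T.mu_pos β).le

theorem B2.ao_nonneg {k β : ℕ} (h6 : 6 ≤ k) {t : ℚ} (h : D.AO k β t) : (0 : ℝ) ≤ t :=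
  ((D.timeO k h6).nonneg β).trans h

theorem B2.w_le_c (D : Data) {k β : ℕ} (hk : Even k) (h6 : 6 ≤ k) (hβ : 1 ≤ β) :
    D.w β * D.lam β ^ k ≤ D.c k β := by
  have S := D.space β hβ
  have := S.c_even k hk h6
  have := S.r_nonneg k h6
  linarith

theorem B2.c_le_w {k β : ℕ} (hk : Even k) (h6 : 6 ≤ k) (hβ : 1 ≤ β) {t : ℚ} (h : D.BO k β t) :
    D.c k β ≤ (1 + t) * (D.w β * D.lam β ^ k) := by
  have S := D.space β hβ
  have := S.c_even k hk h6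
  have := h.2
  linarith

theorem B2.bo_nonneg {k β : ℕ} (h6 : 6 ≤ k) (hβ : 1 ≤ β) {t : ℚ} (h : D.BO k β t) :
    (0 : ℝ) ≤ t := by
  have S := D.space β hβ
  have h1 : 0 ≤ D.r k β := S.r_nonneg k h6
  have h2 : 0 < D.w β * D.lam β ^ k := mul_pos h.1 (pow_pos S.lam_pos k)
  exact nonneg_of_mul_nonneg_left (h1.trans h.2) h2

theorem B2.wl_nonneg (D : Data) (k : ℕ) {β : ℕ} (hβ : 1 ≤ β) : 0 ≤ D.w β * D.lam β ^ k :=
  mul_nonneg (D.space β hβ).w_nonneg (pow_pos (D.space β hβ).lam_pos k).le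

theorem rCB {β k0 : ℕ} {lZ l0 : List (ℚ × ℚ)} (h : D.IOp β k0 lZ l0) (k : ℕ) (zt z0 : ℚ)
    (hc : k % 2 = 0 ∧ k0 ≤ k ∧ evalB lZ k ≤ zt ∧ evalB l0 k ≤ z0) : D.CB k β zt z0 := by
  obtain ⟨h1, h2, h3, h4⟩ := hc
  obtain ⟨a, b⟩ := h k (Nat.even_iff.2 h1) h2
  exact ⟨a.trans (by exact_mod_cast h3), b.trans (by exact_mod_cast h4)⟩

theorem rInitAO {k β : ℕ} {zt z0 : ℚ} (h : D.CB k β zt z0) (β' : ℕ) (t t1 t2 t3 : ℚ)
    (hc : k % 2 = 0 ∧ 20 ≤ k ∧ 1 ≤ β ∧ β ≤ β' ∧ zt < 2 ∧ 0 ≤ t1 ∧ 0 ≤ t2 ∧ 0 ≤ t3 ∧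
      ((zt - 1) / 2) ^ β' ≤ t1 ^ β ∧ (min (z0 - 1) (zt - 1)) ^ β' ≤ t2 ^ β ∧
      (max (zt - z0) 0 / 2) ^ β' ≤ t3 ^ β ∧ 2 * t1 ≤ t ∧ t2 + 2 * t3 ≤ t) : D.AO k β' t := by
  obtain ⟨h1, h2, h3, h4, h5, h6, h7, h8, h9, h10, h11, h12, h13⟩ := hc
  have hk := Nat.even_iff.2 h1
  refine tw_bound (D.twO k hk (by omega)) (D.nu1 k hk h2) β β' h3 h4 zt z0 t t1 t2 t3 h.1 h.2
    ?_ ?_ ?_ ?_ ?_ ?_ ?_ ?_ ?_
  · exact_mod_cast h5
  · exact_mod_cast h6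
  · exact_mod_cast h7
  · exact_mod_cast h8
  · exact_mod_cast h9
  · exact_mod_cast h10
  · exact_mod_cast h11
  · exact_mod_cast h12
  · exact_mod_cast h13

theorem rInitNU {k β : ℕ} {zt z0 : ℚ} (h : D.CB k β zt z0)
    (hc : k % 2 = 0 ∧ 20 ≤ k ∧ 1 ≤ β ∧ zt < 2) : D.NU k β z0 := by
  obtain ⟨h1, h2, h3, h4⟩ := hc
  have hk := Nat.even_iff.2 h1
  exact (tw_mu (D.twO k hk (by omega)) (D.nu1 k hk h2) β h3
    (h.1.trans_lt (by exact_mod_cast h4))).trans h.2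

theorem rPwAO {k β : ℕ} {t : ℚ} (h : D.AO k β t) (β' : ℕ) (t' : ℚ)
    (hc : 6 ≤ k ∧ 1 ≤ β ∧ β ≤ β' ∧ 0 ≤ t' ∧ t ^ β' ≤ t' ^ β) : D.AO k β' t' := by
  obtain ⟨h1, h2, h3, h4, h5⟩ := hc
  have T := D.timeO k h1
  have e : D.ao k β' ^ β ≤ (t' : ℝ) ^ β :=
    (T.pw β β' h2 h3).trans ((pow_le_pow_left₀ (T.nonneg β) h β').trans (by exact_mod_cast h5))
  exact le_of_pow_le_pow_left₀ (by omega) (by exact_mod_cast h4) e

theorem rPwNU {k β : ℕ} {t : ℚ} (h : D.NU k β t) (β' : ℕ) (t' : ℚ)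
    (hc : 6 ≤ k ∧ 1 ≤ β ∧ 0 ≤ t' ∧ t ^ β' ≤ t' ^ β) : D.NU k β' t' := by
  obtain ⟨h1, h2, h3, h4⟩ := hc
  exact pow_transfer (D.nu k) t t' β β' (D.timeO k h1).mu_pos.le h2 (by exact_mod_cast h3) h
    (by exact_mod_cast h4)

theorem rQpw {k β d : ℕ} {t s : ℚ} (h1 : D.BO k β t) (h2 : D.QQ β d s) (k' : ℕ) (t' : ℚ)
    (hc : 6 ≤ k ∧ 1 ≤ β ∧ k' = k + d ∧ 0 ≤ s ∧ 0 ≤ t ∧ t * s ≤ t') : D.BO k' β t' := by
  obtain ⟨a1, a2, rfl, a4, a5, a6⟩ := hc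
  have S := D.space β a2
  refine ⟨h1.1, ?_⟩
  have e1 : D.r (k + d) β ≤ D.q β ^ d * D.r k β := by
    simpa using S.r_dec k (k + d) a1 (by omega)
  have e2 : D.q β ^ d * D.r k β ≤ (s * D.lam β ^ d) * (t * (D.w β * D.lam β ^ k)) :=
    mul_le_mul h2 h1.2 (S.r_nonneg k a1) ((pow_nonneg S.q_nonneg d).trans h2)
  have e3 : (t : ℝ) * s ≤ t' := by exact_mod_cast a6
  have e4 := mul_le_mul_of_nonneg_right e3 (B2.wl_nonneg D (k + d) a2)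
  refine (e1.trans e2).trans (le_trans (le_of_eq ?_) e4)
  rw [pow_add]; ring

/-- the common end of `rG0`, `rG1`: `c k lam^d ≤ G c (k+d)` with `c k = w lam^k + r k > 0`,
`c (k+d) ≤ w lam^(k+d) + s lam^d r k` -/
theorem gamma_core {k β d : ℕ} {s : ℚ} (h2 : D.QQ β d s) (G : ℝ) (t : ℚ) (hk : Even k) (hd : Even d)
    (h6 : 6 ≤ k) (hβ : 1 ≤ β) (hG : D.c k β * D.lam β ^ d ≤ G * D.c (k + d) β) (hG0 : 0 ≤ G)
    (hs : G * s < 1) (ht : G - 1 ≤ t * (1 - G * s)) : D.BO k β t := by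
  have S := D.space β hβ
  have hl : 0 < D.lam β ^ d := pow_pos S.lam_pos d
  have c1 : D.c k β = D.w β * D.lam β ^ k + D.r k β := S.c_even k hk h6
  have c2 : D.c (k + d) β = D.w β * D.lam β ^ (k + d) + D.r (k + d) β :=
    S.c_even (k + d) (hk.add hd) (by omega)
  have r0 : 0 ≤ D.r k β := S.r_nonneg k h6
  have e1 : D.r (k + d) β ≤ D.q β ^ d * D.r k β := by
    simpa using S.r_dec k (k + d) h6 (by omega)
  have e2 : D.q β ^ d * D.r k β ≤ (s * D.lam β ^ d) * D.r k β := mul_le_mul_of_nonneg_right h2 r0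
  have W0 := B2.wl_nonneg D k hβ
  set W := D.w β * D.lam β ^ k with hW
  have e3 : D.c (k + d) β ≤ (W + s * D.r k β) * D.lam β ^ d := by
    rw [c2, pow_add, ← mul_assoc, ← hW]; linarith
  have e4 : W + D.r k β ≤ G * (W + s * D.r k β) := by
    refine le_of_mul_le_mul_right ?_ hl
    rw [← c1, mul_assoc]
    exact hG.trans (mul_le_mul_of_nonneg_left e3 hG0)
  have e5 : D.r k β ≤ t * W := by
    refine le_of_mul_le_mul_right ?_ (sub_pos.2 hs)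
    nlinarith [mul_le_mul_of_nonneg_right ht W0]
  refine ⟨lt_of_le_of_ne S.w_nonneg fun h0 => ?_, e5⟩
  have : W = 0 := by rw [hW, ← h0, zero_mul]
  have := B2.c_pos D h6 β
  rw [‹W = 0›] at c1 e5
  linarith

/-- `c k lam^d ≤ t1 (1+t3) t2 ≤ G c (k+d)` because `1 ≤ nu (k+d)^β ≤ c (k+d)` -/
theorem rG0 {k β d : ℕ} {t1 t2 t3 s : ℚ} (h1 : D.NU k β t1) (h2 : D.LAM β d t2) (h3 : D.AO k β t3)
    (h4 : D.QQ β d s) (G t : ℚ)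
    (hc : k % 2 = 0 ∧ d % 2 = 0 ∧ 6 ≤ k ∧ 20 ≤ k + d ∧ 1 ≤ β ∧ t1 * t2 * (1 + t3) ≤ G ∧ G * s < 1 ∧
      G - 1 ≤ t * (1 - G * s)) : D.BO k β t := by
  obtain ⟨a1, a2, a3, a4, a5, a6, a7, a8⟩ := hc
  have hk := Nat.even_iff.2 a1
  have hd := Nat.even_iff.2 a2
  have S := D.space β a5
  have t30 := B2.ao_nonneg a3 h3
  have n0 : 0 ≤ D.nu k ^ β := (pow_pos (D.timeO k a3).mu_pos β).le
  have e1 : D.c k β ≤ t1 * (1 + t3) :=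
    (B2.c_le D a3 h3).trans (mul_le_mul_of_nonneg_right h1 (by linarith))
  have e2 : D.c k β * D.lam β ^ d ≤ (t1 * (1 + t3)) * t2 :=
    mul_le_mul e1 h2 (pow_pos S.lam_pos d).le ((B2.c_pos D a3 β).le.trans e1)
  have e3 : (t1 : ℝ) * t2 * (1 + t3) ≤ G := by exact_mod_cast a6
  have e4 : D.c k β * D.lam β ^ d ≤ G := by linarith
  have e5 : (0 : ℝ) ≤ G := (mul_pos (B2.c_pos D a3 β) (pow_pos S.lam_pos d)).le.trans e4
  have e6 : 1 ≤ D.c (k + d) β :=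
    (one_le_pow₀ (D.nu1 (k + d) (hk.add hd) a4)).trans (B2.nu_le_c D (by omega) β)
  exact gamma_core h4 G t hk hd a3 a5 (e4.trans (le_mul_of_one_le_right e5 e6)) e5
    (by exact_mod_cast a7) (by exact_mod_cast a8)

/-- `nu k^β ≤ c k β ≤ (1+t1) w lam^k`, `w lam^k2 ≤ c k2 β ≤ nu k2^β (1+t2)`, `lam (2β) ≤ lam β²` -/
theorem rG1 {k k2 β β2 d : ℕ} {t1 t2 t3 s : ℚ} (h1 : D.BO k β t1) (h2 : D.AO k2 β t2)
    (h3 : D.AO k β2 t3) (h4 : D.QQ β2 d s) (G t : ℚ)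
    (hc : k % 2 = 0 ∧ d % 2 = 0 ∧ 6 ≤ k ∧ k2 = k + d ∧ 1 ≤ β ∧ β2 = 2 * β ∧
      ((1 + t1) * (1 + t2)) ^ 2 * (1 + t3) ≤ G ∧ G * s < 1 ∧ G - 1 ≤ t * (1 - G * s)) :
    D.BO k β2 t := by
  obtain ⟨a1, a2, a3, rfl, a5, rfl, a6, a7, a8⟩ := hc
  have hk := Nat.even_iff.2 a1
  have hd := Nat.even_iff.2 a2
  have S := D.space β a5
  have S2 := D.space (2 * β) (by omega)
  have t10 := B2.bo_nonneg a3 a5 h1
  have t20 := B2.ao_nonneg (by omega) h2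
  have t30 := B2.ao_nonneg a3 h3
  have n0 : 0 ≤ D.nu k ^ β := (pow_pos (D.timeO k a3).mu_pos β).le
  have e1 : D.nu k ^ β ≤ (1 + t1) * (D.w β * D.lam β ^ k) :=
    (B2.nu_le_c D a3 β).trans (B2.c_le_w hk a3 a5 h1)
  have e2 : D.c k (2 * β) ≤ ((1 + t1) * (D.w β * D.lam β ^ k)) ^ 2 * (1 + t3) := by
    refine (B2.c_le D a3 h3).trans (mul_le_mul_of_nonneg_right ?_ (by linarith))
    rw [pow_mul']
    exact pow_le_pow_left₀ n0 e1 2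
  have e3 : D.lam (2 * β) ^ d ≤ (D.lam β ^ 2) ^ d :=
    pow_le_pow_left₀ S2.lam_pos.le (D.lam_two β a5) d
  have e4 : D.w β * D.lam β ^ (k + d) ≤ D.nu (k + d) ^ β * (1 + t2) :=
    (B2.w_le_c D (hk.add hd) (by omega) a5).trans (B2.c_le D (by omega) h2)
  have e5 : (D.w β * D.lam β ^ (k + d)) ^ 2 ≤ D.c (k + d) (2 * β) * (1 + t2) ^ 2 := by
    refine (pow_le_pow_left₀ (B2.wl_nonneg D _ a5) e4 2).trans ?_
    rw [mul_pow, ← pow_mul']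
    exact mul_le_mul_of_nonneg_right (B2.nu_le_c D (by omega) _) (by positivity)
  have e6 : (((1 + t1) * (1 + t2)) ^ 2 * (1 + t3) : ℝ) ≤ G := by exact_mod_cast a6
  have e7 : (0 : ℝ) ≤ G := le_trans (by positivity) e6
  refine gamma_core h4 G t hk hd a3 (by omega) ?_ e7 (by exact_mod_cast a7) (by exact_mod_cast a8)
  have c0 := (B2.c_pos D (by omega : 6 ≤ k + d) (2 * β)).le
  calc D.c k (2 * β) * D.lam (2 * β) ^ d
      ≤ (((1 + t1) * (D.w β * D.lam β ^ k)) ^ 2 * (1 + t3)) * (D.lam β ^ 2) ^ d :=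
        mul_le_mul e2 e3 (pow_pos S2.lam_pos d).le (by positivity)
    _ = ((1 + t1) ^ 2 * (1 + t3)) * (D.w β * D.lam β ^ (k + d)) ^ 2 := by
        rw [← pow_mul, mul_comm 2 d, pow_mul, pow_add]; ring
    _ ≤ ((1 + t1) ^ 2 * (1 + t3)) * (D.c (k + d) (2 * β) * (1 + t2) ^ 2) :=
        mul_le_mul_of_nonneg_left e5 (by positivity)
    _ = (((1 + t1) * (1 + t2)) ^ 2 * (1 + t3)) * D.c (k + d) (2 * β) := by ring
    _ ≤ G * D.c (k + d) (2 * β) := mul_le_mul_of_nonneg_right e6 c0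

theorem rW {k β β2 : ℕ} {t1 t2 : ℚ} (h1 : D.AO k β t1) (h2 : D.BO k β2 t2) (t : ℚ)
    (hc : k % 2 = 0 ∧ 6 ≤ k ∧ 1 ≤ β ∧ β2 = 2 * β ∧ (1 + t1) ^ 2 * (1 + t2) ≤ t) : D.WW k β t := by
  obtain ⟨a1, a3, a5, rfl, a6⟩ := hc
  have hk := Nat.even_iff.2 a1
  have t10 := B2.ao_nonneg a3 h1
  have e4 : D.w β * D.lam β ^ k ≤ D.nu k ^ β * (1 + t1) :=
    (B2.w_le_c D hk a3 a5).trans (B2.c_le D a3 h1)
  have e5 : (D.w β * D.lam β ^ k) ^ 2 ≤ D.c k (2 * β) * (1 + t1) ^ 2 := by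
    refine (pow_le_pow_left₀ (B2.wl_nonneg D _ a5) e4 2).trans ?_
    rw [mul_pow, ← pow_mul']
    exact mul_le_mul_of_nonneg_right (B2.nu_le_c D a3 _) (by positivity)
  have e6 := mul_le_mul_of_nonneg_right (B2.c_le_w hk a3 (by omega) h2)
    (by positivity : (0 : ℝ) ≤ (1 + t1) ^ 2)
  have e7 : ((1 + t1) ^ 2 * (1 + t2) : ℝ) ≤ t := by exact_mod_cast a6
  have e8 := mul_le_mul_of_nonneg_right e7 (B2.wl_nonneg D k (by omega : 1 ≤ 2 * β))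
  unfold WW
  linarith

/-- `(c k2 β)² ≤ (1+t2)² (w lam^k)² lam^(2d) ≤ (1+t2)² t0 s w₂ lam₂^k2 ≤ R c k2 (2β)` -/
theorem rRo {k k2 β L : ℕ} {t0 t1 t2 : ℚ} (h0 : D.WW k β t0) (h1 : D.DD β L t1) (h2 : D.BO k2 β t2)
    (s t : ℚ)
    (hc : k2 % 2 = 0 ∧ 6 ≤ k ∧ k ≤ k2 ∧ 1 ≤ β ∧ 1 ≤ L ∧ 0 ≤ s ∧ 0 ≤ t0 ∧ t1 ^ (k2 - k) ≤ s ^ L ∧
      t0 * s * (1 + t2) ^ 2 < 2 ∧ 0 ≤ t ∧ t ≤ 1 ∧
      t0 * s * (1 + t2) ^ 2 * (1 + t ^ 2) ≤ (1 + t) ^ 2) : D.AO k2 β t := by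
  obtain ⟨a1, a2, a3, a4, a5, a6, a7, a8, a9, a10, a11, a12⟩ := hc
  have hk := Nat.even_iff.2 a1
  obtain ⟨d, rfl⟩ := Nat.exists_eq_add_of_le a3
  rw [Nat.add_sub_cancel_left] at a8
  have S := D.space β a4
  have S2 := D.space (2 * β) (by omega)
  have s0 : (0 : ℝ) ≤ s := by exact_mod_cast a6
  have t00 : (0 : ℝ) ≤ t0 := by exact_mod_cast a7
  have e1 : (D.lam β ^ 2) ^ d ≤ s * D.lam (2 * β) ^ d :=
    pow_transfer' (D.lam β ^ 2) (D.lam (2 * β)) t1 s L d (by positivity) S2.lam_pos a5 s0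
      (by rw [← pow_mul]; exact h1) (by exact_mod_cast a8)
  refine (D.timeO (k + d) (by omega)).purity β a4 (t0 * s * (1 + t2) ^ 2) t ?_
    (by exact_mod_cast a9) (by exact_mod_cast a10) (by exact_mod_cast a11) (by exact_mod_cast a12)
  have w2 := B2.wl_nonneg D k (by omega : 1 ≤ 2 * β)
  calc D.c (k + d) β ^ 2 ≤ ((1 + t2) * (D.w β * D.lam β ^ (k + d))) ^ 2 :=
        pow_le_pow_left₀ (B2.c_pos D (by omega) β).le (B2.c_le_w hk (by omega) a4 h2) 2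
    _ = (1 + t2) ^ 2 * ((D.w β * D.lam β ^ k) ^ 2 * (D.lam β ^ 2) ^ d) := by
        rw [← pow_mul, mul_comm 2 d, pow_mul, pow_add]; ring
    _ ≤ (1 + t2) ^ 2 * ((t0 * (D.w (2 * β) * D.lam (2 * β) ^ k)) * (s * D.lam (2 * β) ^ d)) :=
        mul_le_mul_of_nonneg_left (mul_le_mul h0 e1 (by positivity) (by positivity)) (by positivity)
    _ = (t0 * s * (1 + t2) ^ 2) * (D.w (2 * β) * D.lam (2 * β) ^ (k + d)) := by
        rw [pow_add]; ring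
    _ ≤ (t0 * s * (1 + t2) ^ 2) * D.c (k + d) (2 * β) :=
        mul_le_mul_of_nonneg_left (B2.w_le_c D hk (by omega) (by omega)) (by positivity)

theorem rWkAO {k β : ℕ} {t : ℚ} (h : D.AO k β t) (t' : ℚ) (hc : t ≤ t') : D.AO k β t' := by
  exact le_trans h (by exact_mod_cast hc)

theorem rWkB {k β : ℕ} {t : ℚ} (h : D.B k β t) (t' : ℚ) (hc : t ≤ t') : D.B k β t' := by
  exact le_trans h (by exact_mod_cast hc)

theorem rWkBO {k β : ℕ} {t : ℚ} (h : D.BO k β t) (t' : ℚ) (hc : 1 ≤ β ∧ t ≤ t') : D.BO k β t' := by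
  exact ⟨h.1, h.2.trans (mul_le_mul_of_nonneg_right (by exact_mod_cast hc.2)
    (B2.wl_nonneg D k hc.1))⟩

end Data

end Crest.Agent.R347
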