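import Crest.Agent.R347.Boot1
import Crest.Agent.R347.Boot2

/-!
# R347: the doubling induction
-/

set_option autoImplicit false

namespace Crest.Agent.R347

namespace Data

variable {D : Data}

/-- the state of the induction -/
def State (D : Data) (L β : ℕ) (z : ℚ) : Prop :=
  D.A L L β z ∧ D.B L β z ∧ D.B L (2 * β) z ∧ D.AO L β z ∧ D.BO L β z ∧ D.BO L (2 * β) z

theorem B3.p8 {K : Type*} [Field K] [LinearOrder K] [IsStrictOrderedRing K] {z : K} (hz0 : 0 ≤ z)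
    (hz : z ≤ 1 / 100) : (1 + z) ^ 8 ≤ 1 + 208 / 25 * z := by
  have h2 : (1 + z) ^ 2 ≤ 1 + 201 / 100 * z := by nlinarith
  have h4 : (1 + z) ^ 4 ≤ 1 + 407 / 100 * z := by
    have := pow_le_pow_left₀ (by positivity) h2 2
    rw [← pow_mul] at this
    nlinarith
  have := pow_le_pow_left₀ (by positivity) h4 2
  rw [← pow_mul] at this
  nlinarith

theorem B3.fin {K : Type*} [Field K] [LinearOrder K] [IsStrictOrderedRing K] {z R : K} (hz0 : 0 ≤ z)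
    (hz : z ≤ 1 / 100) (hR : R ≤ 1 + 19 / 2 * z) :
    R < 2 ∧ 0 ≤ 5 * z ∧ 5 * z ≤ 1 ∧ R * (1 + (5 * z) ^ 2) ≤ (1 + 5 * z) ^ 2 := by
  refine ⟨by linarith, by linarith, by linarith, ?_⟩
  have h1 := mul_le_mul_of_nonneg_right hR (by positivity : 0 ≤ 1 + (5 * z) ^ 2)
  have h2 : z ^ 2 ≤ 1 / 10000 := by nlinarith
  nlinarith [mul_le_mul_of_nonneg_left h2 hz0]

theorem B3.bo_up {L β : ℕ} {z : ℚ} (h : D.BO L β z) (h6 : 6 ≤ L) (hβ : 1 ≤ β) (d : ℕ) :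
    D.BO (L + d) β z := by
  have h0 := B2.bo_nonneg h6 hβ h
  refine rQpw (d := d) (s := 1) h ?_ (L + d) z ⟨h6, hβ, rfl, zero_le_one, by exact_mod_cast h0, by simp⟩
  have S := D.space β hβ
  simpa [QQ] using pow_le_pow_left₀ S.q_nonneg S.q_le d

theorem B3.c_two {k β : ℕ} {z : ℚ} (h : D.BO k β z) (h6 : 6 ≤ k) (hβ : 1 ≤ β) (hz : z ≤ 1) :
    (1 - z) * (D.w β * D.lam β ^ k) ≤ D.c k β ∧ D.c k β ≤ (1 + z) * (D.w β * D.lam β ^ k) := by
  have S := D.space β hβ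
  have h2 := h.2
  have h0 : 0 ≤ D.r k β := S.r_nonneg k h6
  have hz' : (z : ℝ) ≤ 1 := by exact_mod_cast hz
  rcases Nat.even_or_odd k with hk | hk
  · have := S.c_even k hk h6
    constructor <;> linarith
  · rcases S.c_odd k hk h6 with e | e
    · have := abs_le.1 e
      constructor <;> linarith [this.1, this.2]
    · have e1 := (abs_le.1 e).2
      have e2 := B2.c_pos D h6 β
      have e3 := mul_le_mul_of_nonneg_right hz' (B2.wl_nonneg D k hβ)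
      exfalso
      linarith

theorem B3.dd {L β : ℕ} {z : ℚ} (h : D.State L β z) (hL : Even L) (h20 : 20 ≤ L) (hβ : 1 ≤ β) :
    D.DD β L ((1 + z) ^ 3) :=
  rK h.1 h.2.2.1 _ ⟨Nat.even_iff.1 hL, by omega, hβ, rfl, le_of_eq (by ring)⟩

/-- Plan: `DD β L (1+z)³` (`rK`), `rR3` with `s = (1+z)^6`, `t = 5z` on `[L, 2L]`. -/
theorem state_ring {L β : ℕ} {z : ℚ} (h : D.State L β z) (hL : Even L) (h20 : 20 ≤ L) (hβ : 1 ≤ β)
    (hz0 : 0 ≤ z) (hz : z ≤ 1 / 100) : D.A L (2 * L) β (5 * z) := by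
  have hR : (1 + z) ^ 6 * (1 + z) ^ 2 ≤ 1 + 19 / 2 * z := by
    have := B3.p8 hz0 hz
    rw [← pow_add]; linarith
  obtain ⟨f1, f2, f3, f4⟩ := B3.fin hz0 hz hR
  refine rR3 (B3.dd h hL h20 hβ) h.2.1 (2 * L) ((1 + z) ^ 6) (5 * z)
    ⟨Nat.even_iff.1 hL, by omega, hβ, by omega, by positivity, le_of_eq ?_, f1, f2, f3, f4⟩
  rw [← pow_mul, ← pow_mul]; congr 1; ring

/-- all parities.  Plan: `WW L β (1+z)³`, `(lam β²/lam (2β))^(k-L) ≤ (1+z)³` (ratio `≥ 1`),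
`r k ≤ z w lam^k` at `β` and `2β` (`r_dec`, `q_le`); for odd `k` the sign in `c_odd` is `+` because
`c k > 0`; so `(c k β)² ≤ (1+z)^8/(1-z) · c k (2β)`, `TimeP.purity` with `t = 5z`. -/
theorem state_open {L β : ℕ} {z : ℚ} (h : D.State L β z) (hL : Even L) (h20 : 20 ≤ L) (hβ : 1 ≤ β)
    (hz0 : 0 ≤ z) (hz : z ≤ 1 / 100) (k : ℕ) (h1 : L ≤ k) (h2 : k ≤ 2 * L) : D.AO k β (5 * z) := by
  obtain ⟨d, rfl⟩ := Nat.exists_eq_add_of_le h1
  obtain ⟨e, he⟩ := Nat.exists_eq_add_of_le (show d ≤ L by omega)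
  have hW : D.WW L β ((1 + z) ^ 3) :=
    rW h.2.2.2.1 h.2.2.2.2.2 _ ⟨Nat.even_iff.1 hL, by omega, hβ, rfl, le_of_eq (by ring)⟩
  have hD := B3.dd h hL h20 hβ
  have S := D.space β hβ
  have S2 := D.space (2 * β) (by omega)
  have z0 : (0 : ℝ) ≤ z := by exact_mod_cast hz0
  have z1 : (z : ℝ) ≤ 1 / 100 := by
    have : ((z : ℚ) : ℝ) ≤ ((1 / 100 : ℚ) : ℝ) := Rat.cast_le.2 hz
    simpa using this
  have l2 := S2.lam_pos
  have e1 : (D.lam β ^ 2) ^ d ≤ (1 + z) ^ 3 * D.lam (2 * β) ^ d := by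
    refine le_of_mul_le_mul_right ?_ (pow_pos l2 e)
    have a1 : D.lam (2 * β) ^ e ≤ (D.lam β ^ 2) ^ e := pow_le_pow_left₀ l2.le (D.lam_two β hβ) e
    have a2 := mul_le_mul_of_nonneg_left a1 (by positivity : 0 ≤ (D.lam β ^ 2) ^ d)
    refine a2.trans ?_
    rw [← pow_add, mul_assoc, ← pow_add, ← he, ← pow_mul]
    unfold DD at hD
    push_cast at hD
    exact hD
  have c1 := (B3.c_two (B3.bo_up h.2.2.2.2.1 (by omega) hβ d) (by omega) hβ (by linarith)).2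
  have c2 := (B3.c_two (B3.bo_up h.2.2.2.2.2 (by omega) (by omega) d) (by omega) (by omega)
    (by linarith)).1
  obtain ⟨f1, f2, f3, f4⟩ := B3.fin z0 z1 (le_refl (1 + 19 / 2 * (z : ℝ)))
  have w2 := B2.wl_nonneg D L (by omega : 1 ≤ 2 * β)
  have w3 := B2.wl_nonneg D (L + d) (by omega : 1 ≤ 2 * β)
  unfold WW at hW
  push_cast at hW
  unfold AO
  push_cast
  refine (D.timeO (L + d) (by omega)).purity β hβ _ _ ?_ f1 f2 f3 f4
  have p8 := B3.p8 z0 z1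
  calc D.c (L + d) β ^ 2 ≤ ((1 + z) * (D.w β * D.lam β ^ (L + d))) ^ 2 :=
        pow_le_pow_left₀ (B2.c_pos D (by omega) β).le c1 2
    _ = (1 + z) ^ 2 * ((D.w β * D.lam β ^ L) ^ 2 * (D.lam β ^ 2) ^ d) := by
        rw [← pow_mul, mul_comm 2 d, pow_mul, pow_add]; ring
    _ ≤ (1 + z) ^ 2 * (((1 + z) ^ 3 * (D.w (2 * β) * D.lam (2 * β) ^ L)) *
          ((1 + z) ^ 3 * D.lam (2 * β) ^ d)) :=
        mul_le_mul_of_nonneg_left (mul_le_mul hW e1 (by positivity) (by positivity)) (by positivity)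
    _ = (1 + z) ^ 8 * (D.w (2 * β) * D.lam (2 * β) ^ (L + d)) := by
        rw [pow_add]; ring
    _ ≤ ((1 + 19 / 2 * z) * (1 - z)) * (D.w (2 * β) * D.lam (2 * β) ^ (L + d)) :=
        mul_le_mul_of_nonneg_right (by nlinarith) w3
    _ ≤ (1 + 19 / 2 * z) * D.c (L + d) (2 * β) := by
        rw [mul_assoc]
        exact mul_le_mul_of_nonneg_left c2 (by positivity)

/-- Plan: `a (2L) (2β) ≤ (5z)²`; `b (2L) (2β) ≤ z²`; `CC L (2β) ((1+z)²(1+25z²))`, `rR4` at `4β` gives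
`b L (4β) ≤ 5z`, so `b (2L) (4β) ≤ 25z²`; `ao (2L) (2β) ≤ 25z²`; `BO (2L) (2β) z²` by `rQ`, `rQpw`;
`rG1` (`k = L`, `k2 = 2L`, from `2β` to `4β`, `s = 5z`) gives `BO L (4β) (5z)`, so
`BO (2L) (4β) (25z²)`. -/
theorem state_step {L β : ℕ} {z : ℚ} (h : D.State L β z) (hL : Even L) (h20 : 20 ≤ L) (hβ : 1 ≤ β)
    (hz0 : 0 ≤ z) (hz : z ≤ 1 / 100) : D.State (2 * L) (2 * β) (25 * z ^ 2) := by
  have hL' := Nat.even_iff.1 hL
  have hL2 : (2 * L) % 2 = 0 := by omega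
  have sq5 : ∀ n : ℕ, (5 * z) ^ (2 * n) ≤ (25 * z ^ 2) ^ n := fun n => by
    rw [pow_mul]; exact le_of_eq (by congr 1; ring)
  have zz : 0 ≤ 25 * z ^ 2 := by positivity
  have z4 : 25 * z ^ 2 ≤ z / 4 := by nlinarith
  have zp : z ^ (2 * (2 * β)) ≤ z ^ β := pow_le_pow_of_le_one hz0 (by linarith) (by omega)
  have a1 : D.A L (2 * L) (2 * β) (25 * z ^ 2) :=
    rPwA (state_ring h hL h20 hβ hz0 hz) _ _ ⟨by omega, hβ, by omega, zz, sq5 β⟩
  have a2 : D.A (2 * L) (2 * L) (2 * β) (25 * z ^ 2) := rWkA a1 _ _ _ ⟨by omega, le_rfl, le_rfl⟩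
  have b1 : D.B (2 * L) (2 * β) (25 * z ^ 2) := by
    refine rPwB h.2.2.1 _ _ ⟨hL', hL2, by omega, by omega, by omega, zz, ?_⟩
    rw [pow_mul]
    exact pow_le_pow_left₀ (by positivity) (by nlinarith) L
  have cc : D.CC L (2 * β) ((1 + z) ^ 2 * (1 + 25 * z ^ 2)) :=
    rC h.2.2.1 a2 _ ⟨hL', by omega, by omega, rfl, le_rfl⟩
  have a3 : D.A L L (2 * (2 * β)) z := rPwA h.1 _ _ ⟨by omega, hβ, by omega, hz0, zp⟩
  have hR : ((1 + z) ^ 2 * (1 + 25 * z ^ 2)) ^ 2 * (1 + z) ^ 2 ≤ 1 + 19 / 2 * z := by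
    have p8 := B3.p8 hz0 hz
    have q1 : (1 + z) ^ 2 * (1 + 25 * z ^ 2) ≤ (1 + z) ^ 2 * (1 + z) :=
      mul_le_mul_of_nonneg_left (by linarith) (by positivity)
    have q2 := mul_le_mul_of_nonneg_right (pow_le_pow_left₀ (by positivity) q1 2)
      (by positivity : 0 ≤ (1 + z) ^ 2)
    have q3 : ((1 + z) ^ 2 * (1 + z)) ^ 2 * (1 + z) ^ 2 = (1 + z) ^ 8 := by ring
    linarith
  obtain ⟨f1, f2, f3, f4⟩ := B3.fin hz0 hz hR
  have b2 : D.B L (2 * (2 * β)) (5 * z) :=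
    rR4 cc a3 (((1 + z) ^ 2 * (1 + 25 * z ^ 2)) ^ 2) _
      ⟨hL', by omega, by omega, by omega, by positivity, le_of_eq (by rw [← pow_mul]), f1, f2, f3, f4⟩
  have b3 : D.B (2 * L) (2 * (2 * β)) (25 * z ^ 2) :=
    rPwB b2 _ _ ⟨hL', hL2, by omega, by omega, by omega, zz, sq5 L⟩
  have o1 : D.AO (2 * L) (2 * β) (25 * z ^ 2) :=
    rPwAO (state_open h hL h20 hβ hz0 hz (2 * L) (by omega) le_rfl) _ _
      ⟨by omega, hβ, by omega, zz, sq5 β⟩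
  have q1 : D.QQ (2 * β) L z := rQ h.2.2.1 L z ⟨hL', by omega, by omega, hz0, le_rfl⟩
  have r1 : D.BO (2 * L) (2 * β) (25 * z ^ 2) :=
    rQpw h.2.2.2.2.2 q1 _ _ ⟨by omega, by omega, by omega, hz0, hz0, by nlinarith⟩
  have o2 : D.AO L (2 * (2 * β)) z := rPwAO h.2.2.2.1 _ _ ⟨by omega, hβ, by omega, hz0, zp⟩
  have q2 : D.QQ (2 * (2 * β)) L (5 * z) := rQ b2 L _ ⟨hL', by omega, by omega, f2, le_rfl⟩
  have g1 : ((1 + z) * (1 + 25 * z ^ 2)) ^ 2 * (1 + z) ≤ 1 + 4 * z := by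
    have u1 : (1 + z) * (1 + 25 * z ^ 2) ≤ 1 + 13 / 10 * z := by nlinarith
    have u2 : ((1 + z) * (1 + 25 * z ^ 2)) ^ 2 ≤ 1 + 27 / 10 * z :=
      (pow_le_pow_left₀ (by positivity) u1 2).trans (by nlinarith)
    have u3 := mul_le_mul_of_nonneg_right u2 (by positivity : 0 ≤ 1 + z)
    nlinarith
  have g2 : (1 + 4 * z) * (5 * z) ≤ 1 / 5 := by nlinarith
  have r2 : D.BO L (2 * (2 * β)) (5 * z) :=
    rG1 h.2.2.2.2.2 o1 o2 q2 (1 + 4 * z) _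
      ⟨hL', hL', by omega, by omega, by omega, rfl, g1, by linarith, by nlinarith⟩
  have r3 : D.BO (2 * L) (2 * (2 * β)) (25 * z ^ 2) :=
    rQpw r2 q2 _ _ ⟨by omega, by omega, by omega, f2, f2, le_of_eq (by ring)⟩
  exact ⟨a2, b1, b3, o1, r1, r3⟩

/-- Plan: `z_j = (25 z)^(2^j)/25` at `(2^j L, 2^j β)`; every `L' ≥ L` lies in some `[2^j L, 2^(j+1) L]`;
`5 z_j exp (2^j β c) = (25 z exp (β c))^(2^j)/5 < 1`. -/
theorem final {L β : ℕ} {z : ℚ} (h : D.State L β z) (hL : Even L) (h20 : 20 ≤ L) (hβ : 1 ≤ β)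
    (hz0 : 0 ≤ z) (hz : z ≤ 1 / 100) (c : ℝ) (hc : ((25 * z : ℚ) : ℝ) * Real.exp (β * c) ≤ 1) :
    (∀ L', Even L' → L ≤ L' → D.gapR L' c) ∧ ∀ k, L ≤ k → D.gapO k c := by
  have key : ∀ j : ℕ, ∃ y : ℚ, D.State (2 ^ j * L) (2 ^ j * β) y ∧ 0 ≤ y ∧ y ≤ 1 / 100 ∧
      25 * (y : ℝ) * Real.exp ((2 ^ j * β : ℕ) * c) ≤ 1 := by
    intro j
    induction j with
    | zero => exact ⟨z, by simpa using h, hz0, hz, by simpa using hc⟩
    | succ j ih =>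
      obtain ⟨y, s1, s2, s3, s4⟩ := ih
      have p : 1 ≤ 2 ^ j := Nat.one_le_two_pow
      have s5 := state_step s1 (hL.mul_left _) (by nlinarith) (by nlinarith) s2 s3
      refine ⟨25 * y ^ 2, by rwa [pow_succ', mul_assoc, mul_assoc], by positivity, by nlinarith, ?_⟩
      have y0 : (0 : ℝ) ≤ y := by exact_mod_cast s2
      have e : 25 * ((25 * y ^ 2 : ℚ) : ℝ) * Real.exp ((2 ^ (j + 1) * β : ℕ) * c) =
          (25 * (y : ℝ) * Real.exp ((2 ^ j * β : ℕ) * c)) ^ 2 := by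
        rw [mul_pow, ← Real.exp_nat_mul]
        push_cast
        ring_nf
      rw [e]
      exact pow_le_one₀ (by positivity) s4
  have cover : ∀ k, L ≤ k → ∃ j, 2 ^ j * L ≤ k ∧ k ≤ 2 * (2 ^ j * L) := by
    intro k hk
    induction k, hk using Nat.le_induction with
    | base => exact ⟨0, by simp, by simp; omega⟩
    | succ k hk ih =>
      obtain ⟨j, j1, j2⟩ := ih
      rcases j2.lt_or_eq with j2 | j2
      · exact ⟨j, by omega, by omega⟩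
      · refine ⟨j + 1, ?_, ?_⟩ <;> rw [pow_succ', mul_assoc] <;> omega
  have fin : ∀ (a : ℝ) (y : ℚ) (x : ℝ), a ≤ ((5 * y : ℚ) : ℝ) → 25 * (y : ℝ) * Real.exp x ≤ 1 →
      a * Real.exp x < 1 := by
    intro a y x h1 h2
    push_cast at h1
    nlinarith [Real.exp_pos x, mul_le_mul_of_nonneg_right h1 (Real.exp_pos x).le]
  constructor
  · intro k hk hLk
    obtain ⟨j, j1, j2⟩ := cover k hLk
    obtain ⟨y, s1, s2, s3, s4⟩ := key j
    have p : 1 ≤ 2 ^ j := Nat.one_le_two_pow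
    have hb : 1 ≤ 2 ^ j * β := by nlinarith
    have := state_ring s1 (hL.mul_left _) (by nlinarith) hb s2 s3 k hk j1 j2
    exact (D.timeR k hk (by omega)).gap _ c hb (fin _ _ _ this s4)
  · intro k hLk
    obtain ⟨j, j1, j2⟩ := cover k hLk
    obtain ⟨y, s1, s2, s3, s4⟩ := key j
    have p : 1 ≤ 2 ^ j := Nat.one_le_two_pow
    have hb : 1 ≤ 2 ^ j * β := by nlinarith
    have := state_open s1 (hL.mul_left _) (by nlinarith) hb s2 s3 k j1 j2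
    exact (D.timeO k (by omega)).gap _ c hb (fin _ _ _ this s4)

end Data

end Crest.Agent.R347
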