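import Crest.Agent.R347.Filt
import Crest.Agent.R347.Asm
import Crest.Agent.R347.Boot0

/-!
# R347: from the sector intervals to the initial bounds of the bootstrap
-/

set_option autoImplicit false

namespace Crest.Agent.R347

open Crest.MathPhysics.SpinChain

/-- interval data of one ring: untwisted `m = 0,1,2`, tail; twisted flip-even, flip-odd, `m = 1,2`, tail -/
structure RI where
  a0 : ℚ × ℚ
  a1 : ℚ × ℚ
  a2 : ℚ × ℚ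
  ta : ℚ
  fp : ℚ × ℚ
  fm : ℚ × ℚ
  b1 : ℚ × ℚ
  b2 : ℚ × ℚ
  tb : ℚ

def RI.ok (d : RI) (L : ℕ) (β : ℝ) : Prop :=
  IB (AR L 0 L L β) d.a0 ∧ IB (AR L 0 (L - 1) (L - 1) β) d.a1 ∧ IB (AR L 0 (L - 2) (L - 2) β) d.a2 ∧
  AR L 0 0 (L - 3) β ≤ d.ta ∧ IB (AF L 1 β) d.fp ∧ IB (AF L (-1) β) d.fm ∧
  IB (AR L 3 (L - 1) (L - 1) β) d.b1 ∧ IB (AR L 3 (L - 2) (L - 2) β) d.b2 ∧ AR L 3 0 (L - 3) β ≤ d.tb

def RI.z00 (d : RI) : ℚ × ℚ :=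
  ((d.a0.1 + 2 * d.a1.1 + 2 * d.a2.1 + 3 * (d.fp.1 + d.fm.1 + 2 * d.b1.1 + 2 * d.b2.1)) / 4,
   (d.a0.2 + 2 * d.a1.2 + 2 * d.a2.2 + 2 * d.ta +
      3 * (d.fp.2 + d.fm.2 + 2 * d.b1.2 + 2 * d.b2.2 + 2 * d.tb)) / 4)

def RI.z03 (d : RI) : ℚ × ℚ :=
  ((d.a0.1 + 2 * d.a1.1 + 2 * d.a2.1 - (d.fp.2 + d.fm.2 + 2 * d.b1.2 + 2 * d.b2.2 + 2 * d.tb)) / 4,
   (d.a0.2 + 2 * d.a1.2 + 2 * d.a2.2 + 2 * d.ta - (d.fp.1 + d.fm.1 + 2 * d.b1.1 + 2 * d.b2.1)) / 4)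

def RI.z33 (d : RI) : ℚ × ℚ :=
  ((d.a0.1 - 2 * d.a1.2 + 2 * d.a2.1 - 2 * d.ta - d.fp.2 + 3 * d.fm.1 - 2 * d.b1.2 + 2 * d.b2.1 - 2 * d.tb) / 4,
   (d.a0.2 - 2 * d.a1.1 + 2 * d.a2.2 + 2 * d.ta - d.fp.1 + 3 * d.fm.2 - 2 * d.b1.1 + 2 * d.b2.2 + 2 * d.tb) / 4)

def RI.z30 (d : RI) : ℚ × ℚ :=
  ((d.a0.1 - 2 * d.a1.2 + 2 * d.a2.1 - 2 * d.ta + 3 * d.fp.1 - d.fm.2 - 2 * d.b1.2 + 2 * d.b2.1 - 2 * d.tb) / 4,
   (d.a0.2 - 2 * d.a1.1 + 2 * d.a2.2 + 2 * d.ta + 3 * d.fp.2 - d.fm.1 - 2 * d.b1.1 + 2 * d.b2.2 + 2 * d.tb) / 4)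

def RI.z31 (d : RI) : ℚ × ℚ :=
  ((d.a0.1 - 2 * d.a1.2 + 2 * d.a2.1 - 2 * d.ta - d.fp.2 - d.fm.2 + 2 * d.b1.1 - 2 * d.b2.2 - 2 * d.tb) / 4,
   (d.a0.2 - 2 * d.a1.1 + 2 * d.a2.2 + 2 * d.ta - d.fp.1 - d.fm.1 + 2 * d.b1.2 - 2 * d.b2.1 + 2 * d.tb) / 4)

/-- Plan: `Zs_00` etc., `ZR_dec0`, `ZR_dec3`, `ZR_dec31`, `AR_AF`, `AR_nonneg`, `push_cast`, `linarith`. -/
theorem RI.secs {d : RI} {L : ℕ} {β : ℝ} (h : d.ok L β) (hL : 3 ≤ L) :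
    IB (Zs 0 0 L β) d.z00 ∧ IB (Zs 0 3 L β) d.z03 ∧ IB (Zs 3 3 L β) d.z33 ∧ IB (Zs 3 0 L β) d.z30 ∧
      IB (Zs 3 1 L β) d.z31 := by
  have h2 : 2 ≤ L := by omega
  obtain ⟨⟨a0, a0'⟩, ⟨a1, a1'⟩, ⟨a2, a2'⟩, ta, ⟨fp, fp'⟩, ⟨fm, fm'⟩, ⟨b1, b1'⟩, ⟨b2, b2'⟩, tb⟩ := h
  have e00 := ZR_dec0 L hL 0 β
  have e30 := ZR_dec0 L hL 3 β
  have e03 := abs_le.1 (ZR_dec3 L hL 0 β)
  have e33 := abs_le.1 (ZR_dec3 L hL 3 β)
  have e31 := ZR_dec31 L h2 β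
  have eF := AR_AF L β
  have n0 := AR_nonneg L h2 0 0 (L - 3) β
  have n3 := AR_nonneg L h2 3 0 (L - 3) β
  obtain ⟨e03, e03'⟩ := e03
  obtain ⟨e33, e33'⟩ := e33
  rw [Zs_00 L h2, Zs_0x 3 (by decide) L h2, Zs_33 L h2, Zs_30 L h2, Zs_31 1 (Or.inl rfl) L h2]
  simp only [IB, RI.z00, RI.z03, RI.z33, RI.z30, RI.z31]
  push_cast
  refine ⟨⟨?_, ?_⟩, ⟨?_, ?_⟩, ⟨?_, ?_⟩, ⟨?_, ?_⟩, ⟨?_, ?_⟩⟩ <;> linarith

/-- the tail of the ring with ten sites comes in two pieces -/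
theorem AR_tail {L : ℕ} {g : Fin 4} {lo mid mid' hi : ℕ} {β : ℝ} {I J : ℚ × ℚ} (h1 : IB (AR L g lo mid β) I)
    (h2 : IB (AR L g mid' hi β) J) (t : ℚ) (hc : mid' = mid + 1 ∧ lo ≤ mid' ∧ mid ≤ hi ∧ I.2 + J.2 ≤ t) :
    AR L g lo hi β ≤ t := by
  obtain ⟨rfl, c1, c2, c3⟩ := hc
  rw [AR_split L g lo mid hi c1 c2]
  have c4 : ((I.2 + J.2 : ℚ) : ℝ) ≤ t := by exact_mod_cast c3
  push_cast at c4
  linarith [h1.2, h2.2]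

theorem IB.le {x : ℝ} {I : ℚ × ℚ} (h : IB x I) : x ≤ I.2 := h.2

/-- widening an interval -/
theorem IB.wk {x : ℝ} {I : ℚ × ℚ} (h : IB x I) (J : ℚ × ℚ) (hc : J.1 ≤ I.1 ∧ I.2 ≤ J.2) : IB x J :=
  ⟨le_trans (by exact_mod_cast hc.1) h.1, le_trans h.2 (by exact_mod_cast hc.2)⟩

/-- interval data of one chain: single digit sums with intervals, tails with intervals -/
structure OI where
  ls : List (ℕ × ℚ × ℚ)
  ts : List ((ℕ × ℕ) × ℚ × ℚ)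

def OI.ok (d : OI) (k : ℕ) (s β : ℝ) : Prop :=
  Parts (k + 2) (d.ls.map Prod.fst) (d.ts.map Prod.fst) ∧
    List.Forall (fun p : ℕ × ℚ × ℚ => IB (AC k s p.1 p.1 β) p.2) d.ls ∧
    List.Forall (fun p : (ℕ × ℕ) × ℚ × ℚ => IB (AC k s p.1.1 p.1.2 β) p.2) d.ts

def OI.tail (d : OI) : ℚ := (d.ts.map fun p => p.2.2).sum

def OI.z0 (d : OI) : ℚ × ℚ :=
  ((d.ls.map fun p => p.2.1).sum, (d.ls.map fun p => p.2.2).sum + d.tail)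

def OI.z3 (d : OI) (k : ℕ) : ℚ × ℚ :=
  ((d.ls.map fun p => if (p.1 + k) % 2 = 0 then p.2.1 else -p.2.2).sum - d.tail,
   (d.ls.map fun p => if (p.1 + k) % 2 = 0 then p.2.2 else -p.2.1).sum + d.tail)

def avgP (I J : ℚ × ℚ) : ℚ × ℚ := ((I.1 + J.1) / 2, (I.2 + J.2) / 2)
def avgM (I J : ℚ × ℚ) : ℚ × ℚ := ((I.1 - J.2) / 2, (I.2 - J.1) / 2)

theorem filtA_sum_le {α : Type} (l : List α) (f : α → ℚ) (g : α → ℝ) (h : ∀ p ∈ l, (f p : ℝ) ≤ g p) :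
    (((l.map f).sum : ℚ) : ℝ) ≤ (l.map g).sum := by
  induction l with
  | nil => simp
  | cons a l ih =>
    rw [List.map_cons, List.map_cons, List.sum_cons, List.sum_cons, Rat.cast_add]
    exact add_le_add (h a List.mem_cons_self) (ih fun p hp => h p (List.mem_cons_of_mem _ hp))

theorem filtA_le_sum {α : Type} (l : List α) (f : α → ℚ) (g : α → ℝ) (h : ∀ p ∈ l, g p ≤ (f p : ℝ)) :
    (l.map g).sum ≤ (((l.map f).sum : ℚ) : ℝ) := by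
  induction l with
  | nil => simp
  | cons a l ih =>
    rw [List.map_cons, List.map_cons, List.sum_cons, List.sum_cons, Rat.cast_add]
    exact add_le_add (h a List.mem_cons_self) (ih fun p hp => h p (List.mem_cons_of_mem _ hp))

theorem OI.one {d : OI} {k : ℕ} {s β : ℝ} (hd : d.ok k s β) :
    IB (ZO s 0 k β) d.z0 ∧ IB (ZO s 3 k β) (d.z3 k) := by
  obtain ⟨h1, h2, h3⟩ := hd
  rw [List.forall_iff_forall_mem] at h2 h3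
  have e0 := ZO_dec0 k s β _ _ h1
  obtain ⟨e3, e3'⟩ := abs_le.1 (ZO_dec3 k s β _ _ h1)
  simp only [List.map_map] at e0 e3 e3'
  have t0 : 0 ≤ (d.ts.map ((fun p : ℕ × ℕ => AC k s p.1 p.2 β) ∘ Prod.fst)).sum :=
    List.sum_nonneg fun x hx => by
      obtain ⟨p, -, rfl⟩ := List.mem_map.1 hx
      exact AC_nonneg _ _ _ _ _
  have t1 : (d.ts.map ((fun p : ℕ × ℕ => AC k s p.1 p.2 β) ∘ Prod.fst)).sum ≤ (d.tail : ℝ) :=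
    filtA_le_sum _ _ _ fun p hp => (h3 p hp).2
  have a1 := filtA_sum_le d.ls (fun p => p.2.1) ((fun d => AC k s d d β) ∘ Prod.fst)
    fun p hp => (h2 p hp).1
  have a2 := filtA_le_sum d.ls (fun p => p.2.2) ((fun d => AC k s d d β) ∘ Prod.fst)
    fun p hp => (h2 p hp).2
  have a3 := filtA_sum_le d.ls (fun p => if (p.1 + k) % 2 = 0 then p.2.1 else -p.2.2)
    ((fun d => (-1 : ℝ) ^ (d + k) * AC k s d d β) ∘ Prod.fst) fun p hp => by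
      simp only [Function.comp_apply]
      split_ifs with hp'
      · rw [(Nat.even_iff.2 hp').neg_one_pow, one_mul]; exact (h2 p hp).1
      · rw [(Nat.odd_iff.2 (by omega)).neg_one_pow, Rat.cast_neg]
        linarith [(h2 p hp).2]
  have a4 := filtA_le_sum d.ls (fun p => if (p.1 + k) % 2 = 0 then p.2.2 else -p.2.1)
    ((fun d => (-1 : ℝ) ^ (d + k) * AC k s d d β) ∘ Prod.fst) fun p hp => by
      simp only [Function.comp_apply]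
      split_ifs with hp'
      · rw [(Nat.even_iff.2 hp').neg_one_pow, one_mul]; exact (h2 p hp).2
      · rw [(Nat.odd_iff.2 (by omega)).neg_one_pow, Rat.cast_neg]
        linarith [(h2 p hp).1]
  simp only [IB, OI.z0, OI.z3, Rat.cast_add, Rat.cast_sub]
  refine ⟨⟨?_, ?_⟩, ⟨?_, ?_⟩⟩ <;> linarith

theorem filtA_cs0 (h : Fin 4) (k : ℕ) (β : ℝ) : cs h 0 k β = (ZO (-1) h k β + ZO 1 h k β) / 2 :=
  if_pos rfl

theorem filtA_cs3 (h : Fin 4) (k : ℕ) (β : ℝ) : cs h 3 k β = (ZO (-1) h k β - ZO 1 h k β) / 2 := by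
  rw [cs, if_neg (by decide), if_pos rfl]

/-- Plan: `ZO_dec0`, `ZO_dec3`, `AC_nonneg`, induction on the lists. -/
theorem OI.secs {d e : OI} {k : ℕ} {β : ℝ} (hd : d.ok k (-1) β) (he : e.ok k 1 β) :
    IB (cs 0 0 k β) (avgP d.z0 e.z0) ∧ IB (cs 0 3 k β) (avgM d.z0 e.z0) ∧
      IB (cs 3 0 k β) (avgP (d.z3 k) (e.z3 k)) ∧ IB (cs 3 3 k β) (avgM (d.z3 k) (e.z3 k)) := by
  obtain ⟨⟨a1, a2⟩, a3, a4⟩ := OI.one hd
  obtain ⟨⟨b1, b2⟩, b3, b4⟩ := OI.one he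
  simp only [filtA_cs0, filtA_cs3, IB, avgP, avgM]
  push_cast
  refine ⟨⟨?_, ?_⟩, ⟨?_, ?_⟩, ⟨?_, ?_⟩, ⟨?_, ?_⟩⟩ <;> linarith

theorem IB_flip {k lo hi : ℕ} {β : ℝ} {I : ℚ × ℚ} (h : IB (AC k (-1) lo hi β) I) (lo' hi' : ℕ)
    (hc : hi ≤ 2 * (k + 2) ∧ lo ≤ hi ∧ lo' = 2 * (k + 2) - hi ∧ hi' = 2 * (k + 2) - lo) :
    IB (AC k (-1) lo' hi' β) I := by
  obtain ⟨c1, c2, rfl, rfl⟩ := hc
  rwa [← AC_flip k lo hi c1 c2]

def SB (h σ : Fin 4) (β : ℕ) (M y : ℚ) : Prop :=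
  ∀ L, Even L → 10 ≤ L → Zs h σ L β ≤ (M : ℝ) ^ L + (y : ℝ) ^ L

def OB (h σ : Fin 4) (β k0 : ℕ) (l : List (ℚ × ℚ)) : Prop :=
  ∀ k, Even k → k0 ≤ k → cs h σ k β ≤ evalB l k

/-- `fam_exists`, `filt_abs`, `sum_le_two` -/
theorem sec_ring {h σ : Fin 4} {β : ℕ} {I : List (ℚ × ℚ)} (hI : SecI (fun L => Zs h σ L β) 6 I) (d : FD)
    (M y : ℚ) (hc : d.ok I ∧ d.M ≤ M ∧ d.m ≤ M ∧ 0 ≤ y ∧ y ≤ M ∧ (I.getD 4 (0, 0)).2 ≤ M ^ 10 + y ^ 10) :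
    SB h σ β M y := by
  obtain ⟨c1, c2, c3, c4, c5, c6⟩ := hc
  obtain ⟨X, W, F⟩ := fam_exists h σ β (Nat.cast_nonneg β)
  have c2' : (d.M : ℝ) ≤ M := by exact_mod_cast c2
  have c3' : (d.m : ℝ) ≤ M := by exact_mod_cast c3
  intro L hL h10
  refine sum_le_two F M y (fun i => ?_) (by exact_mod_cast c4) (by exact_mod_cast c5) ?_ L hL h10
  · obtain ⟨a1, a2⟩ := filt_abs F I hI d c1 i
    exact abs_le.2 ⟨by linarith, by linarith⟩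
  · exact (hI 4 (by rw [c1.1]; norm_num)).2.trans (by exact_mod_cast c6)

theorem sec_top {h σ : Fin 4} {β : ℕ} {I J : List (ℚ × ℚ)} (hI : SecI (fun L => Zs h σ L β) 6 I)
    (hJ : SecI (fun k => cs h σ k β) 0 J) (d : FD) (o : OD) (hc : d.ok I ∧ o.ok d.M d.m J) :
    OB h σ β o.k0 [(o.cf, d.M), (o.cg, o.xs)] := by
  obtain ⟨X, W, F⟩ := fam_exists h σ β (Nat.cast_nonneg β)
  intro k hk hk0
  have := filt_top F d.M d.m (filt_abs F I hI d hc.1) J hJ o hc.2 k hk hk0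
  simpa [evalB] using this

theorem sec_mag {h σ : Fin 4} {β : ℕ} {I J : List (ℚ × ℚ)} (hI : SecI (fun L => Zs h σ L β) 6 I)
    (hJ : SecI (fun k => cs h σ k β) 0 J) (d : FD) (M cf : ℚ)
    (hc : d.ok I ∧ J.length = 7 ∧ d.M ≤ M ∧ d.m ≤ M ∧ (J.getD 6 (0, 0)).2 ≤ cf * M ^ 6) :
    OB h σ β 6 [(cf, M)] := by
  obtain ⟨c1, c0, c2, c3, c6⟩ := hc
  obtain ⟨X, W, F⟩ := fam_exists h σ β (Nat.cast_nonneg β)
  have c2' : (d.M : ℝ) ≤ M := by exact_mod_cast c2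
  have c3' : (d.m : ℝ) ≤ M := by exact_mod_cast c3
  intro k hk hk0
  have := filt_mag F M cf (fun i => ?_)
    ((hJ 6 (by rw [c0]; norm_num)).2.trans (by exact_mod_cast c6)) k hk hk0
  · simpa [evalB] using this
  · obtain ⟨a1, a2⟩ := filt_abs F I hI d c1 i
    exact abs_le.2 ⟨by linarith, by linarith⟩

/-- the conclusion of `data_exists` -/
def Good (D : Data) : Prop :=
  (∀ L β : ℕ, 2 ≤ L → D.Z L β = ZR 0 0 L β) ∧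
    (∀ L β : ℕ, 2 ≤ L → D.Z0 L β = (ZR 0 0 L β + 3 * ZR 0 3 L β) / 4) ∧
    (∀ k β : ℕ, Even k → D.c k β = ZO (-1) 0 k β) ∧
    (∀ k β : ℕ, Even k → D.c0 k β = (ZO (-1) 0 k β + ZO (-1) 3 k β) / 2) ∧
    (∀ (L : ℕ) (c : ℝ), D.gapR L c → HasSimpleGroundStateWithGap (heisenbergRing L) c) ∧
    (∀ (k : ℕ) (c : ℝ), Odd k → D.gapO k c →
      HasSimpleGroundStateWithGap (openChainEndField (k + 1) (3 / 5)) c)

theorem good_exists : ∃ D : Data, Good D := data_exists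

/-- `ZR 0 0 = Zs 0 0 + 3 Zs 0 3`, `ZR 0 3 = Zs 3 3 + Zs 3 0 + 2 Zs 3 1` (`sum_Zs`, `Zs_0x`, `Zs_31`) -/
theorem mkIR {D : Data} (hD : Good D) {β : ℕ} {M1 y1 M2 y2 M3 y3 M4 y4 M5 y5 : ℚ}
    (h1 : SB 0 0 β M1 y1) (h2 : SB 0 3 β M2 y2) (h3 : SB 3 3 β M3 y3) (h4 : SB 3 0 β M4 y4)
    (h5 : SB 3 1 β M5 y5) :
    D.IR β [(1, M1), (1, y1), (3, M2), (3, y2)]
      [(1 / 4, M1), (1 / 4, y1), (3 / 4, M2), (3 / 4, y2), (3 / 4, M3), (3 / 4, y3), (3 / 4, M4), (3 / 4, y4),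
        (3 / 2, M5), (3 / 2, y5)] := by
  intro L hL h10
  have h2' : 2 ≤ L := by omega
  have a1 := h1 L hL h10
  have a2 := h2 L hL h10
  have a3 := h3 L hL h10
  have a4 := h4 L hL h10
  have a5 := h5 L hL h10
  have e0 := sum_Zs 0 L β
  have e3 := sum_Zs 3 L β
  rw [Fin.sum_univ_four] at e0 e3
  have f1 := Zs_0x 1 (by decide) L h2' β
  have f2 := Zs_0x 2 (by decide) L h2' β
  have f3 := Zs_0x 3 (by decide) L h2' β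
  have g1 := Zs_31 1 (Or.inl rfl) L h2' β
  have g2 := Zs_31 2 (Or.inr rfl) L h2' β
  rw [hD.1 L β h2', hD.2.1 L β h2']
  simp only [evalB, List.map_cons, List.map_nil, List.sum_cons, List.sum_nil]
  push_cast
  constructor <;> linarith

theorem filtA_evalB_append (l l' : List (ℚ × ℚ)) (n : ℕ) :
    evalB (l ++ l') n = evalB l n + evalB l' n := by
  simp [evalB]

theorem filtA_evalB_half (l : List (ℚ × ℚ)) (n : ℕ) :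
    evalB (l.map fun p => (p.1 / 2, p.2)) n = evalB l n / 2 := by
  induction l with
  | nil => simp [evalB]
  | cons a l ih =>
    simp only [evalB, List.map_cons, List.sum_cons] at ih ⊢
    rw [ih]; ring

/-- `ZO (-1) h = cs h 0 + cs h 3` -/
theorem mkIO {D : Data} (hD : Good D) {β k1 k2 k3 k4 : ℕ} {l1 l2 l3 l4 : List (ℚ × ℚ)}
    (h1 : OB 0 0 β k1 l1) (h2 : OB 0 3 β k2 l2) (h3 : OB 3 3 β k3 l3) (h4 : OB 3 0 β k4 l4) (k0 : ℕ)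
    (hc : k1 ≤ k0 ∧ k2 ≤ k0 ∧ k3 ≤ k0 ∧ k4 ≤ k0) :
    D.IOp β k0 (l1 ++ l2) ((l1 ++ l2 ++ l3 ++ l4).map fun p => (p.1 / 2, p.2)) := by
  intro k hk hk0
  have a1 := h1 k hk (hc.1.trans hk0)
  have a2 := h2 k hk (hc.2.1.trans hk0)
  have a3 := h3 k hk (hc.2.2.1.trans hk0)
  have a4 := h4 k hk (hc.2.2.2.trans hk0)
  rw [filtA_cs0] at a1 a4
  rw [filtA_cs3] at a2 a3
  rw [hD.2.2.1 k β hk, hD.2.2.2.1 k β hk, filtA_evalB_half]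
  simp only [filtA_evalB_append]
  push_cast
  constructor <;> linarith

theorem filtA_exp {x r : ℚ} {y : ℝ} {n m : ℕ} (hx : 0 ≤ x) (hr : 0 < r) (hn : n ≠ 0)
    (h : x ^ n * r ^ m ≤ 1) (hy : n * y = m * Real.log r) : (x : ℝ) * Real.exp y ≤ 1 := by
  have hx' : (0 : ℝ) ≤ x := by exact_mod_cast hx
  have hr' : (0 : ℝ) < r := by exact_mod_cast hr
  refine (pow_le_one_iff_of_nonneg (mul_nonneg hx' (Real.exp_pos y).le) hn).1 ?_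
  rw [mul_pow, ← Real.exp_nat_mul, hy, Real.exp_nat_mul, Real.exp_log hr']
  exact_mod_cast h

/-- the two statements from the end of the bootstrap -/
theorem conclude {D : Data} (hD : Good D) {L0 β : ℕ} {z : ℚ}
    (hfin : ∀ c : ℝ, ((25 * z : ℚ) : ℝ) * Real.exp (β * c) ≤ 1 →
      (∀ L', Even L' → L0 ≤ L' → D.gapR L' c) ∧ ∀ k, L0 ≤ k → D.gapO k c)
    (hlow : ∀ L, Even L → 60 ≤ L → L ≤ L0 → D.gapR L (4 / 105 * Real.log (80 / 79)))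
    (hc : L0 ≤ 1919 ∧ 0 ≤ z ∧ (25 * z) ^ 105 * (80 / 79) ^ (4 * β) ≤ 1 ∧ (25 * z) ^ 784 * 20 ^ β ≤ 1 ∧
      (25 * z) ^ 392 * 10 ^ β ≤ 1) :
    ((∀ L : ℕ, Even L → 60 ≤ L →
      HasSimpleGroundStateWithGap (heisenbergRing L) (4 / 105 * Real.log (80 / 79))) ∧
    (∀ L : ℕ, Even L → 2304 ≤ L →
      HasSimpleGroundStateWithGap (heisenbergRing L) (Real.log 20 / 784))) ∧
    ∀ L : ℕ, 960 ≤ L →
      HasSimpleGroundStateWithGap (openChainEndField (2 * L) (3 / 5)) (Real.log 10 / 392) := by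
  obtain ⟨c0, c1, c2, c3, c4⟩ := hc
  have hz : 0 ≤ 25 * z := by positivity
  have f1 := hfin (4 / 105 * Real.log (80 / 79))
    (filtA_exp hz (by norm_num) (by norm_num) c2 (by push_cast; ring))
  have f2 := hfin (Real.log 20 / 784) (filtA_exp hz (by norm_num) (by norm_num) c3 (by push_cast; ring))
  have f3 := hfin (Real.log 10 / 392) (filtA_exp hz (by norm_num) (by norm_num) c4 (by push_cast; ring))
  refine ⟨⟨fun L hL h60 => hD.2.2.2.2.1 L _ ?_, fun L hL h => hD.2.2.2.2.1 L _ (f2.1 L hL (by omega))⟩,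
    fun L h => ?_⟩
  · rcases le_total L L0 with h | h
    · exact hlow L hL h60 h
    · exact f1.1 L hL h
  · obtain ⟨k, hk⟩ : ∃ k, 2 * L = k + 1 := ⟨2 * L - 1, by omega⟩
    rw [hk]
    exact hD.2.2.2.2.2 k _ (Nat.odd_iff.2 (by omega)) (f3.2 k (by omega))

end Crest.Agent.R347
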