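import Crest.Agent.R347.Eng

/-!
# R347: tactics writing out `stepR`, `stepO` as straight-line terms (checked by the kernel against
the recursive definitions), and reflexivity checked by the kernel
-/

set_option autoImplicit false

namespace Crest.Agent.R347

abbrev Ex := Lean.Expr
def vTy (n : ℕ) : Ex := Lean.mkApp (Lean.mkConst ``V) (Lean.mkRawNatLit n)
def pj (i : ℕ) (e : Ex) : Ex := Lean.Expr.proj ``T3 i e
def eadd (a b : Ex) : Ex := Lean.mkApp2 (Lean.mkConst ``Nat.add) a b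
def emul (a : ℕ) (b : Ex) : Ex := Lean.mkApp2 (Lean.mkConst ``Nat.mul) (Lean.mkRawNatLit a) b
def emk (n : ℕ) (a b c : Ex) : Ex := Lean.mkApp4 (Lean.mkConst ``T3.mk) (vTy n) a b c
def ezero (n : ℕ) : Ex := Lean.mkApp (Lean.mkConst ``zeroV) (Lean.mkRawNatLit n)

/-- tree of projection paths -/
inductive PT where
  | leaf : Ex → PT
  | node : Ex → PT → PT → PT → PT

def PT.a : PT → PT | .node _ a _ _ => a | t => t
def PT.b : PT → PT | .node _ _ b _ => b | t => t
def PT.c : PT → PT | .node _ _ _ c => c | t => t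
def PT.e : PT → Ex | .node e _ _ _ => e | .leaf e => e

def mkPT : ℕ → Ex → PT
  | 0, e => .leaf e
  | n + 1, e => .node e (mkPT n (pj 0 e)) (mkPT n (pj 1 e)) (mkPT n (pj 2 e))

def goE (lo hi : ℕ) (fin : ℕ → ℕ → Ex → Ex → Ex → List Ex → Ex) :
    ℕ → ℕ → ℕ → ℕ → PT → PT → PT → PT → PT → PT → PT → List PT → Ex
  | 0, s, dacc, d, self, _, _, _, _, wu1, wd1, oth =>
    if lo ≤ s && s ≤ hi then fin dacc d self.e wu1.e wd1.e (oth.map PT.e) else Lean.mkRawNatLit 0
  | n + 1, s, dacc, d, self, up, dn, wu, wd, _, _, oth =>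
    if lo ≤ s + 2 * (n + 1) && s ≤ hi then
      emk n
        (goE lo hi fin n s (dacc + zz d 0) 0 self.a self.b self.a wu.a wd.a wu.a wd.b
          (consIf (Nat.ble 1 d) dn.b (oth.map PT.a)))
        (goE lo hi fin n (s + 1) (dacc + zz d 1) 1 self.b self.c self.a wu.b wd.b wu.a wd.c
          (consIf (Nat.ble d 1) up.a (consIf (Nat.ble 1 d) dn.c (oth.map PT.b))))
        (goE lo hi fin n (s + 2) (dacc + zz d 2) 2 self.c self.c self.b wu.c wd.c wu.b wd.c
          (consIf (Nat.ble d 1) up.b (oth.map PT.c)))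
    else ezero (n + 1)

def finRE (f dacc d : ℕ) (self wu1 wd1 : Ex) (oth : List Ex) : Ex :=
  (consIf (Nat.ble f 1 && Nat.ble 1 d) wu1 (consIf (Nat.ble 1 f && Nat.ble d 1) wd1 oth)).foldl eadd
    (emul (dacc + zz f d) self)

def sheetE (lo hi n : ℕ) (p q : PT) : Ex :=
  emk n (goE lo hi (finRE 0) n 0 0 0 p.a p.b p.a q.b q.a q.a q.a [])
    (goE lo hi (finRE 1) n 1 0 1 p.b p.c p.a q.c q.a q.a q.a [])
    (goE lo hi (finRE 2) n 2 0 2 p.c p.c p.b q.c q.b q.a q.a [])

def stepRE (n lo hi : ℕ) : Ex :=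
  let p := mkPT (n + 1) (pj 0 (Lean.mkBVar 0))
  let q := mkPT (n + 1) (pj 1 (Lean.mkBVar 0))
  Lean.mkLambda `t .default (vTy (n + 2))
    (emk (n + 1) (sheetE lo hi n p q) (sheetE lo hi n q p) (ezero (n + 1)))

def finOE (e dacc d : ℕ) (self _wu1 _wd1 : Ex) (oth : List Ex) : Ex :=
  eadd (emul (5 * dacc + 3 * (e + d)) self) (emul 5 (oth.foldl eadd (Lean.mkRawNatLit 0)))

def stepOE (n : ℕ) (s : Bool) (lo hi : ℕ) : Ex :=
  let t := mkPT (n + 1) (Lean.mkBVar 0)
  Lean.mkLambda `t .default (vTy (n + 1))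
    (emk n (goE lo hi (finOE (if s then 0 else 2)) n 0 0 0 t.a t.b t.a t.a t.a t.a t.a [])
      (goE lo hi (finOE 1) n 1 0 1 t.b t.c t.a t.a t.a t.a t.a [])
      (goE lo hi (finOE (if s then 2 else 0)) n 2 0 2 t.c t.c t.b t.a t.a t.a t.a []))

/-- closes the goal `V (n+2) → V (n+2)` with the written-out ring step -/
elab "gen_ring " n:num lo:num hi:num : tactic => do
  let g ← Lean.Elab.Tactic.getMainGoal
  g.assign (stepRE n.getNat lo.getNat hi.getNat)

/-- closes the goal `V (n+1) → V (n+1)` with the written-out chain step (`s = 1`: field `+`) -/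
elab "gen_open " n:num s:num lo:num hi:num : tactic => do
  let g ← Lean.Elab.Tactic.getMainGoal
  g.assign (stepOE n.getNat (s.getNat == 1) lo.getNat hi.getNat)

/-- closes `a = b` with `Eq.refl a`; the kernel checks the conversion -/
elab "kernel_rfl" : tactic => do
  let g ← Lean.Elab.Tactic.getMainGoal
  let t ← Lean.instantiateMVars (← g.getType)
  let some (_, a, _) := t.eq? | Lean.throwError "not an equation"
  g.assign (← Lean.Meta.mkEqRefl a)

end Crest.Agent.R347
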