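import Mathlib
import Crest.Prelude.Def_SpinChain

/-!
# R347 (Haldane gap): real-matrix model, twisted partition functions

All matrices are real.  Basis index `0,1,2` carries `m = 1,0,-1`.
`Cm 0 = S^x`, `Cm 1 = i S^y` (real antisymmetric), `Cm 2 = S^z`, `S·S = ∑ a, eps a • Cm a ⊗ Cm a`.
`Fin 4` is the Klein four group `{0 = e, 1 = x, 2 = y, 3 = z}`; `chr` is its character table, `Vm g` the
rotation by `π` about the axis `g`; `Vm g * Cm a * Vm g = chr g a.succ • Cm a`.
-/

set_option autoImplicit false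

namespace Crest.Agent.R347

open Matrix

abbrev Cfg (L : ℕ) := Fin L → Fin 3
abbrev M3 := Matrix (Fin 3) (Fin 3) ℝ
abbrev Op (L : ℕ) := Matrix (Cfg L) (Cfg L) ℝ

noncomputable def Cm : Fin 3 → M3 :=
  ![(1 / Real.sqrt 2) • !![0, 1, 0; 1, 0, 1; 0, 1, 0],
    (1 / Real.sqrt 2) • !![0, 1, 0; -1, 0, 1; 0, -1, 0],
    !![1, 0, 0; 0, 0, 0; 0, 0, -1]]

def eps : Fin 3 → ℝ := ![1, -1, 1]

/-- character table of the Klein four group -/
def chr (g a : Fin 4) : ℝ := if g = 0 ∨ a = 0 ∨ g = a then 1 else -1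

def Vm : Fin 4 → M3 :=
  ![1, !![0, 0, -1; 0, -1, 0; -1, 0, 0], !![0, 0, 1; 0, -1, 0; 1, 0, 0], !![-1, 0, 0; 0, 1, 0; 0, 0, -1]]

/-- tensor product of one-site matrices -/
def tens {L : ℕ} (A : Fin L → M3) : Op L := Matrix.of fun σ τ => ∏ j, A j (σ j) (τ j)

/-- a one-site matrix at site `j` -/
def onS {L : ℕ} (A : M3) (j : Fin L) : Op L :=
  Matrix.of fun σ τ => if (∀ k, k ≠ j → σ k = τ k) then A (σ j) (τ j) else 0

/-- the exchange bond twisted by `g` -/
noncomputable def bondR {L : ℕ} (g : Fin 4) (i j : Fin L) : Op L :=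
  ∑ a : Fin 3, (chr g a.succ * eps a) • (onS (Cm a) i * onS (Cm a) j)

/-- the ring with twist `g` on the bond `(L-1, 0)` -/
noncomputable def HR (L : ℕ) (g : Fin 4) : Op L :=
  ∑ j : Fin L, bondR (if j.val + 1 = L then g else 0) j (finRotate L j)

/-- the chain with free ends on `n + 1` sites, fields `(s, +)` -/
noncomputable def HO (n : ℕ) (s : ℝ) : Op (n + 1) :=
  (∑ j : Fin n, bondR 0 (Fin.castSucc j) (Fin.succ j)) -
    (3 / 5 : ℝ) • (s • onS (Cm 2) (0 : Fin (n + 1)) + onS (Cm 2) (Fin.last n))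

/-- global rotation by `π` about the axis `h` -/
def VV (L : ℕ) (h : Fin 4) : Op L := tens fun _ => Vm h

/-- variational energy per site -/
def e0q : ℚ := -1401478 / 1000000
/-- variational boundary energy (convention `E ≤ k e0 + eb0`, `k + 2` sites) -/
def eb0q : ℚ := -23986 / 10000

noncomputable def e0 : ℝ := (e0q : ℝ)
noncomputable def eb0 : ℝ := (eb0q : ℝ)

/-- normalised ring Hamiltonian -/
noncomputable def HRn (L : ℕ) (g : Fin 4) : Op L := HR L g - ((L : ℝ) * e0) • (1 : Op L)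

/-- normalised chain Hamiltonian on `k + 2` sites -/
noncomputable def HOn (k : ℕ) (s : ℝ) : Op (k + 2) :=
  HO (k + 1) s - ((k : ℝ) * e0 + eb0) • (1 : Op (k + 2))

/-- torus partition function with twist `g` in space and `h` in time -/
noncomputable def ZR (g h : Fin 4) (L : ℕ) (β : ℝ) : ℝ :=
  trace (VV L h * NormedSpace.exp ((-β) • HRn L g))

/-- strip partition function on `k + 2` sites, time twist `h` -/
noncomputable def ZO (s : ℝ) (h : Fin 4) (k : ℕ) (β : ℝ) : ℝ :=
  trace (VV (k + 2) h * NormedSpace.exp ((-β) • HOn k s))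

/-- sector `σ` of the spatial transfer operator with time twist `h` -/
noncomputable def Zs (h σ : Fin 4) (L : ℕ) (β : ℝ) : ℝ :=
  (1 / 4 : ℝ) * ∑ g : Fin 4, chr σ g * ZR g h L β

/-- boundary-vector moments in sector `σ` (meaningful for `h = 0, 3`) -/
noncomputable def cs (h σ : Fin 4) (k : ℕ) (β : ℝ) : ℝ :=
  if σ = 0 then (ZO (-1) h k β + ZO 1 h k β) / 2
  else if σ = 3 then (ZO (-1) h k β - ZO 1 h k β) / 2 else 0

/-- the favourable left field: `-1` for even `k`, `+1` for odd `k` -/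
def fav (k : ℕ) : ℝ := if Even k then -1 else 1

/-- digit sum of a configuration (`m = L - ds σ`) -/
def ds {L : ℕ} (σ : Cfg L) : ℕ := ∑ j, (σ j).val

/-- projection on the configurations whose digit sum satisfies `S` -/
def PS (L : ℕ) (S : ℕ → Bool) : Op L := diagonal fun σ => if S (ds σ) then 1 else 0

/-- `P` is an orthogonal projection commuting with `H` -/
structure IsProj {n : Type} [Fintype n] [DecidableEq n] (H P : Matrix n n ℝ) : Prop where
  symm : Pᵀ = P
  idem : P * P = P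
  comm : P * H = H * P

end Crest.Agent.R347
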