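import Mathlib.Tactic

/-!
# R347 engine: kernel-friendly iteration of the integer matrices `H + L` (double cover of the ring)
and `5 H + 5 n + 6` (chain) on packed columns

Rows are stored in a ternary tree, site `0` is the top digit (below the sheet digit for the ring).
All definitions use raw recursors; their equations hold by `rfl`.
-/

set_option autoImplicit false

namespace Crest.Agent.R347

structure T3 (α : Type) where
  a : α
  b : α
  c : α

/-- complete ternary tree of depth `n` with natural leaves -/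
def V (n : ℕ) : Type := Nat.rec (motive := fun _ => Type) ℕ (fun _ T => T3 T) n

def child {α : Type} (t : T3 α) (d : ℕ) : α :=
  Bool.rec (Bool.rec t.c t.b (Nat.beq d 1)) t.a (Nat.beq d 0)

def hdN (l : List ℕ) : ℕ := List.rec (motive := fun _ => ℕ) 0 (fun a _ _ => a) l
def tlN (l : List ℕ) : List ℕ := List.rec (motive := fun _ => List ℕ) [] (fun _ t _ => t) l

/-- the leaf at the path `l` -/
def getL (n : ℕ) : V n → List ℕ → ℕ :=
  Nat.rec (motive := fun n => V n → List ℕ → ℕ) (fun t _ => t)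
    (fun _ ih t l => ih (child t (hdN l)) (tlN l)) n

def zeroV (n : ℕ) : V n :=
  Nat.rec (motive := fun n => V n) (0 : ℕ) (fun _ ih => T3.mk ih ih ih) n

/-- add `z` to the leaf at the path `l` -/
def addAt (n : ℕ) : V n → List ℕ → ℕ → V n :=
  Nat.rec (motive := fun n => V n → List ℕ → ℕ → V n) (fun t _ z => Nat.add t z)
    (fun _ ih t l z =>
      Bool.rec (Bool.rec (T3.mk t.a t.b (ih t.c (tlN l) z)) (T3.mk t.a (ih t.b (tlN l) z) t.c)
        (Nat.beq (hdN l) 1)) (T3.mk (ih t.a (tlN l) z) t.b t.c) (Nat.beq (hdN l) 0)) n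

def mapP {α β : Type} (p : α → β) (l : List α) : List β :=
  List.rec (motive := fun _ => List β) [] (fun y _ ih => p y :: ih) l

def consIf {α : Type} (b : Bool) (y : α) (l : List α) : List α := Bool.rec l (y :: l) b

def sumL (l : List ℕ) : ℕ → ℕ :=
  List.rec (motive := fun _ => ℕ → ℕ) (fun acc => acc) (fun y _ ih acc => ih (Nat.add acc y)) l

/-- `1 + (1 - d) (1 - e)` -/
def zz (d e : ℕ) : ℕ := Nat.sub (Nat.add 2 (Nat.mul d e)) (Nat.add d e)

/-- One matrix-vector product below a prefix: `s` digit sum and `dacc` diagonal so far, `d` the last digit,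
`self` the input subtree at the prefix, `up` / `dn` at the prefix with last digit `d+1` / `d-1`,
`wu` / `wd` the other sheet at the prefix with first digit raised / lowered, `wu1` / `wd1` the same with
the last digit lowered / raised, `oth` the subtrees reached by the hops inside the prefix. -/
def go (lo hi : ℕ) (fin : ℕ → ℕ → ℕ → ℕ → ℕ → List ℕ → ℕ) (n : ℕ) :
    ℕ → ℕ → ℕ → V n → V n → V n → V n → V n → V n → V n → List (V n) → V n :=
  Nat.rec (motive := fun n => ℕ → ℕ → ℕ → V n → V n → V n → V n → V n → V n → V n → List (V n) → V n)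
    (fun s dacc d self _ _ _ _ wu1 wd1 oth =>
      Bool.rec (0 : ℕ) (fin dacc d self wu1 wd1 oth) (Nat.ble lo s && Nat.ble s hi))
    (fun n ih s dacc d self up dn wu wd _ _ oth =>
      Bool.rec (zeroV (n + 1))
        (T3.mk
          (ih s (Nat.add dacc (zz d 0)) 0 self.a self.b self.a wu.a wd.a wu.a wd.b
            (consIf (Nat.ble 1 d) dn.b (mapP T3.a oth)))
          (ih (Nat.add s 1) (Nat.add dacc (zz d 1)) 1 self.b self.c self.a wu.b wd.b wu.a wd.c
            (consIf (Nat.ble d 1) up.a (consIf (Nat.ble 1 d) dn.c (mapP T3.b oth))))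
          (ih (Nat.add s 2) (Nat.add dacc (zz d 2)) 2 self.c self.c self.b wu.c wd.c wu.b wd.c
            (consIf (Nat.ble d 1) up.b (mapP T3.c oth))))
        (Nat.ble lo (Nat.add s (Nat.mul 2 (n + 1))) && Nat.ble s hi)) n

def finR (f dacc d self wu1 wd1 : ℕ) (oth : List ℕ) : ℕ :=
  sumL (consIf (Nat.ble f 1 && Nat.ble 1 d) wu1 (consIf (Nat.ble 1 f && Nat.ble d 1) wd1 oth))
    (Nat.mul (Nat.add dacc (zz f d)) self)

def sheet (lo hi n : ℕ) (p q : T3 (V n)) : T3 (V n) :=
  T3.mk (go lo hi (finR 0) n 0 0 0 p.a p.b p.a q.b q.a q.a q.a [])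
    (go lo hi (finR 1) n 1 0 1 p.b p.c p.a q.c q.a q.a q.a [])
    (go lo hi (finR 2) n 2 0 2 p.c p.c p.b q.c q.b q.a q.a [])

/-- ring with `n + 1` sites, rows with digit sum in `[lo, hi]`, top digit = sheet -/
def stepR (n lo hi : ℕ) (t : V (n + 2)) : V (n + 2) :=
  T3.mk (sheet lo hi n t.a t.b) (sheet lo hi n t.b t.a) (zeroV (n + 1))

/-- `e = 1 - s m₀` is the field term of the first site -/
def finO (e dacc d self _wu1 _wd1 : ℕ) (oth : List ℕ) : ℕ :=
  Nat.add (Nat.mul (Nat.add (Nat.mul 5 dacc) (Nat.mul 3 (Nat.add e d))) self) (Nat.mul 5 (sumL oth 0))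

/-- chain with `n + 1` sites; `s = true`: left field `+`, `s = false`: left field `-` -/
def stepO (n : ℕ) (s : Bool) (lo hi : ℕ) (t : V (n + 1)) : V (n + 1) :=
  T3.mk (go lo hi (finO (Bool.rec 2 0 s)) n 0 0 0 t.a t.b t.a t.a t.a t.a t.a [])
    (go lo hi (finO 1) n 1 0 1 t.b t.c t.a t.a t.a t.a t.a [])
    (go lo hi (finO (Bool.rec 0 2 s)) n 2 0 2 t.c t.c t.b t.a t.a t.a t.a [])

/-- the `L` ternary digits of `x`, most significant first -/
def digs (L : ℕ) : ℕ → List ℕ → List ℕ :=
  Nat.rec (motive := fun _ => ℕ → List ℕ → List ℕ) (fun _ acc => acc)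
    (fun _ ih x acc => ih (Nat.div x 3) (Nat.mod x 3 :: acc)) L

/-- columns: path and weight -/
abbrev Cols := List (List ℕ × ℕ)

/-- packed initial vector: column number `i` gets `2^(W i)` -/
def initV (D W : ℕ) (cols : Cols) : ℕ → V D :=
  List.rec (motive := fun _ => ℕ → V D) (fun _ => zeroV D)
    (fun c _ ih i => addAt D (ih (Nat.succ i)) c.1 (Nat.pow 2 (Nat.mul W i))) cols

/-- weighted sum of the `W`-bit fields -/
def extr (D W : ℕ) (v : V D) (cols : Cols) : ℕ → ℕ :=
  List.rec (motive := fun _ => ℕ → ℕ) (fun _ => 0)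
    (fun c _ ih i => Nat.add (Nat.mul c.2
      (Nat.mod (Nat.shiftRight (getL D v c.1) (Nat.mul W i)) (Nat.pow 2 W))) (ih (Nat.succ i))) cols

def loop {D : ℕ} (step : V D → V D) (W : ℕ) (tgs : List Cols) (K : ℕ) : V D → List (List ℕ) :=
  Nat.rec (motive := fun _ => V D → List (List ℕ)) (fun _ => [])
    (fun _ ih v => mapP (fun cs => extr D W v cs 0) tgs :: ih (step v)) K

def mkCols (L : ℕ) (cols : List (ℕ × ℕ)) : Cols := mapP (fun c => (digs L c.1 [], c.2)) cols
def onSheet (sh : ℕ) (cs : Cols) : Cols := mapP (fun c => (sh :: c.1, c.2)) cs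
def flipCols (cs : Cols) : Cols := mapP (fun c => (mapP (Nat.sub 2) c.1, c.2)) cs

def run2 {D : ℕ} (st : V D → V D) (W K : ℕ) (c0 c1 : Cols) : List (List ℕ) :=
  loop st W [c0, c1] K (initV D W c0 0)

def run4 {D : ℕ} (st : V D → V D) (W K : ℕ) (c0 c1 c2 c3 : Cols) : List (List ℕ) :=
  loop st W [c0, c1, c2, c3] K (initV D W c0 0)

def runR2' (n : ℕ) (st : V (n + 2) → V (n + 2)) (W K : ℕ) (cs : Cols) : List (List ℕ) :=
  run2 st W K (onSheet 0 cs) (onSheet 1 cs)

def runR4' (n : ℕ) (st : V (n + 2) → V (n + 2)) (W K : ℕ) (cs : Cols) : List (List ℕ) :=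
  run4 st W K (onSheet 0 cs) (onSheet 1 cs) (onSheet 0 (flipCols cs)) (onSheet 1 (flipCols cs))

/-- rows `[P, N]` -/
def runR2 (n : ℕ) (st : V (n + 2) → V (n + 2)) (W K : ℕ) (cols : List (ℕ × ℕ)) : List (List ℕ) :=
  runR2' n st W K (mkCols (n + 1) cols)

/-- rows `[P, N, PF, NF]` -/
def runR4 (n : ℕ) (st : V (n + 2) → V (n + 2)) (W K : ℕ) (cols : List (ℕ × ℕ)) : List (List ℕ) :=
  runR4' n st W K (mkCols (n + 1) cols)

def runO' {D : ℕ} (st : V D → V D) (W K : ℕ) (cs : Cols) : List (List ℕ) :=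
  loop st W [cs] K (initV D W cs 0)

/-- rows `[P]` -/
def runO (n : ℕ) (st : V (n + 1) → V (n + 1)) (W K : ℕ) (cols : List (ℕ × ℕ)) : List (List ℕ) :=
  runO' st W K (mkCols (n + 1) cols)

def beqL (l : List ℕ) : List ℕ → Bool :=
  List.rec (motive := fun _ => List ℕ → Bool) (fun m => m.isEmpty)
    (fun a _ ih m => List.rec (motive := fun _ => Bool) false
      (fun b t _ => Nat.beq a b && ih t) m) l

def beqLL (l : List (List ℕ)) : List (List ℕ) → Bool :=
  List.rec (motive := fun _ => List (List ℕ) → Bool) (fun m => m.isEmpty)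
    (fun a _ ih m => List.rec (motive := fun _ => Bool) false
      (fun b t _ => beqL a b && ih t) m) l

/-- all columns have digit sum in `[lo, hi]` -/
def colsOk (L lo hi : ℕ) (cols : List (ℕ × ℕ)) : Bool :=
  cols.all fun c => Nat.ble lo (sumL (digs L c.1 []) 0) && Nat.ble (sumL (digs L c.1 []) 0) hi

end Crest.Agent.R347
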