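import Crest.Agent.R347.EngS2

/-!
# R347 engine: the output of a run
-/

set_option autoImplicit false

namespace Crest.Agent.R347

open Matrix

/-- weighted diagonal entries of the powers -/
def CR {N : ℕ} (X : Op N) (cols : List (ℕ × ℕ)) (mu : List ℤ) : Prop :=
  ∀ k, k < mu.length →
    (cols.map fun c => (c.2 : ℝ) * (X ^ k) (cfgOf N c.1) (cfgOf N c.1)).sum = (mu.getD k 0 : ℤ)

/-- weighted entries between a column and its flip -/
def CF {N : ℕ} (X : Op N) (cols : List (ℕ × ℕ)) (mu : List ℤ) : Prop :=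
  ∀ k, k < mu.length →
    (cols.map fun c => (c.2 : ℝ) * (X ^ k) (flipC (cfgOf N c.1)) (cfgOf N c.1)).sum = (mu.getD k 0 : ℤ)

/-- `o i + e * o j` in every row -/
def comb (i j : ℕ) (e : ℤ) (out : List (List ℕ)) : List ℤ :=
  out.map fun o => (o.getD i 0 : ℤ) + e * (o.getD j 0 : ℤ)

def addZ (a b : List ℤ) : List ℤ := List.zipWith (· + ·) a b

theorem engR_addZ (m1 m2 : List ℤ) (k : ℕ) (hk : k < (addZ m1 m2).length) :
    k < m1.length ∧ k < m2.length ∧ (addZ m1 m2).getD k 0 = m1.getD k 0 + m2.getD k 0 := by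
  have hk' := hk
  rw [addZ, List.length_zipWith, lt_min_iff] at hk'
  refine ⟨hk'.1, hk'.2, ?_⟩
  rw [List.getD_eq_getElem _ _ hk, List.getD_eq_getElem _ _ hk'.1, List.getD_eq_getElem _ _ hk'.2]
  simp [addZ]

theorem CR.append {N : ℕ} {X : Op N} {c1 c2 : List (ℕ × ℕ)} {m1 m2 : List ℤ} (h1 : CR X c1 m1)
    (h2 : CR X c2 m2) : CR X (c1 ++ c2) (addZ m1 m2) := by
  intro k hk
  obtain ⟨a, b, c⟩ := engR_addZ m1 m2 k hk
  rw [List.map_append, List.sum_append, h1 k a, h2 k b, c, Int.cast_add]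

theorem CF.append {N : ℕ} {X : Op N} {c1 c2 : List (ℕ × ℕ)} {m1 m2 : List ℤ} (h1 : CF X c1 m1)
    (h2 : CF X c2 m2) : CF X (c1 ++ c2) (addZ m1 m2) := by
  intro k hk
  obtain ⟨a, b, c⟩ := engR_addZ m1 m2 k hk
  rw [List.map_append, List.sum_append, h1 k a, h2 k b, c, Int.cast_add]

theorem engR_beqL (a b : List ℕ) (h : beqL a b = true) : a = b := by
  induction a generalizing b with
  | nil =>
    cases b with
    | nil => rfl
    | cons y t => exact absurd h (by simp [beqL])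
  | cons x s ih =>
    cases b with
    | nil => exact absurd h (by simp [beqL])
    | cons y t =>
      have h' : (Nat.beq x y && beqL s t) = true := h
      rw [Bool.and_eq_true] at h'
      rw [Nat.eq_of_beq_eq_true h'.1, ih t h'.2]

theorem beqLL_eq (a b : List (List ℕ)) (h : beqLL a b = true) : a = b := by
  induction a generalizing b with
  | nil =>
    cases b with
    | nil => rfl
    | cons y t => exact absurd h (by simp [beqLL])
  | cons x s ih =>
    cases b with
    | nil => exact absurd h (by simp [beqLL])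
    | cons y t =>
      have h' : (beqL x y && beqLL s t) = true := h
      rw [Bool.and_eq_true] at h'
      rw [engR_beqL x y h'.1, ih t h'.2]

/-- packed sum of the column values -/
def engPk {R : Type} [Semiring R] (W : ℕ) (g : ℕ × ℕ → R) : List (ℕ × ℕ) → R
  | [] => 0
  | c :: l => g c + 2 ^ W * engPk W g l

theorem engR_mapP {α β : Type} (p : α → β) (l : List α) : mapP p l = l.map p := by
  induction l with
  | nil => rfl
  | cons a l ih =>
    show p a :: mapP p l = _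
    rw [ih, List.map_cons]

theorem engPk_cast (W : ℕ) (g : ℕ × ℕ → ℕ) (l : List (ℕ × ℕ)) :
    ((engPk W g l : ℕ) : ℝ) = engPk W (fun c => (g c : ℝ)) l := by
  induction l with
  | nil => simp [engPk]
  | cons a l ih => simp [engPk, ih]

theorem engPk_congr {W : ℕ} {g g' : ℕ × ℕ → ℝ} {l : List (ℕ × ℕ)} (h : ∀ c ∈ l, g c = g' c) :
    engPk W g l = engPk W g' l := by
  induction l with
  | nil => rfl
  | cons a l ih =>
    rw [engPk, engPk, h a List.mem_cons_self, ih fun c hc => h c (List.mem_cons_of_mem _ hc)]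

theorem engPk_lin (W : ℕ) (g g' : ℕ × ℕ → ℝ) (e : ℝ) (l : List (ℕ × ℕ)) :
    engPk W (fun c => g c + e * g' c) l = engPk W g l + e * engPk W g' l := by
  induction l with
  | nil => simp [engPk]
  | cons a l ih =>
    rw [engPk, engPk, engPk, ih]
    ring

theorem engPk_field (W : ℕ) (g : ℕ × ℕ → ℕ) (pre post : List (ℕ × ℕ)) (c : ℕ × ℕ)
    (h : ∀ a ∈ pre ++ c :: post, g a < 2 ^ W) :
    engPk W g (pre ++ c :: post) / 2 ^ (W * pre.length) % 2 ^ W = g c := by
  induction pre with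
  | nil =>
    rw [List.nil_append, engPk, List.length_nil, mul_zero, pow_zero, Nat.div_one,
      Nat.add_mul_mod_self_left, Nat.mod_eq_of_lt (h c (by simp))]
  | cons a pre ih =>
    rw [List.cons_append, engPk, List.length_cons, mul_add, mul_one, pow_add, mul_comm _ (2 ^ W),
      ← Nat.div_div_eq_div_mul, Nat.add_mul_div_left _ _ (by positivity),
      Nat.div_eq_of_lt (h a (by simp)), zero_add]
    exact ih fun b hb => h b (by rw [List.cons_append]; exact List.mem_cons_of_mem _ hb)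

theorem engR_extr' (D W : ℕ) (v : V D) (path : ℕ × ℕ → List ℕ) (G : ℕ × ℕ → ℕ × ℕ → ℕ)
    (post pre : List (ℕ × ℕ)) (hG : ∀ c, ∀ c' ∈ pre ++ post, G c c' < 2 ^ W)
    (hv : ∀ c, getL D v (path c) = engPk W (G c) (pre ++ post)) :
    extr D W v (post.map fun c => (path c, c.2)) pre.length = (post.map fun c => c.2 * G c c).sum := by
  induction post generalizing pre with
  | nil => rfl
  | cons c post ih =>
    have h1 := ih (pre ++ [c]) (by simpa using hG) (by simpa using hv)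
    rw [List.length_append, List.length_singleton] at h1
    show c.2 * ((getL D v (path c)) >>> (W * pre.length) % 2 ^ W)
      + extr D W v (post.map fun c => (path c, c.2)) (pre.length + 1) = _
    rw [h1, hv, Nat.shiftRight_eq_div_pow, engPk_field W (G c) pre post c (hG c), List.map_cons,
      List.sum_cons]

theorem engR_extr (D W : ℕ) (v : V D) (path : ℕ × ℕ → List ℕ) (G : ℕ × ℕ → ℕ × ℕ → ℕ)
    (cols : List (ℕ × ℕ)) (hG : ∀ c, ∀ c' ∈ cols, G c c' < 2 ^ W)
    (hv : ∀ c, getL D v (path c) = engPk W (G c) cols) :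
    (extr D W v (cols.map fun c => (path c, c.2)) 0 : ℝ)
      = (cols.map fun c => (c.2 : ℝ) * (G c c : ℝ)).sum := by
  have h := engR_extr' D W v path G cols [] hG hv
  rw [List.length_nil] at h
  rw [h, Nat.cast_list_sum, List.map_map]
  congr 1
  refine List.map_congr_left fun c _ => ?_
  simp

theorem engR_loop {D : ℕ} (st : V D → V D) (W : ℕ) (tgs : List Cols) (K : ℕ) (v : V D) :
    loop st W tgs K v = (List.range K).map fun k => tgs.map fun cs => extr D W (st^[k] v) cs 0 := by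
  induction K generalizing v with
  | zero => rfl
  | succ K ih =>
    show mapP (fun cs => extr D W v cs 0) tgs :: loop st W tgs K (st v) = _
    rw [ih, engR_mapP, List.range_succ_eq_map, List.map_cons, List.map_map]
    rfl

theorem engR_comb (i j : ℕ) (e : ℤ) (K : ℕ) (F : ℕ → List ℕ) (k : ℕ)
    (hk : k < (comb i j e ((List.range K).map F)).length) :
    k < K ∧ (((comb i j e ((List.range K).map F)).getD k 0 : ℤ) : ℝ)
      = ((F k).getD i 0 : ℝ) + e * ((F k).getD j 0 : ℝ) := by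
  have hk' : k < K := by simpa [comb] using hk
  refine ⟨hk', ?_⟩
  rw [List.getD_eq_getElem _ _ hk]
  simp [comb]

theorem engR_init (L W : ℕ) (cols : List (ℕ × ℕ)) (i : ℕ) (σ : Cfg L) :
    (getC L (initV L W (mkCols L cols) i) σ : ℝ)
      = 2 ^ (W * i) * engPk W (fun c => if σ = cfgOf L c.1 then 1 else 0) cols := by
  induction cols generalizing i with
  | nil =>
    show (getC L (zeroV L) σ : ℝ) = _
    simp [getC_zeroV, engPk]
  | cons c cols ih =>
    show (getC L (addAt L (initV L W (mkCols L cols) (i + 1)) (digs L c.1 []) (2 ^ (W * i))) σ : ℝ) = _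
    rw [getC_addAt, Nat.cast_add, ih, engPk, ← cfgOf]
    split_ifs
    · push_cast
      ring
    · push_cast
      ring

theorem engR_init2 (L W : ℕ) (cs : Cols) (i : ℕ) :
    initV (L + 1) W (onSheet 0 cs) i = T3.mk (initV L W cs i) (zeroV L) (zeroV L) := by
  induction cs generalizing i with
  | nil => rfl
  | cons c cs ih =>
    show addAt (L + 1) (initV (L + 1) W (onSheet 0 cs) (i + 1)) (0 :: c.1) (2 ^ (W * i)) = _
    rw [ih]
    rfl

theorem engR_mulVec {L : ℕ} (A : Op L) (W : ℕ) (cols : List (ℕ × ℕ)) (σ : Cfg L) :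
    (A *ᵥ fun τ => engPk W (fun c => if τ = cfgOf L c.1 then 1 else 0) cols) σ
      = engPk W (fun c => A σ (cfgOf L c.1)) cols := by
  induction cols with
  | nil => simp [engPk, mulVec, dotProduct]
  | cons c cols ih =>
    rw [engPk, ← ih]
    simp only [engPk, mulVec, dotProduct, mul_add, Finset.sum_add_distrib, mul_ite, mul_one, mul_zero,
      Finset.sum_ite_eq', Finset.mem_univ, if_true, Finset.mul_sum]
    congr 1
    exact Finset.sum_congr rfl fun _ _ => by ring

theorem engR_pow {L lo hi : ℕ} {X : Op L} (h : IsProj X (PI L lo hi)) (k : ℕ) (σ τ : Cfg L)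
    (hτ : lo ≤ ds τ ∧ ds τ ≤ hi) : ((PI L lo hi * X) ^ k) σ τ = (X ^ k) σ τ := by
  have h1 : (PI L lo hi * X) ^ k * PI L lo hi = X ^ k * PI L lo hi := by
    induction k with
    | zero => rfl
    | succ k ih =>
      rw [pow_succ, pow_succ, ← mul_assoc, ih, mul_assoc, mul_assoc, ← mul_assoc (PI L lo hi), h.comm,
        mul_assoc X, h.idem, mul_assoc]
  have h2 := congrFun (congrFun h1 σ) τ
  simpa [PI, mul_diagonal, hτ] using h2

theorem engR_ok {L lo hi : ℕ} {cols : List (ℕ × ℕ)} (h : colsOk L lo hi cols = true) :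
    ∀ c ∈ cols, lo ≤ ds (cfgOf L c.1) ∧ ds (cfgOf L c.1) ≤ hi := by
  intro c hc
  have := List.all_eq_true.1 h c hc
  rw [ds_cfgOf]
  simpa [Nat.ble_eq] using this

theorem engR_lt {R W K k x : ℕ} (hR : 1 < R) (hW : R ^ K ≤ 2 ^ W) (hk : k < K)
    (hx : (x : ℝ) ≤ (R : ℝ) ^ k) : x < 2 ^ W := by
  have h1 : x ≤ R ^ k := by exact_mod_cast hx
  exact (h1.trans_lt (Nat.pow_lt_pow_right hR hk)).trans_le hW

theorem engR_iterR (n lo hi W : ℕ) (hn : 1 ≤ n) (g : Fin 4) (e : ℝ)
    (hg : (g = 0 ∧ e = 1) ∨ (g = 3 ∧ e = -1)) (cols : List (ℕ × ℕ))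
    (hc : ∀ c ∈ cols, lo ≤ ds (cfgOf (n + 1) c.1) ∧ ds (cfgOf (n + 1) c.1) ≤ hi) (k : ℕ)
    (v : V (n + 2))
    (hv : v = (stepR n lo hi)^[k] (initV (n + 2) W (onSheet 0 (mkCols (n + 1) cols)) 0))
    (σ : Cfg (n + 1)) :
    (getC (n + 1) v.a σ : ℝ) + e * (getC (n + 1) v.b σ : ℝ)
      = engPk W (fun c => (XR (n + 1) g ^ k) σ (cfgOf (n + 1) c.1)) cols := by
  have h1 : (fun σ => (getC (n + 1) v.a σ : ℝ) + e * (getC (n + 1) v.b σ : ℝ))
      = (PI (n + 1) lo hi * XR (n + 1) g) ^ k *ᵥ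
        fun τ => engPk W (fun c => if τ = cfgOf (n + 1) c.1 then 1 else 0) cols := by
    subst hv
    induction k with
    | zero =>
      funext τ
      rw [Function.iterate_zero_apply, engR_init2, pow_zero, one_mulVec]
      show (getC (n + 1) (initV (n + 1) W (mkCols (n + 1) cols) 0) τ : ℝ)
        + e * (getC (n + 1) (zeroV (n + 1)) τ : ℝ) = _
      rw [engR_init, getC_zeroV]
      simp
    | succ k ih =>
      funext τ
      rw [Function.iterate_succ_apply', stepR_spec n lo hi hn _ g e hg, ih, mulVec_mulVec, ← pow_succ']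
  have hP : IsProj (XR (n + 1) g) (PI (n + 1) lo hi) := by
    have := isProj_PI_R (n + 1) (by omega) g (by tauto) lo hi
    refine ⟨this.symm, this.idem, ?_⟩
    rw [XR, mul_add, add_mul, Matrix.mul_smul, Matrix.smul_mul, this.comm, Matrix.mul_smul,
      Matrix.smul_mul, Matrix.mul_one, Matrix.one_mul]
  rw [congrFun h1 σ, engR_mulVec]
  exact engPk_congr fun c hcc => engR_pow hP k σ _ (hc c hcc)

/-- the two sheets after `k` steps are packed sums of small numbers -/
theorem engR_ring (n lo hi W K : ℕ) (cols : List (ℕ × ℕ))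
    (hc : (Nat.ble 1 n && Nat.ble ((2 * (n + 1)) ^ K) (2 ^ W) && colsOk (n + 1) lo hi cols) = true)
    (k : ℕ) (hk : k < K) (v : V (n + 2))
    (hv : v = (stepR n lo hi)^[k] (initV (n + 2) W (onSheet 0 (mkCols (n + 1) cols)) 0)) :
    ∃ P N : Cfg (n + 1) → ℕ × ℕ → ℕ,
      (∀ σ, getC (n + 1) v.a σ = engPk W (P σ) cols) ∧ (∀ σ, getC (n + 1) v.b σ = engPk W (N σ) cols) ∧
      (∀ σ, ∀ c ∈ cols, P σ c < 2 ^ W) ∧ (∀ σ, ∀ c ∈ cols, N σ c < 2 ^ W) ∧
      (∀ σ, ∀ c ∈ cols, (P σ c : ℝ) + 1 * N σ c = (XR (n + 1) 0 ^ k) σ (cfgOf (n + 1) c.1)) ∧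
      (∀ σ, ∀ c ∈ cols, (P σ c : ℝ) + (-1) * N σ c = (XR (n + 1) 3 ^ k) σ (cfgOf (n + 1) c.1)) := by
  simp only [Bool.and_eq_true, Nat.ble_eq] at hc
  obtain ⟨⟨hn, hW⟩, hok⟩ := hc
  have hok := engR_ok hok
  let u : ℕ × ℕ → V (n + 2) := fun c =>
    (stepR n lo hi)^[k] (initV (n + 2) W (onSheet 0 (mkCols (n + 1) [c])) 0)
  have hu : ∀ (g : Fin 4) (e : ℝ), ((g = 0 ∧ e = 1) ∨ (g = 3 ∧ e = -1)) → ∀ σ, ∀ c ∈ cols,
      (getC (n + 1) (u c).a σ : ℝ) + e * (getC (n + 1) (u c).b σ : ℝ)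
        = (XR (n + 1) g ^ k) σ (cfgOf (n + 1) c.1) := by
    intro g e hg σ c hcc
    rw [engR_iterR n lo hi W hn g e hg [c] (by simpa using hok c hcc) k (u c) rfl σ]
    simp [engPk]
  have hp := hu 0 1 (Or.inl ⟨rfl, rfl⟩)
  have hm := hu 3 (-1) (Or.inr ⟨rfl, rfl⟩)
  have hsum : ∀ σ, (getC (n + 1) v.a σ : ℝ) = engPk W (fun c => (getC (n + 1) (u c).a σ : ℝ)) cols ∧
      (getC (n + 1) v.b σ : ℝ) = engPk W (fun c => (getC (n + 1) (u c).b σ : ℝ)) cols := by
    intro σ
    have h1 := engR_iterR n lo hi W hn 0 1 (Or.inl ⟨rfl, rfl⟩) cols hok k v hv σ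
    have h2 := engR_iterR n lo hi W hn 3 (-1) (Or.inr ⟨rfl, rfl⟩) cols hok k v hv σ
    rw [← engPk_congr (hp σ), engPk_lin] at h1
    rw [← engPk_congr (hm σ), engPk_lin] at h2
    constructor <;> linarith
  have hb : ∀ σ, ∀ c ∈ cols, (getC (n + 1) (u c).a σ : ℝ) + (getC (n + 1) (u c).b σ : ℝ)
      ≤ ((2 * (n + 1) : ℕ) : ℝ) ^ k := by
    intro σ c hcc
    have h1 := hp σ c hcc
    have h2 := pow_entry_le (XR_symm (n + 1) (by omega) 0) _ (XR_bound (n + 1) (by omega) 0) k σ
      (cfgOf (n + 1) c.1)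
    rw [one_mul] at h1
    rw [h1]
    exact (le_abs_self _).trans h2
  refine ⟨fun σ c => getC (n + 1) (u c).a σ, fun σ c => getC (n + 1) (u c).b σ, fun σ => ?_,
    fun σ => ?_, fun σ c hcc => ?_, fun σ c hcc => ?_, hp, hm⟩
  · exact Nat.cast_injective (R := ℝ) (by rw [engPk_cast]; exact (hsum σ).1)
  · exact Nat.cast_injective (R := ℝ) (by rw [engPk_cast]; exact (hsum σ).2)
  · refine engR_lt (by omega) hW hk (le_trans ?_ (hb σ c hcc))
    exact le_add_of_nonneg_right (Nat.cast_nonneg _)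
  · refine engR_lt (by omega) hW hk (le_trans ?_ (hb σ c hcc))
    exact le_add_of_nonneg_left (Nat.cast_nonneg _)

theorem engR_sum_lin (cols : List (ℕ × ℕ)) (a b x : ℕ × ℕ → ℝ) (e : ℝ)
    (h : ∀ c ∈ cols, a c + e * b c = x c) :
    (cols.map fun c => (c.2 : ℝ) * x c).sum
      = (cols.map fun c => (c.2 : ℝ) * a c).sum + e * (cols.map fun c => (c.2 : ℝ) * b c).sum := by
  induction cols with
  | nil => simp
  | cons c cols ih =>
    simp only [List.map_cons, List.sum_cons]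
    rw [ih fun c hc => h c (List.mem_cons_of_mem _ hc), ← h c List.mem_cons_self]
    ring

/-- the four read-outs after `k` steps -/
theorem engR_four (n lo hi W K : ℕ) (cols : List (ℕ × ℕ))
    (hc : (Nat.ble 1 n && Nat.ble ((2 * (n + 1)) ^ K) (2 ^ W) && colsOk (n + 1) lo hi cols) = true)
    (k : ℕ) (hk : k < K) (v : V (n + 2))
    (hv : v = (stepR n lo hi)^[k] (initV (n + 2) W (onSheet 0 (mkCols (n + 1) cols)) 0)) :
    (cols.map fun c => (c.2 : ℝ) * (XR (n + 1) 0 ^ k) (cfgOf (n + 1) c.1) (cfgOf (n + 1) c.1)).sum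
      = (extr (n + 2) W v (onSheet 0 (mkCols (n + 1) cols)) 0 : ℝ)
        + 1 * (extr (n + 2) W v (onSheet 1 (mkCols (n + 1) cols)) 0 : ℝ) ∧
    (cols.map fun c => (c.2 : ℝ) * (XR (n + 1) 3 ^ k) (cfgOf (n + 1) c.1) (cfgOf (n + 1) c.1)).sum
      = (extr (n + 2) W v (onSheet 0 (mkCols (n + 1) cols)) 0 : ℝ)
        + (-1) * (extr (n + 2) W v (onSheet 1 (mkCols (n + 1) cols)) 0 : ℝ) ∧
    (cols.map fun c =>
        (c.2 : ℝ) * (XR (n + 1) 3 ^ k) (flipC (cfgOf (n + 1) c.1)) (cfgOf (n + 1) c.1)).sum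
      = (extr (n + 2) W v (onSheet 0 (flipCols (mkCols (n + 1) cols))) 0 : ℝ)
        + (-1) * (extr (n + 2) W v (onSheet 1 (flipCols (mkCols (n + 1) cols))) 0 : ℝ) ∧
    (cols.map fun c =>
        (c.2 : ℝ) * (XR (n + 1) 0 ^ k) (flipC (cfgOf (n + 1) c.1)) (cfgOf (n + 1) c.1)).sum
      = (extr (n + 2) W v (onSheet 0 (flipCols (mkCols (n + 1) cols))) 0 : ℝ)
        + 1 * (extr (n + 2) W v (onSheet 1 (flipCols (mkCols (n + 1) cols))) 0 : ℝ) := by
  obtain ⟨P, N, hP, hN, hPl, hNl, hp, hm⟩ := engR_ring n lo hi W K cols hc k hk v hv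
  have e1 : ∀ sh, onSheet sh (mkCols (n + 1) cols)
      = cols.map fun c => (sh :: digs (n + 1) c.1 [], c.2) := by
    intro sh
    simp only [onSheet, mkCols, engR_mapP, List.map_map]
    rfl
  have e2 : ∀ sh, onSheet sh (flipCols (mkCols (n + 1) cols))
      = cols.map fun c => (sh :: mapP (Nat.sub 2) (digs (n + 1) c.1 []), c.2) := by
    intro sh
    rw [onSheet, flipCols, mkCols, engR_mapP, engR_mapP, engR_mapP, List.map_map, List.map_map]
    rfl
  have a0 := engR_extr (n + 2) W v (fun c => 0 :: digs (n + 1) c.1 [])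
    (fun c => P (cfgOf (n + 1) c.1)) cols (fun c => hPl _) fun c =>
      (getL_eq (n + 1) v.a _).trans (hP _)
  have a1 := engR_extr (n + 2) W v (fun c => 1 :: digs (n + 1) c.1 [])
    (fun c => N (cfgOf (n + 1) c.1)) cols (fun c => hNl _) fun c =>
      (getL_eq (n + 1) v.b _).trans (hN _)
  have a2 := engR_extr (n + 2) W v (fun c => 0 :: mapP (Nat.sub 2) (digs (n + 1) c.1 []))
    (fun c => P (flipC (cfgOf (n + 1) c.1))) cols (fun c => hPl _) fun c =>
      (getL_eq (n + 1) v.a _).trans ((congrArg (getC (n + 1) v.a) (toCfg_flip _ c.1)).trans (hP _))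
  have a3 := engR_extr (n + 2) W v (fun c => 1 :: mapP (Nat.sub 2) (digs (n + 1) c.1 []))
    (fun c => N (flipC (cfgOf (n + 1) c.1))) cols (fun c => hNl _) fun c =>
      (getL_eq (n + 1) v.b _).trans ((congrArg (getC (n + 1) v.b) (toCfg_flip _ c.1)).trans (hN _))
  rw [e1, e1, e2, e2, a0, a1, a2, a3]
  exact ⟨engR_sum_lin cols _ _ _ 1 fun c hcc => hp _ c hcc,
    engR_sum_lin cols _ _ _ (-1) fun c hcc => hm _ c hcc,
    engR_sum_lin cols _ _ _ (-1) fun c hcc => hm _ c hcc,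
    engR_sum_lin cols _ _ _ 1 fun c hcc => hp _ c hcc⟩

theorem engR_iterO (n lo hi W : ℕ) (s : Bool) (cols : List (ℕ × ℕ))
    (hc : ∀ c ∈ cols, lo ≤ ds (cfgOf (n + 1) c.1) ∧ ds (cfgOf (n + 1) c.1) ≤ hi) (k : ℕ)
    (σ : Cfg (n + 1)) :
    (getC (n + 1) ((stepO n s lo hi)^[k] (initV (n + 1) W (mkCols (n + 1) cols) 0)) σ : ℝ)
      = engPk W (fun c => (XO n (if s then 1 else -1) ^ k) σ (cfgOf (n + 1) c.1)) cols := by
  have h1 : (fun σ => (getC (n + 1) ((stepO n s lo hi)^[k]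
      (initV (n + 1) W (mkCols (n + 1) cols) 0)) σ : ℝ))
      = (PI (n + 1) lo hi * XO n (if s then 1 else -1)) ^ k *ᵥ
        fun τ => engPk W (fun c => if τ = cfgOf (n + 1) c.1 then 1 else 0) cols := by
    induction k with
    | zero =>
      funext τ
      rw [Function.iterate_zero_apply, pow_zero, one_mulVec, engR_init]
      simp
    | succ k ih =>
      funext τ
      rw [Function.iterate_succ_apply', stepO_spec, ih, mulVec_mulVec, ← pow_succ']
  have hP : IsProj (XO n (if s then 1 else -1)) (PI (n + 1) lo hi) := by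
    have := isProj_PI_O n (if s then 1 else -1) lo hi
    refine ⟨this.symm, this.idem, ?_⟩
    rw [XO, mul_add, add_mul, Matrix.mul_smul, Matrix.smul_mul, this.comm, Matrix.mul_smul,
      Matrix.smul_mul, Matrix.mul_one, Matrix.one_mul]
  rw [congrFun h1 σ, engR_mulVec]
  exact engPk_congr fun c hcc => engR_pow hP k σ _ (hc c hcc)

/-- Plan: let `v k = step^[k] (initV …)`.  For one column `c` let `P k c σ`, `N k c σ : ℕ` be the two sheets of
`(stepR)^[k]` applied to the unit vector (`addAt (zeroV) (0 :: path) 1`).  By `stepR_spec` and induction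
`P ± N = (XR g ^ k) σ c` (`PI * X` acts as `X` on vectors supported in the sector: `HR_ds`), and the sheets of
`v k` are `∑ i, 2^(W i) P k (c i) σ` resp. `N` (both sides are determined by their sum and difference, which are
linear).  `P, N ≤ P + N ≤ (2L)^k < 2^W` by `pow_entry_le` with `XR_bound`, so the `W`-bit fields can be read off
(`Nat.shiftRight_eq_div_pow`, induction on the list of columns). -/
theorem runR2_spec (n lo hi W K : ℕ) (st : V (n + 2) → V (n + 2)) (hst : ∀ t, st t = stepR n lo hi t)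
    (cols : List (ℕ × ℕ)) (out : List (List ℕ))
    (hc : (Nat.ble 1 n && Nat.ble ((2 * (n + 1)) ^ K) (2 ^ W) && colsOk (n + 1) lo hi cols) = true)
    (h : beqLL (runR2 n st W K cols) out = true) :
    CR (XR (n + 1) 0) cols (comb 0 1 1 out) ∧ CR (XR (n + 1) 3) cols (comb 0 1 (-1) out) := by
  obtain rfl : st = stepR n lo hi := funext hst
  obtain rfl := beqLL_eq _ _ h
  rw [runR2, runR2', run2, engR_loop]
  constructor
  · intro k hk
    obtain ⟨h1, h2⟩ := engR_comb _ _ _ _ _ k hk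
    rw [h2, (engR_four n lo hi W K cols hc k h1 _ rfl).1]
    simp
  · intro k hk
    obtain ⟨h1, h2⟩ := engR_comb _ _ _ _ _ k hk
    rw [h2, (engR_four n lo hi W K cols hc k h1 _ rfl).2.1]
    simp

theorem runR4_spec (n lo hi W K : ℕ) (st : V (n + 2) → V (n + 2)) (hst : ∀ t, st t = stepR n lo hi t)
    (cols : List (ℕ × ℕ)) (out : List (List ℕ))
    (hc : (Nat.ble 1 n && Nat.ble ((2 * (n + 1)) ^ K) (2 ^ W) && colsOk (n + 1) lo hi cols) = true)
    (h : beqLL (runR4 n st W K cols) out = true) :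
    CR (XR (n + 1) 0) cols (comb 0 1 1 out) ∧ CR (XR (n + 1) 3) cols (comb 0 1 (-1) out) ∧
      CF (XR (n + 1) 3) cols (comb 2 3 (-1) out) := by
  obtain rfl : st = stepR n lo hi := funext hst
  obtain rfl := beqLL_eq _ _ h
  rw [runR4, runR4', run4, engR_loop]
  refine ⟨?_, ?_, ?_⟩
  · intro k hk
    obtain ⟨h1, h2⟩ := engR_comb _ _ _ _ _ k hk
    rw [h2, (engR_four n lo hi W K cols hc k h1 _ rfl).1]
    simp
  · intro k hk
    obtain ⟨h1, h2⟩ := engR_comb _ _ _ _ _ k hk
    rw [h2, (engR_four n lo hi W K cols hc k h1 _ rfl).2.1]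
    simp
  · intro k hk
    obtain ⟨h1, h2⟩ := engR_comb _ _ _ _ _ k hk
    rw [h2, (engR_four n lo hi W K cols hc k h1 _ rfl).2.2.1]
    simp

theorem runR4_spec0 (n lo hi W K : ℕ) (st : V (n + 2) → V (n + 2)) (hst : ∀ t, st t = stepR n lo hi t)
    (cols : List (ℕ × ℕ)) (out : List (List ℕ))
    (hc : (Nat.ble 1 n && Nat.ble ((2 * (n + 1)) ^ K) (2 ^ W) && colsOk (n + 1) lo hi cols) = true)
    (h : beqLL (runR4 n st W K cols) out = true) :
    CF (XR (n + 1) 0) cols (comb 2 3 1 out) := by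
  obtain rfl : st = stepR n lo hi := funext hst
  obtain rfl := beqLL_eq _ _ h
  rw [runR4, runR4', run4, engR_loop]
  intro k hk
  obtain ⟨h1, h2⟩ := engR_comb _ _ _ _ _ k hk
  rw [h2, (engR_four n lo hi W K cols hc k h1 _ rfl).2.2.2]
  simp

theorem runO_spec (n lo hi W K : ℕ) (s : Bool) (st : V (n + 1) → V (n + 1))
    (hst : ∀ t, st t = stepO n s lo hi t) (cols : List (ℕ × ℕ)) (out : List (List ℕ))
    (hc : (Nat.ble ((10 * n + 12) ^ K) (2 ^ W) && colsOk (n + 1) lo hi cols) = true)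
    (h : beqLL (runO n st W K cols) out = true) :
    CR (XO n (if s then 1 else -1)) cols (comb 0 0 0 out) := by
  obtain rfl : st = stepO n s lo hi := funext hst
  obtain rfl := beqLL_eq _ _ h
  rw [runO, runO', engR_loop]
  intro k hk
  obtain ⟨h1, h2⟩ := engR_comb _ _ _ _ _ k hk
  simp only [Bool.and_eq_true, Nat.ble_eq] at hc
  obtain ⟨hW, hok⟩ := hc
  have hok := engR_ok hok
  let G : Cfg (n + 1) → ℕ × ℕ → ℕ := fun σ c =>
    getC (n + 1) ((stepO n s lo hi)^[k] (initV (n + 1) W (mkCols (n + 1) [c]) 0)) σ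
  have hG : ∀ σ, ∀ c ∈ cols, (G σ c : ℝ) = (XO n (if s then 1 else -1) ^ k) σ (cfgOf (n + 1) c.1) := by
    intro σ c hcc
    rw [engR_iterO n lo hi W s [c] (by simpa using hok c hcc) k σ]
    simp [engPk]
  have hl : ∀ σ, ∀ c ∈ cols, G σ c < 2 ^ W := by
    intro σ c hcc
    refine engR_lt (by omega) hW h1 ?_
    rw [hG σ c hcc]
    exact (le_abs_self _).trans
      (pow_entry_le (XO_symm n _) _ (XO_bound n _ (by cases s <;> simp)) k σ _)
  have a0 := engR_extr (n + 1) W ((stepO n s lo hi)^[k] (initV (n + 1) W (mkCols (n + 1) cols) 0))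
    (fun c => digs (n + 1) c.1 []) (fun c => G (cfgOf (n + 1) c.1)) cols (fun c => hl _) fun c => by
      rw [getL_eq]
      refine Nat.cast_injective (R := ℝ) ?_
      rw [engPk_cast, engR_iterO n lo hi W s cols hok k]
      exact (engPk_congr (hG _)).symm
  have e1 : mkCols (n + 1) cols = cols.map fun c => (digs (n + 1) c.1 [], c.2) := engR_mapP _ _
  rw [← e1] at a0
  rw [h2]
  simp only [List.map_cons, List.map_nil, List.getD_cons_zero, Int.cast_zero, zero_mul, add_zero]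
  rw [a0]
  congr 1
  exact List.map_congr_left fun c hcc => by rw [hG _ c hcc]

end Crest.Agent.R347
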