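import Crest.Agent.R347.Eng
import Crest.Agent.R347.Nrm
import Crest.Agent.R347.Sec

/-!
# R347 engine: one step is multiplication by the integer matrix
-/

set_option autoImplicit false

namespace Crest.Agent.R347

open Matrix

/-- the leaf at a configuration -/
def getC : (n : ℕ) → V n → Cfg n → ℕ
  | 0, t, _ => t
  | n + 1, t, σ => getC n (child t (σ 0).val) (Fin.tail σ)

def dig3 (d : ℕ) : Fin 3 := if d = 0 then 0 else if d = 1 then 1 else 2

def toCfg (n : ℕ) (l : List ℕ) : Cfg n := fun j => dig3 (l.getD j.val 0)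

/-- the configuration with ternary code `x` (site `0` most significant) -/
def cfgOf (L x : ℕ) : Cfg L := toCfg L (digs L x [])

/-- global spin flip -/
def flipC {L : ℕ} (σ : Cfg L) : Cfg L := fun j => Fin.rev (σ j)

namespace EngSA

theorem child_zero {α : Type} (t : T3 α) : child t 0 = t.a := rfl
theorem child_one {α : Type} (t : T3 α) : child t 1 = t.b := rfl
theorem child_two {α : Type} (t : T3 α) (d : ℕ) : child t (d + 2) = t.c := rfl

theorem child_dig3 {α : Type} (t : T3 α) (d : ℕ) : child t (dig3 d).val = child t d := by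
  rcases d with _ | _ | d <;> rfl

theorem toCfg_zero (n : ℕ) (l : List ℕ) : toCfg (n + 1) l 0 = dig3 (hdN l) := by
  cases l <;> rfl

theorem toCfg_tail (n : ℕ) (l : List ℕ) : Fin.tail (toCfg (n + 1) l) = toCfg n (tlN l) := by
  funext j
  cases l <;> rfl

theorem cfg_ext {n : ℕ} (σ τ : Cfg (n + 1)) : σ = τ ↔ σ 0 = τ 0 ∧ Fin.tail σ = Fin.tail τ := by
  constructor
  · rintro rfl; exact ⟨rfl, rfl⟩
  · rintro ⟨h1, h2⟩
    rw [← Fin.cons_self_tail σ, ← Fin.cons_self_tail τ, h1, h2]

theorem digs_eq (L : ℕ) : ∀ (x : ℕ) (acc : List ℕ),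
    digs L x acc = List.ofFn (fun j : Fin L => x / 3 ^ (L - 1 - j.val) % 3) ++ acc := by
  induction L with
  | zero => intro x acc; rfl
  | succ L ih =>
    intro x acc
    change digs L (x / 3) (x % 3 :: acc) = _
    rw [ih, List.ofFn_succ_last, List.append_assoc]
    congr 1
    · congr 1
      funext j
      rw [Nat.div_div_eq_div_mul, ← pow_succ']
      congr 3
      have := j.2
      simp only [Fin.val_castSucc]
      omega
    · simp

theorem mapP_eq {α β : Type} (p : α → β) (l : List α) : mapP p l = l.map p := by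
  induction l with
  | nil => rfl
  | cons a l ih => exact congrArg (p a :: ·) ih

theorem sumL_eq (l : List ℕ) : ∀ a, sumL l a = a + l.sum := by
  induction l with
  | nil => intro a; rfl
  | cons b l ih =>
    intro a
    change sumL l (a + b) = _
    rw [ih, List.sum_cons, add_assoc]

theorem dig3_val {d : ℕ} (h : d < 3) : (dig3 d).val = d := by
  interval_cases d <;> rfl

end EngSA

open EngSA

theorem getL_eq (n : ℕ) (t : V n) (l : List ℕ) : getL n t l = getC n t (toCfg n l) := by
  induction n generalizing l with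
  | zero => rfl
  | succ n ih =>
    change getL n (child t (hdN l)) (tlN l) = getC n (child t (toCfg (n + 1) l 0).val) _
    rw [ih, toCfg_zero, toCfg_tail, child_dig3]

theorem getC_zeroV (n : ℕ) (σ : Cfg n) : getC n (zeroV n) σ = 0 := by
  induction n with
  | zero => rfl
  | succ n ih =>
    change getC n (child (T3.mk (zeroV n) (zeroV n) (zeroV n)) (σ 0).val) _ = 0
    generalize (σ 0).val = d
    rcases d with _ | _ | d <;> exact ih _

theorem getC_addAt (n : ℕ) (t : V n) (l : List ℕ) (z : ℕ) (σ : Cfg n) :
    getC n (addAt n t l z) σ = getC n t σ + if σ = toCfg n l then z else 0 := by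
  induction n generalizing l with
  | zero =>
    rw [if_pos (Subsingleton.elim _ _)]
    rfl
  | succ n ih =>
    simp only [cfg_ext σ, toCfg_zero, toCfg_tail]
    change getC n (child (Bool.rec (Bool.rec (T3.mk t.a t.b (addAt n t.c (tlN l) z))
      (T3.mk t.a (addAt n t.b (tlN l) z) t.c) (Nat.beq (hdN l) 1)) (T3.mk (addAt n t.a (tlN l) z) t.b t.c)
      (Nat.beq (hdN l) 0)) (σ 0).val) _ = getC n (child t (σ 0).val) _ + _
    generalize hdN l = d
    generalize σ 0 = s
    rcases d with _ | _ | d <;> fin_cases s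
    · exact (ih _ _ _).trans (by simp [dig3, child_zero])
    · simp [dig3]; rfl
    · simp [dig3]; rfl
    · simp [dig3]; rfl
    · exact (ih _ _ _).trans (by simp [dig3, child_one])
    · simp [dig3]; rfl
    · simp [dig3]; rfl
    · simp [dig3]; rfl
    · exact (ih _ _ _).trans (by simp [dig3]; rfl)

/-- `digs L x []` is the list of the `L` digits, most significant first -/
theorem cfgOf_val (L x : ℕ) (j : Fin L) : (cfgOf L x j).val = x / 3 ^ (L - 1 - j.val) % 3 := by
  unfold cfgOf toCfg
  rw [digs_eq, List.append_nil, List.getD_eq_getElem _ _ (by simp), List.getElem_ofFn,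
    dig3_val (Nat.mod_lt _ (by norm_num))]

theorem toCfg_flip (L x : ℕ) : toCfg L (mapP (Nat.sub 2) (digs L x [])) = flipC (cfgOf L x) := by
  funext j
  apply Fin.ext
  unfold flipC
  rw [Fin.val_rev, cfgOf_val]
  unfold toCfg
  rw [mapP_eq, digs_eq, List.append_nil, List.getD_eq_getElem _ _ (by simp), List.getElem_map,
    List.getElem_ofFn, dig3_val (by simp only [Nat.sub_eq]; omega)]
  simp only [Nat.sub_eq]
  omega

theorem ds_cfgOf (L x : ℕ) : ds (cfgOf L x) = sumL (digs L x []) 0 := by
  rw [sumL_eq, digs_eq, List.append_nil, List.sum_ofFn, zero_add]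
  exact Finset.sum_congr rfl fun j _ => cfgOf_val L x j

end Crest.Agent.R347
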