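import Crest.Agent.R347.EngS

/-!
# R347 engine: one step is multiplication by the integer matrix (specification of `go`)
-/

set_option autoImplicit false

namespace Crest.Agent.R347

open Matrix

namespace EngS2A

open EngSA Function

def up3 : Fin 3 → Fin 3 := ![1, 2, 2]
def dn3 : Fin 3 → Fin 3 := ![0, 0, 1]

def zzs : (n : ℕ) → Fin 3 → Cfg n → ℕ
  | 0, _, _ => 0
  | n + 1, d, ρ => zz d.val (ρ 0).val + zzs n (ρ 0) (Fin.tail ρ)

def lastD : (n : ℕ) → Fin 3 → Cfg n → Fin 3
  | 0, d, _ => d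
  | n + 1, _, ρ => lastD n (ρ 0) (Fin.tail ρ)

def modL (h : Fin 3 → Fin 3) : (n : ℕ) → V n → V n → Cfg n → ℕ
  | 0, _, w1, _ => w1
  | n + 1, w, _, ρ => modL h n (child w (ρ 0).val) (child w (h (ρ 0)).val) (Fin.tail ρ)

def hops : (n : ℕ) → Fin 3 → V n → V n → V n → Cfg n → ℕ
  | 0, _, _, _, _, _ => 0
  | n + 1, d, self, up, dn, ρ =>
    (if d.val ≤ 1 ∧ 1 ≤ (ρ 0).val then getC n (child up (dn3 (ρ 0)).val) (Fin.tail ρ) else 0) +
    (if (ρ 0).val ≤ 1 ∧ 1 ≤ d.val then getC n (child dn (up3 (ρ 0)).val) (Fin.tail ρ) else 0) +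
    hops n (ρ 0) (child self (ρ 0).val) (child self (up3 (ρ 0)).val) (child self (dn3 (ρ 0)).val) (Fin.tail ρ)

theorem child_2 {α : Type} (t : T3 α) : child t 2 = t.c := rfl

theorem ds_succ {n : ℕ} (ρ : Cfg (n + 1)) : ds ρ = (ρ 0).val + ds (Fin.tail ρ) := by
  unfold ds
  rw [Fin.sum_univ_succ]
  rfl

theorem sum_consIf {α : Type} (b : Bool) (y : α) (l : List α) (g : α → ℕ) :
    ((consIf b y l).map g).sum = (if b = true then g y else 0) + (l.map g).sum := by
  cases b <;> simp [consIf]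

theorem sum_consIf' (b : Bool) (y : ℕ) (l : List ℕ) :
    (consIf b y l).sum = (if b = true then y else 0) + l.sum := by
  cases b <;> simp [consIf]

theorem go_succ (lo hi : ℕ) (fin : ℕ → ℕ → ℕ → ℕ → ℕ → List ℕ → ℕ) (n s dacc d : ℕ)
    (self up dn wu wd wu1 wd1 : V (n + 1)) (oth : List (V (n + 1))) :
    go lo hi fin (n + 1) s dacc d self up dn wu wd wu1 wd1 oth =
      Bool.rec (zeroV (n + 1))
        (T3.mk
          (go lo hi fin n s (dacc + zz d 0) 0 self.a self.b self.a wu.a wd.a wu.a wd.b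
            (consIf (Nat.ble 1 d) dn.b (mapP T3.a oth)))
          (go lo hi fin n (s + 1) (dacc + zz d 1) 1 self.b self.c self.a wu.b wd.b wu.a wd.c
            (consIf (Nat.ble d 1) up.a (consIf (Nat.ble 1 d) dn.c (mapP T3.b oth))))
          (go lo hi fin n (s + 2) (dacc + zz d 2) 2 self.c self.c self.b wu.c wd.c wu.b wd.c
            (consIf (Nat.ble d 1) up.b (mapP T3.c oth))))
        (Nat.ble lo (s + 2 * (n + 1)) && Nat.ble s hi) := rfl

theorem go_spec (lo hi : ℕ) (fin : ℕ → ℕ → ℕ → ℕ → ℕ → List ℕ → ℕ) (F : ℕ → ℕ → ℕ → ℕ → ℕ → ℕ → ℕ)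
    (hF : ∀ a b c x y l, fin a b c x y l = F a b c x y l.sum) (n : ℕ) :
    ∀ (s dacc : ℕ) (d : Fin 3) (self up dn wu wd wu1 wd1 : V n) (oth : List (V n)) (ρ : Cfg n),
      getC n (go lo hi fin n s dacc d.val self up dn wu wd wu1 wd1 oth) ρ =
        if lo ≤ s + ds ρ ∧ s + ds ρ ≤ hi then
          F (dacc + zzs n d ρ) (lastD n d ρ).val (getC n self ρ) (modL dn3 n wu wu1 ρ) (modL up3 n wd wd1 ρ)
            ((oth.map fun t => getC n t ρ).sum + hops n d self up dn ρ)
        else 0 := by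
  induction n with
  | zero =>
    intro s dacc d self up dn wu wd wu1 wd1 oth ρ
    have h0 : ds ρ = 0 := by simp [ds]
    change (Bool.rec (0 : ℕ) (fin dacc d.val self wu1 wd1 oth) (Nat.ble lo s && Nat.ble s hi) : ℕ) = _
    rw [h0, add_zero, hF]
    split_ifs with h
    · rw [Nat.ble_eq_true_of_le h.1, Nat.ble_eq_true_of_le h.2]
      have : (oth.map fun t : V 0 => getC 0 t ρ) = oth := List.map_id _
      rw [this]
      rfl
    · have : (Nat.ble lo s && Nat.ble s hi) = false := by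
        rw [Bool.eq_false_iff]
        simpa using h
      rw [this]
  | succ n ih =>
    intro s dacc d self up dn wu wd wu1 wd1 oth ρ
    rw [go_succ]
    cases hb : (Nat.ble lo (s + 2 * (n + 1)) && Nat.ble s hi)
    · have h1 := SecA.ds_le ρ
      have h2 : ¬ (lo ≤ s + 2 * (n + 1) ∧ s ≤ hi) := by
        rw [Bool.eq_false_iff] at hb
        simpa using hb
      rw [if_neg (by omega)]
      exact getC_zeroV _ _
    · rw [ds_succ]
      simp only [getC, zzs, lastD, modL, hops]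
      generalize ρ 0 = e
      generalize Fin.tail ρ = ρ'
      fin_cases e
      · refine (ih s _ 0 _ _ _ _ _ _ _ _ ρ').trans ?_
        rw [sum_consIf, mapP_eq, List.map_map]
        refine if_congr (by simp) ?_ rfl
        congr 1
        · exact add_assoc _ _ _
        · simp [Function.comp_def, up3, dn3, child_zero, child_one]
          exact (by intros; ring : ∀ a c e : ℕ, a + c + e = c + (a + e)) _ _ _
      · refine (ih (s + 1) _ 1 _ _ _ _ _ _ _ _ ρ').trans ?_
        rw [sum_consIf, sum_consIf, mapP_eq, List.map_map]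
        refine if_congr (by simp [add_assoc]) ?_ rfl
        congr 1
        · exact add_assoc _ _ _
        · simp [Function.comp_def, up3, dn3, child_zero, child_one, child_2]
          exact (by intros; ring : ∀ a b c e : ℕ, a + (b + c) + e = c + (a + b + e)) _ _ _ _
      · refine (ih (s + 2) _ 2 _ _ _ _ _ _ _ _ ρ').trans ?_
        rw [sum_consIf, mapP_eq, List.map_map]
        refine if_congr (by simp [add_assoc]) ?_ rfl
        congr 1
        · exact add_assoc _ _ _
        · simp [Function.comp_def, up3, dn3, child_one, child_2]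
          exact (by intros; ring : ∀ a c e : ℕ, a + c + e = c + (a + e)) _ _ _

/-- hop raising site `i`, lowering site `j` -/
def hp {L : ℕ} {R : Type} [Zero R] (f : Cfg L → R) (i j : Fin L) (σ : Cfg L) : R :=
  if (σ i).val ≤ 1 ∧ 1 ≤ (σ j).val then f (update (update σ i (up3 (σ i))) j (dn3 (σ j))) else 0

theorem zzs_eq (n : ℕ) : ∀ σ : Cfg (n + 1), zzs n (σ 0) (Fin.tail σ) =
    ∑ j : Fin n, zz (σ j.castSucc).val (σ j.succ).val := by
  induction n with
  | zero => intro σ; rfl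
  | succ n ih =>
    intro σ
    rw [Fin.sum_univ_succ, zzs, ih]
    rfl

theorem lastD_eq (n : ℕ) : ∀ σ : Cfg (n + 1), lastD n (σ 0) (Fin.tail σ) = σ (Fin.last n) := by
  induction n with
  | zero => intro σ; rfl
  | succ n ih =>
    intro σ
    rw [lastD, ih]
    rfl

theorem modL_eq (h : Fin 3 → Fin 3) (n : ℕ) : ∀ (w w1 : V (n + 1)) (ρ : Cfg (n + 1)),
    modL h (n + 1) w w1 ρ = getC (n + 1) w (update ρ (Fin.last n) (h (ρ (Fin.last n)))) := by
  induction n with
  | zero =>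
    intro w w1 ρ
    simp only [modL, getC]
    rw [show Fin.last 0 = 0 from rfl, update_self]
  | succ n ih =>
    intro w w1 ρ
    rw [modL, ih, getC.eq_2 (n + 1), ← Fin.succ_last, Fin.tail_update_succ,
      update_of_ne (Fin.succ_ne_zero _).symm]
    rfl

theorem hp_succ {n : ℕ} (t : V (n + 1)) (i j : Fin n) (σ : Cfg (n + 1)) :
    hp (getC (n + 1) t) i.succ j.succ σ = hp (getC n (child t (σ 0).val)) i j (Fin.tail σ) := by
  unfold hp
  rw [getC, Fin.tail_update_succ, Fin.tail_update_succ, update_of_ne (Fin.succ_ne_zero _).symm,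
    update_of_ne (Fin.succ_ne_zero _).symm]
  rfl

theorem hp_zero_succ {n : ℕ} (t : V (n + 1)) (j : Fin n) (σ : Cfg (n + 1)) :
    hp (getC (n + 1) t) 0 j.succ σ = if (σ 0).val ≤ 1 ∧ 1 ≤ (σ j.succ).val then
      getC n (child t (up3 (σ 0)).val) (update (Fin.tail σ) j (dn3 (σ j.succ))) else 0 := by
  unfold hp
  rw [getC, Fin.tail_update_succ, Fin.tail_update_zero, update_of_ne (Fin.succ_ne_zero _).symm, update_self]

theorem hp_succ_zero {n : ℕ} (t : V (n + 1)) (j : Fin n) (σ : Cfg (n + 1)) :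
    hp (getC (n + 1) t) j.succ 0 σ = if (σ j.succ).val ≤ 1 ∧ 1 ≤ (σ 0).val then
      getC n (child t (dn3 (σ 0)).val) (update (Fin.tail σ) j (up3 (σ j.succ))) else 0 := by
  unfold hp
  rw [getC, Fin.tail_update_zero, Fin.tail_update_succ, update_self]

theorem hops_eq (n : ℕ) : ∀ (t : V (n + 1)) (σ : Cfg (n + 1)),
    hops n (σ 0) (child t (σ 0).val) (child t (up3 (σ 0)).val) (child t (dn3 (σ 0)).val) (Fin.tail σ) =
      ∑ j : Fin n, (hp (getC (n + 1) t) j.castSucc j.succ σ + hp (getC (n + 1) t) j.succ j.castSucc σ) := by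
  induction n with
  | zero => intro t σ; rfl
  | succ n ih =>
    intro t σ
    rw [Fin.sum_univ_succ, hops, ih]
    refine congrArg₂ (· + ·) ?_ ?_
    · rw [Fin.castSucc_zero, hp_zero_succ, hp_succ_zero, getC, getC, Fin.tail_update_zero,
        Fin.tail_update_zero, update_self, update_self]
      rfl
    · refine Finset.sum_congr rfl fun j _ => ?_
      rw [← Fin.succ_castSucc, hp_succ, hp_succ]

theorem hop_sum {L : ℕ} {i j : Fin L} (hij : i ≠ j) (f : Cfg L → ℝ) (σ : Cfg L) :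
    ∑ τ, (if Hop i j σ τ then (1 : ℝ) else 0) * f τ = hp f i j σ := by
  have hu : ∀ a : Fin 3, a.val ≤ 1 → (up3 a).val = a.val + 1 := by decide
  have hd : ∀ a : Fin 3, 1 ≤ a.val → (dn3 a).val + 1 = a.val := by decide
  unfold hp
  split_ifs with h
  · rw [Finset.sum_eq_single (update (update σ i (up3 (σ i))) j (dn3 (σ j)))]
    · rw [if_pos, one_mul]
      refine ⟨?_, ?_, fun k h1 h2 => ?_⟩
      · rw [update_of_ne hij, update_self, hu _ h.1]
      · rw [update_self, hd _ h.2]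
      · rw [update_of_ne h2, update_of_ne h1]
    · intro τ _ hτ
      rw [if_neg, zero_mul]
      rintro ⟨h1, h2, h3⟩
      apply hτ
      rw [NrmA.cfg_eq i j]
      refine ⟨fun k k1 k2 => ?_, ?_, ?_⟩
      · rw [update_of_ne k2, update_of_ne k1, h3 k k1 k2]
      · rw [update_of_ne hij, update_self]
        exact Fin.ext (by rw [hu _ h.1, h1])
      · rw [update_self]
        have := hd _ h.2
        exact Fin.ext (by omega)
    · simp
  · refine Finset.sum_eq_zero fun τ _ => ?_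
    rw [if_neg, zero_mul]
    rintro ⟨h1, h2, -⟩
    have := (τ i).2
    exact h ⟨by omega, by omega⟩

theorem bond_mulVec {L : ℕ} (g : Fin 4) (e : ℝ) (hg : (g = 0 ∧ e = 1) ∨ (g = 3 ∧ e = -1)) (i j : Fin L)
    (hij : i ≠ j) (f : Cfg L → ℝ) (σ : Cfg L) :
    ((bondR g i j + (1 : Op L)) *ᵥ f) σ = zzR (σ i) (σ j) * f σ + e * (hp f i j σ + hp f j i σ) := by
  rw [← hop_sum hij, ← hop_sum hij.symm]
  simp only [Matrix.mulVec, dotProduct, bondR_apply g e hg i j hij, add_mul, mul_assoc, Finset.sum_add_distrib,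
    ← Finset.mul_sum]
  simp

theorem zz_cast (d e : Fin 3) : (zz d.val e.val : ℝ) = zzR d e := by
  fin_cases d <;> fin_cases e <;> simp [zz, zzR] <;> norm_num

theorem hp_cast {L : ℕ} (f : Cfg L → ℕ) (i j : Fin L) (σ : Cfg L) :
    ((hp f i j σ : ℕ) : ℝ) = hp (fun τ => (f τ : ℝ)) i j σ := by
  unfold hp
  split_ifs <;> simp

theorem hp_lin {L : ℕ} (f g : Cfg L → ℝ) (e : ℝ) (i j : Fin L) (σ : Cfg L) :
    hp (fun τ => f τ + e * g τ) i j σ = hp f i j σ + e * hp g i j σ := by
  unfold hp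
  split_ifs <;> simp

/-- the open chain of bonds -/
noncomputable def CH (n : ℕ) : Op (n + 1) := ∑ j : Fin n, (bondR 0 (Fin.castSucc j) (Fin.succ j) + 1)

theorem CH_mulVec (n : ℕ) (t : V (n + 1)) (σ : Cfg (n + 1)) :
    (CH n *ᵥ fun τ => (getC (n + 1) t τ : ℝ)) σ = (zzs n (σ 0) (Fin.tail σ) : ℝ) * getC (n + 1) t σ +
      hops n (σ 0) (child t (σ 0).val) (child t (up3 (σ 0)).val) (child t (dn3 (σ 0)).val) (Fin.tail σ) := by
  rw [hops_eq, zzs_eq, CH, Matrix.sum_mulVec, Finset.sum_apply]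
  push_cast
  rw [Finset.sum_mul, ← Finset.sum_add_distrib]
  refine Finset.sum_congr rfl fun j _ => ?_
  rw [bond_mulVec 0 1 (Or.inl ⟨rfl, rfl⟩) _ _ (Fin.castSucc_lt_succ (i := j)).ne, zz_cast, hp_cast, hp_cast,
    one_mul]

theorem sheet_spec (lo hi n : ℕ) (p q : V (n + 2)) (σ : Cfg (n + 2)) :
    (getC (n + 2) (sheet lo hi (n + 1) p q) σ : ℝ) = if lo ≤ ds σ ∧ ds σ ≤ hi then
      (CH (n + 1) *ᵥ fun τ => (getC (n + 2) p τ : ℝ)) σ +
        zzR (σ (Fin.last (n + 1))) (σ 0) * getC (n + 2) p σ +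
        (hp (fun τ => (getC (n + 2) q τ : ℝ)) (Fin.last (n + 1)) 0 σ +
          hp (fun τ => (getC (n + 2) q τ : ℝ)) 0 (Fin.last (n + 1)) σ) else 0 := by
  have key : getC (n + 2) (sheet lo hi (n + 1) p q) σ = getC (n + 1) (go lo hi (finR (σ 0).val) (n + 1)
      (σ 0).val 0 (σ 0).val (child p (σ 0).val) (child p (up3 (σ 0)).val) (child p (dn3 (σ 0)).val)
      (child q (up3 (σ 0)).val) (child q (dn3 (σ 0)).val) q.a q.a []) (Fin.tail σ) := by
    rw [getC]
    generalize σ 0 = f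
    fin_cases f <;> rfl
  rw [key, go_spec lo hi _ (fun a b c x y S => (a + zz (σ 0).val b) * c +
    ((if (σ 0).val ≤ 1 ∧ 1 ≤ b then x else 0) + ((if b ≤ 1 ∧ 1 ≤ (σ 0).val then y else 0) + S))), ← ds_succ]
  · by_cases h : lo ≤ ds σ ∧ ds σ ≤ hi
    · rw [if_pos h, if_pos h, CH_mulVec, ← hp_cast, ← hp_cast, ← Fin.succ_last, hp_succ_zero, hp_zero_succ,
        modL_eq, modL_eq, lastD_eq, Fin.succ_last, getC.eq_2 (n + 1) p]
      simp only [show Fin.tail σ (Fin.last n) = σ (Fin.last (n + 1)) from rfl, List.map_nil, List.sum_nil]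
      simp only [zero_add, Nat.cast_add, Nat.cast_mul, zz_cast, Nat.succ_eq_add_one]
      unfold zzR
      ring
    · rw [if_neg h, if_neg h, Nat.cast_zero]
  · intro a b c x y l
    unfold finR
    rw [sumL_eq, sum_consIf', sum_consIf']
    simp [and_comm]

theorem XR_eq (n : ℕ) (g : Fin 4) : XR (n + 1) g = CH n + (bondR g (Fin.last n) 0 + 1) := by
  have e : XR (n + 1) g = ∑ j : Fin (n + 1),
      (bondR (if j.val + 1 = n + 1 then g else 0) j (finRotate (n + 1) j) + 1) := by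
    rw [XR, HR, Finset.sum_add_distrib, one_smul]
    simp only [Finset.sum_const, Finset.card_univ, Fintype.card_fin, Nat.cast_smul_eq_nsmul]
  rw [e, Fin.sum_univ_castSucc, CH]
  congr 1
  · refine Finset.sum_congr rfl fun j _ => ?_
    rw [if_neg (by have := j.2; simp only [Fin.val_castSucc]; omega), finRotate_apply,
      Fin.coeSucc_eq_succ]
  · rw [if_pos (by simp), finRotate_last]

theorem PI_mulVec {L : ℕ} (lo hi : ℕ) (X : Op L) (f : Cfg L → ℝ) (σ : Cfg L) :
    ((PI L lo hi * X) *ᵥ f) σ = if lo ≤ ds σ ∧ ds σ ≤ hi then (X *ᵥ f) σ else 0 := by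
  rw [← Matrix.mulVec_mulVec, PI, Matrix.mulVec_diagonal]
  split_ifs <;> simp

theorem sz_mulVec {L : ℕ} (j : Fin L) (f : Cfg L → ℝ) (σ : Cfg L) :
    (onS (Cm 2) j *ᵥ f) σ = (1 - ((σ j).val : ℝ)) * f σ := by
  simp only [Matrix.mulVec, dotProduct, onS, Matrix.of_apply]
  rw [Finset.sum_eq_single σ]
  · rw [if_pos (fun _ _ => rfl)]
    congr 1
    generalize σ j = a
    fin_cases a <;> simp [Cm]
    norm_num
  · intro τ _ h
    split_ifs with h1
    · have hne : σ j ≠ τ j := fun h2 => h (funext fun k => by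
        by_cases hk : k = j
        · rw [hk, h2]
        · exact (h1 k hk).symm)
      revert hne
      generalize σ j = a
      generalize τ j = b
      fin_cases a <;> fin_cases b <;> simp [Cm]
    · simp
  · simp

end EngS2A

open EngS2A EngSA

/-- Plan: first a specification of `go` by induction on `n` (generalising all arguments), for
`ρ : Cfg n`: `getC n (go lo hi fin n s dacc d self up dn wu wd wu1 wd1 oth) ρ` is `0` unless
`lo ≤ s + ds ρ ≤ hi`, and then it is `fin (dacc + ∑ zz along d, ρ 0, ρ 1, …) (last digit) (getC self ρ) x y l`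
where (for `n ≥ 1`) `x = getC wu (ρ with last digit lowered)` if that digit is `≥ 1`, `y = getC wd (ρ with last
digit raised)` if it is `≤ 1`, and `l.sum = ∑ oth at ρ + hops on the bond (d, ρ 0) through up/dn + hops inside ρ
through self`.  (It is convenient to specialise to `fin` depending on `l` only through `l.sum`; `sumL l a = a + l.sum`.)
Then compare with `bondR_apply`: `XR = ∑ j, (bondR g_j j (j+1) + 1)` and
`∑ τ, [Hop i j σ τ] f τ = if (σ i ≤ 1 ∧ 1 ≤ σ j) then f (σ with i raised, j lowered) else 0`. -/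
theorem stepR_spec (n lo hi : ℕ) (hn : 1 ≤ n) (t : V (n + 2)) (g : Fin 4) (e : ℝ)
    (hg : (g = 0 ∧ e = 1) ∨ (g = 3 ∧ e = -1)) (σ : Cfg (n + 1)) :
    (getC (n + 1) (stepR n lo hi t).a σ : ℝ) + e * (getC (n + 1) (stepR n lo hi t).b σ : ℝ) =
      ((PI (n + 1) lo hi * XR (n + 1) g) *ᵥ
        fun τ => (getC (n + 1) t.a τ : ℝ) + e * (getC (n + 1) t.b τ : ℝ)) σ := by
  obtain ⟨n, rfl⟩ : ∃ m, n = m + 1 := ⟨n - 1, by omega⟩
  have he : e * e = 1 := by rcases hg with ⟨-, rfl⟩ | ⟨-, rfl⟩ <;> norm_num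
  change (getC (n + 2) (sheet lo hi (n + 1) t.a t.b) σ : ℝ) +
    e * (getC (n + 2) (sheet lo hi (n + 1) t.b t.a) σ : ℝ) = _
  rw [sheet_spec, sheet_spec, PI_mulVec]
  split_ifs with h
  · rw [XR_eq, Matrix.add_mulVec, Pi.add_apply, bond_mulVec g e hg _ _ Fin.last_pos.ne', hp_lin, hp_lin]
    have : (CH (n + 1) *ᵥ fun τ => (getC (n + 1 + 1) t.a τ : ℝ) + e * (getC (n + 1 + 1) t.b τ : ℝ)) σ =
        (CH (n + 1) *ᵥ fun τ => (getC (n + 2) t.a τ : ℝ)) σ +
          e * (CH (n + 1) *ᵥ fun τ => (getC (n + 2) t.b τ : ℝ)) σ := by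
      simp only [Matrix.mulVec, dotProduct, mul_add, Finset.sum_add_distrib, Finset.mul_sum, mul_left_comm e]
    rw [this]
    linear_combination (-(hp (fun τ => (getC (n + 2) t.b τ : ℝ)) (Fin.last (n + 1)) 0 σ +
          hp (fun τ => (getC (n + 2) t.b τ : ℝ)) 0 (Fin.last (n + 1)) σ)) * he
  · simp

theorem stepO_spec (n lo hi : ℕ) (s : Bool) (t : V (n + 1)) (σ : Cfg (n + 1)) :
    (getC (n + 1) (stepO n s lo hi t) σ : ℝ) =
      ((PI (n + 1) lo hi * XO n (if s then 1 else -1)) *ᵥ fun τ => (getC (n + 1) t τ : ℝ)) σ := by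
  have key : getC (n + 1) (stepO n s lo hi t) σ = getC n (go lo hi
      (finO (if s then (σ 0).val else 2 - (σ 0).val)) n
      (σ 0).val 0 (σ 0).val (child t (σ 0).val) (child t (up3 (σ 0)).val) (child t (dn3 (σ 0)).val)
      t.a t.a t.a t.a []) (Fin.tail σ) := by
    rw [getC]
    generalize σ 0 = f
    cases s <;> fin_cases f <;> rfl
  have e : XO n (if s then 1 else -1) = (5 : ℝ) • CH n +
      ((-3 * (if s then 1 else -1) : ℝ) • onS (Cm 2) (0 : Fin (n + 1)) + (-3 : ℝ) • onS (Cm 2) (Fin.last n) +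
        (6 : ℝ) • (1 : Op (n + 1))) := by
    rw [XO, HO, CH, Finset.sum_add_distrib]
    simp only [Finset.sum_const, Finset.card_univ, Fintype.card_fin, ← Nat.cast_smul_eq_nsmul ℝ]
    module
  rw [key, go_spec lo hi _ (fun a b c _ _ S => (5 * a + 3 * ((if s then (σ 0).val else 2 - (σ 0).val) + b)) * c
    + 5 * S), ← ds_succ, PI_mulVec]
  · by_cases h : lo ≤ ds σ ∧ ds σ ≤ hi
    · rw [if_pos h, if_pos h, e]
      simp only [Matrix.add_mulVec, Matrix.smul_mulVec, Matrix.one_mulVec, Pi.add_apply, Pi.smul_apply,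
        smul_eq_mul, sz_mulVec, CH_mulVec, lastD_eq, List.map_nil, List.sum_nil]
      rw [getC.eq_2 n t]
      have h2 : (σ 0).val ≤ 2 := Nat.le_of_lt_succ (σ 0).2
      cases s
      · simp only [Bool.false_eq_true, if_false]
        push_cast [Nat.cast_sub h2]
        ring
      · simp only [if_true]
        push_cast
        ring
    · rw [if_neg h, if_neg h, Nat.cast_zero]
  · intro a b c x y l
    unfold finO
    rw [sumL_eq]
    simp

end Crest.Agent.R347
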