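import Crest.Agent.R347.QuadD

/-!
# R347: correctness of the quadrature checker
-/

set_option autoImplicit false

namespace Crest.Agent.R347

/-- interval fact -/
def IB (x : ℝ) (I : ℚ × ℚ) : Prop := (I.1 : ℝ) ≤ x ∧ x ≤ (I.2 : ℝ)

def EB (γ El Eu : ℚ) : Prop := (El : ℝ) ≤ Real.exp γ ∧ Real.exp γ ≤ (Eu : ℝ)

/-- Taylor polynomial with a geometric tail -/
theorem exp_le_taylor (x : ℝ) (T : ℕ) (hx : 0 ≤ x) (h : 2 * x ≤ T + 2) :
    Real.exp x ≤ ∑ m ∈ Finset.range (T + 1), x ^ m / m.factorial +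
      2 * x ^ (T + 1) / (T + 1).factorial := by
  have h1 : ‖(x : ℂ)‖ / ((T + 1).succ : ℕ) ≤ 1 / 2 := by
    rw [Complex.norm_real, Real.norm_eq_abs, abs_of_nonneg hx, div_le_iff₀ (by positivity)]
    push_cast
    linarith
  have h2 := Complex.exp_bound' h1
  have h3 : Complex.exp (x : ℂ) - ∑ m ∈ Finset.range (T + 1), (x : ℂ) ^ m / m.factorial =
      ((Real.exp x - ∑ m ∈ Finset.range (T + 1), x ^ m / m.factorial : ℝ) : ℂ) := by
    push_cast
    rfl
  rw [h3, Complex.norm_real, Complex.norm_real, Real.norm_eq_abs, Real.norm_eq_abs,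
    abs_of_nonneg hx] at h2
  have h4 := (abs_le.1 h2).2
  have h5 : x ^ (T + 1) / ((T + 1).factorial : ℝ) * 2 = 2 * x ^ (T + 1) / (T + 1).factorial := by ring
  linarith

theorem q_tay_cons (p d : ℕ) (x : ℤ) (t : List ℤ) (m pw : ℕ) (acc : ℤ) :
    tay p d (x :: t) m pw acc = tay p d t (Nat.succ m) (Nat.mul pw p)
      (Int.add (Int.mul acc (Int.ofNat (Nat.mul d m))) (Int.mul (Int.ofNat pw) x)) := rfl

theorem q_tay_gen (p d : ℕ) (hd : 0 < d) (l : List ℤ) : ∀ (m : ℕ) (acc : ℤ) (S : ℝ),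
    (acc : ℝ) = (d : ℝ) ^ m * m.factorial * S →
    ((tay p d l (m + 1) (p ^ (m + 1)) acc : ℤ) : ℝ) = (d : ℝ) ^ (m + l.length) * (m + l.length).factorial *
      (S + ∑ j ∈ Finset.range l.length,
        ((p : ℝ) / d) ^ (m + 1 + j) / (m + 1 + j).factorial * (l.getD j 0 : ℤ)) := by
  induction l with
  | nil =>
    intro m acc S h
    change (acc : ℝ) = _
    simp [h]
  | cons x t ih =>
    intro m acc S h
    rw [q_tay_cons]
    have e : Nat.mul (p ^ (m + 1)) p = p ^ (m + 1 + 1) := by simp [pow_succ]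
    rw [e]
    change ((tay p d t (m + 1 + 1) _ _ : ℤ) : ℝ) = _
    have hd' : (d : ℝ) ≠ 0 := by positivity
    rw [ih (m + 1) _ (S + ((p : ℝ) / d) ^ (m + 1) / (m + 1).factorial * x)]
    · rw [List.length_cons, Finset.sum_range_succ']
      simp only [List.getD_cons_succ, List.getD_cons_zero, add_zero]
      have e1 : m + 1 + t.length = m + (t.length + 1) := by ring
      rw [e1]
      congr 1
      rw [add_assoc, add_comm (_ * (x : ℝ))]
      congr 2
      refine Finset.sum_congr rfl fun j _ => ?_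
      have e2 : m + 1 + 1 + j = m + 1 + (j + 1) := by ring
      rw [e2]
    · simp only [Int.add_def, Int.mul_def, Int.ofNat_eq_natCast, Nat.mul_eq]
      push_cast
      rw [h, Nat.factorial_succ]
      push_cast
      have : (m.factorial : ℝ) ≠ 0 := by positivity
      rw [div_pow]
      field_simp
      ring

/-- `tay p d l 0 1 0 = d^T T! ∑ m ≤ T, (p/d)^m l m / m!` for `l.length = T + 1` -/
theorem tay_eq (p d T : ℕ) (hd : 0 < d) (l : List ℤ) (hl : l.length = T + 1) :
    ((tay p d l 0 1 0 : ℤ) : ℝ) = (d : ℝ) ^ T * T.factorial *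
      ∑ m ∈ Finset.range (T + 1), ((p : ℝ) / d) ^ m / m.factorial * (l.getD m 0 : ℤ) := by
  obtain ⟨x, t, rfl⟩ : ∃ x t, l = x :: t := by
    cases l with
    | nil => simp at hl
    | cons x t => exact ⟨x, t, rfl⟩
  have ht : t.length = T := by simpa using hl
  rw [q_tay_cons]
  have h := q_tay_gen p d hd t 0
    (Int.add (Int.mul 0 (Int.ofNat (Nat.mul d 0))) (Int.mul (Int.ofNat 1) x)) (x : ℝ) (by simp)
  have e : Nat.mul 1 p = p ^ (0 + 1) := by simp
  rw [e]
  change ((tay p d t (0 + 1) _ _ : ℤ) : ℝ) = _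
  rw [h, ht, Finset.sum_range_succ']
  simp only [zero_add, List.getD_cons_succ, List.getD_cons_zero, pow_zero, Nat.factorial_zero,
    Nat.cast_one, div_one, one_mul]
  congr 1
  rw [add_comm]
  congr 1
  refine Finset.sum_congr rfl fun j _ => ?_
  rw [add_comm 1 j]

theorem expB (γ : ℚ) (p q T : ℕ) (El Eu : ℚ) (hγ : γ = p / q) (h : expChk p q T El Eu = true) :
    EB γ El Eu := by
  simp only [expChk, Bool.and_eq_true, Nat.blt_eq, Nat.ble_eq, decide_eq_true_eq] at h
  obtain ⟨⟨⟨hq, hp⟩, h1⟩, h2⟩ := h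
  have hq' : (0 : ℝ) < q := by exact_mod_cast hq
  have ht := tay_eq p q T hq (List.replicate (T + 1) 1) (by simp)
  have hs : ∑ m ∈ Finset.range (T + 1), ((p : ℝ) / q) ^ m / m.factorial *
      (((List.replicate (T + 1) (1 : ℤ)).getD m 0 : ℤ) : ℝ) =
      ∑ m ∈ Finset.range (T + 1), ((p : ℝ) / q) ^ m / m.factorial := by
    refine Finset.sum_congr rfl fun m hm => ?_
    rw [List.getD_replicate _ (Finset.mem_range.1 hm)]
    simp
  rw [hs] at ht
  have hg : ((γ : ℚ) : ℝ) = (p : ℝ) / q := by rw [hγ]; push_cast; rfl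
  have hx : (0 : ℝ) ≤ (p : ℝ) / q := by positivity
  have h1' : (El : ℝ) * ((q : ℝ) ^ T * T.factorial) ≤
      ((tay p q (List.replicate (T + 1) 1) 0 1 0 : ℤ) : ℝ) := by exact_mod_cast h1
  have h2' : ((tay p q (List.replicate (T + 1) 1) 0 1 0 : ℤ) : ℝ) * ((q : ℝ) * (T + 1)) +
      2 * (p : ℝ) ^ (T + 1) ≤ (Eu : ℝ) * ((q : ℝ) ^ (T + 1) * (T + 1).factorial) := by
    exact_mod_cast h2
  have hpos : (0 : ℝ) < (q : ℝ) ^ T * T.factorial := by positivity
  have hpos' : (0 : ℝ) < (q : ℝ) ^ (T + 1) * (T + 1).factorial := by positivity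
  rw [ht] at h1' h2'
  refine ⟨?_, ?_⟩
  · rw [hg]
    refine le_trans ?_ (Real.sum_le_exp_of_nonneg hx (T + 1))
    rw [mul_comm] at h1'
    exact le_of_mul_le_mul_left h1' hpos
  · rw [hg]
    have hp' : (2 : ℝ) * p ≤ (T + 2) * q := by exact_mod_cast hp
    refine (exp_le_taylor _ T hx ?_).trans ?_
    · rw [← mul_div_assoc, div_le_iff₀ hq']; exact hp'
    · refine le_of_mul_le_mul_right ?_ hpos'
      refine le_trans (le_of_eq ?_) h2'
      rw [Nat.factorial_succ]
      push_cast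
      have : (T.factorial : ℝ) ≠ 0 := by positivity
      rw [div_pow (p : ℝ) q (T + 1)]
      generalize ∑ m ∈ Finset.range (T + 1), ((p : ℝ) / q) ^ m / m.factorial = S
      field_simp
      ring

theorem q_hd (l : List ℤ) : hd l = l.getD 0 0 := by cases l <;> rfl

theorem q_tl_getD (l : List ℤ) (j : ℕ) : (tl l).getD j 0 = l.getD (j + 1) 0 := by
  cases l with
  | nil => rfl
  | cons a t => rfl

theorem q_nxt (c d : ℤ) (l : List ℤ) : (nxt c d l).length = l.length - 1 ∧
    ∀ k, k + 1 < l.length → (nxt c d l).getD k 0 = c * l.getD k 0 - d * l.getD (k + 1) 0 := by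
  induction l with
  | nil => exact ⟨rfl, fun k hk => by simp at hk⟩
  | cons a t ih =>
    cases t with
    | nil => exact ⟨rfl, fun k hk => by simp at hk⟩
    | cons b t' =>
      have e : nxt c d (a :: b :: t') = (c * a - d * b) :: nxt c d (b :: t') := rfl
      rw [e]
      refine ⟨by simp [ih.1], fun k hk => ?_⟩
      cases k with
      | zero => rfl
      | succ k =>
        rw [List.getD_cons_succ, ih.2 k (by simpa using hk)]
        rfl

/-- Newton basis polynomial -/
noncomputable def qpi (ns : List ℕ) (j : ℕ) (y : ℝ) : ℝ := ∏ i ∈ Finset.range j, (y - (ns.getD i 0 : ℕ))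

theorem qpi_succ (ns : List ℕ) (j : ℕ) (y : ℝ) : qpi ns (j + 1) y = qpi ns j y * (y - (ns.getD j 0 : ℕ)) :=
  Finset.prod_range_succ _ _

theorem qpi_cons (a : ℕ) (ns : List ℕ) (j : ℕ) (y : ℝ) : qpi (a :: ns) (j + 1) y = (y - a) * qpi ns j y := by
  unfold qpi
  rw [Finset.prod_range_succ', mul_comm]
  rfl

theorem qpi_zero (ns : List ℕ) (y : ℝ) : qpi ns 0 y = 1 := rfl

theorem qpi_append (ns : List ℕ) (b j : ℕ) (hj : j ≤ ns.length) (y : ℝ) :
    qpi (ns ++ [b]) j y = qpi ns j y := by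
  unfold qpi
  refine Finset.prod_congr rfl fun i hi => ?_
  rw [List.getD_append _ _ _ _ (by have := Finset.mem_range.1 hi; omega)]

theorem qpi_append_last (ns : List ℕ) (b : ℕ) (y : ℝ) :
    qpi (ns ++ [b]) (ns.length + 1) y = qpi ns ns.length y * (y - b) := by
  rw [qpi_succ, qpi_append ns b _ le_rfl, List.getD_append_right _ _ _ _ le_rfl]
  simp

theorem q_dbl_cons (a : ℕ) (as : List ℕ) : dbl (a :: as) = a :: a :: dbl as := rfl

theorem q_dbl_length (as : List ℕ) : (dbl as).length = 2 * as.length := by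
  induction as with
  | nil => rfl
  | cons a as ih => rw [q_dbl_cons]; simp [ih]; ring

theorem qpi_dbl_nonneg (as : List ℕ) (y : ℝ) : 0 ≤ qpi (dbl as) (dbl as).length y := by
  induction as with
  | nil => exact zero_le_one
  | cons a as ih =>
    rw [q_dbl_cons, List.length_cons, List.length_cons, qpi_cons, qpi_cons, ← mul_assoc]
    exact mul_nonneg (mul_self_nonneg _) ih

theorem qpi_dbl_ge (as : List ℕ) (y0 : ℕ) (y : ℝ) (hy : (y0 : ℝ) ≤ y) (h : ∀ a ∈ as, a ≤ y0) :
    ((sqP y0 as : ℕ) : ℝ) ≤ qpi (dbl as) (dbl as).length y := by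
  induction as with
  | nil => simp [sqP, dbl, qpi]
  | cons a as ih =>
    rw [q_dbl_cons, List.length_cons, List.length_cons, qpi_cons, qpi_cons, ← mul_assoc]
    have e : sqP y0 (a :: as) = (y0 - a) * (y0 - a) * sqP y0 as := rfl
    have ha : a ≤ y0 := h a (by simp)
    rw [e]
    push_cast [Nat.cast_sub ha]
    have ha' : (a : ℝ) ≤ y0 := by exact_mod_cast ha
    refine mul_le_mul ?_ (ih fun b hb => h b (by simp [hb])) (by positivity) (mul_self_nonneg _)
    exact mul_self_le_mul_self (by linarith) (by linarith)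

theorem q_newt {ι : Type} [Fintype ι] (X : ι → ℝ) (c0 d : ℤ) (ns : List ℕ) : ∀ (w : ι → ℝ) (l : List ℤ),
    ns.length < l.length → (∀ k, k < l.length → ∑ i, w i * X i ^ k = (l.getD k 0 : ℤ)) →
    (newt c0 d ns l).length = ns.length + 1 ∧ ∀ j, j ≤ ns.length →
      (((newt c0 d ns l).getD j 0 : ℤ) : ℝ) = ∑ i, w i * qpi ns j (c0 - d * X i) := by
  induction ns with
  | nil =>
    intro w l hl h
    refine ⟨rfl, fun j hj => ?_⟩
    obtain rfl : j = 0 := by simpa using hj
    have := h 0 hl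
    change ((hd l : ℤ) : ℝ) = _
    rw [q_hd, ← this]
    simp [qpi_zero]
  | cons a ns ih =>
    intro w l hl h
    have e : newt c0 d (a :: ns) l = hd l :: newt c0 d ns (nxt (c0 - a) d l) := rfl
    have hn := q_nxt (c0 - a) d l
    have hl' : ns.length + 1 < l.length := by simpa using hl
    have := ih (fun i => w i * (c0 - d * X i - a)) (nxt (c0 - a) d l) (by rw [hn.1]; omega) (by
      intro k hk
      rw [hn.1] at hk
      rw [hn.2 k (by omega)]
      push_cast
      rw [← h k (by omega), ← h (k + 1) (by omega), Finset.mul_sum, Finset.mul_sum, ← Finset.sum_sub_distrib]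
      refine Finset.sum_congr rfl fun i _ => by ring)
    rw [e]
    refine ⟨by simp [this.1], fun j hj => ?_⟩
    cases j with
    | zero =>
      rw [List.getD_cons_zero, q_hd, ← h 0 (by omega)]
      simp [qpi_zero]
    | succ j =>
      rw [List.getD_cons_succ, this.2 j (by simpa using hj)]
      refine Finset.sum_congr rfl fun i _ => ?_
      rw [qpi_cons]
      ring

theorem q_pstep (ns : List ℕ) : ∀ v : List ℤ, (pstep ns v).length = ns.length ∧ ∀ j, j < ns.length →
    (pstep ns v).getD j 0 = (ns.getD j 0 : ℕ) * v.getD j 0 + v.getD (j + 1) 0 := by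
  induction ns with
  | nil => intro v; exact ⟨rfl, fun j hj => by simp at hj⟩
  | cons a ns ih =>
    intro v
    have e : pstep (a :: ns) v = ((a : ℤ) * hd v + hd (tl v)) :: pstep ns (tl v) := rfl
    rw [e]
    refine ⟨by simp [(ih _).1], fun j hj => ?_⟩
    cases j with
    | zero => rw [List.getD_cons_zero, q_hd, q_hd, q_tl_getD]; rfl
    | succ j =>
      rw [List.getD_cons_succ, (ih _).2 j (by simpa using hj), q_tl_getD, q_tl_getD]
      rfl

theorem q_trunc (ns : List ℕ) : ∀ v : List ℤ, (trunc ns v).length = ns.length ∧ ∀ j, j < ns.length →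
    (trunc ns v).getD j 0 = v.getD j 0 := by
  induction ns with
  | nil => intro v; exact ⟨rfl, fun j hj => by simp at hj⟩
  | cons a ns ih =>
    intro v
    have e : trunc (a :: ns) v = hd v :: trunc ns (tl v) := rfl
    rw [e]
    refine ⟨by simp [(ih _).1], fun j hj => ?_⟩
    cases j with
    | zero => rw [List.getD_cons_zero, q_hd]
    | succ j => rw [List.getD_cons_succ, (ih _).2 j (by simpa using hj), q_tl_getD]

theorem q_pm (ns : List ℕ) (σ : ℝ) (S : ℕ → ℕ → ℝ)
    (hS : ∀ m j, j < ns.length → S (m + 1) j = (ns.getD j 0 : ℕ) * S m j + S m (j + 1))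
    (hσ : ∀ m, 0 ≤ σ * S m ns.length) (n : ℕ) : ∀ (m : ℕ) (v : List ℤ),
    (∀ j, j ≤ ns.length → σ * (v.getD j 0 : ℤ) ≤ σ * S m j) →
    (pm ns n v).length = n ∧ ∀ k, k < n → σ * ((pm ns n v).getD k 0 : ℤ) ≤ σ * S (m + k) 0 := by
  induction n with
  | zero => intro m v _; exact ⟨rfl, fun k hk => by simp at hk⟩
  | succ n ih =>
    intro m v h
    have e : pm ns (n + 1) v = hd v :: pm ns n (pstep ns v) := rfl
    have hp := q_pstep ns v
    have := ih (m + 1) (pstep ns v) (by
      intro j hj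
      rcases hj.lt_or_eq with hj | rfl
      · rw [hp.2 j hj, hS m j hj]
        push_cast
        have h1 := h j hj.le
        have h2 := h (j + 1) hj
        have h3 : (0 : ℝ) ≤ (ns.getD j 0 : ℕ) := by positivity
        nlinarith [mul_le_mul_of_nonneg_left h1 h3]
      · rw [List.getD_eq_default _ _ hp.1.le]
        simpa using hσ (m + 1))
    rw [e]
    refine ⟨by simp [this.1], fun k hk => ?_⟩
    cases k with
    | zero => rw [List.getD_cons_zero, q_hd]; exact h 0 (Nat.zero_le _)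
    | succ k =>
      rw [List.getD_cons_succ]
      have e2 : m + (k + 1) = m + 1 + k := by ring
      rw [e2]
      exact this.2 k (by omega)

theorem q_pm_mom {ι : Type} [Fintype ι] (w Y : ι → ℝ) (ns : List ℕ) (σ : ℝ)
    (hσ : ∀ m i, 0 ≤ σ * (w i * Y i ^ m * qpi ns ns.length (Y i))) (n : ℕ) (v : List ℤ)
    (hl : v.length ≤ ns.length)
    (hv : ∀ j, j < ns.length → ((v.getD j 0 : ℤ) : ℝ) = ∑ i, w i * qpi ns j (Y i)) :
    (pm ns n v).length = n ∧ ∀ k, k < n → σ * ((pm ns n v).getD k 0 : ℤ) ≤ σ * ∑ i, w i * Y i ^ k := by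
  have hσ' : ∀ m, 0 ≤ σ * ∑ i, w i * Y i ^ m * qpi ns ns.length (Y i) := by
    intro m
    rw [Finset.mul_sum]
    exact Finset.sum_nonneg fun i _ => hσ m i
  have := q_pm ns σ (fun m j => ∑ i, w i * Y i ^ m * qpi ns j (Y i)) (by
    intro m j _
    rw [Finset.mul_sum, ← Finset.sum_add_distrib]
    refine Finset.sum_congr rfl fun i _ => ?_
    rw [qpi_succ]
    ring) hσ' n 0 v (by
    intro j hj
    rcases hj.lt_or_eq with hj | rfl
    · rw [hv j hj]; simp
    · rw [List.getD_eq_default _ _ hl]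
      simpa using hσ' 0)
  refine ⟨this.1, fun k hk => ?_⟩
  simpa [qpi_zero] using this.2 k hk

theorem q_sum_taylor {ι : Type} [Fintype ι] (w Y : ι → ℝ) (c : ℝ) (T : ℕ) :
    ∑ i, w i * ∑ m ∈ Finset.range (T + 1), (c * Y i) ^ m / m.factorial =
      ∑ m ∈ Finset.range (T + 1), c ^ m / m.factorial * ∑ i, w i * Y i ^ m := by
  simp only [Finset.mul_sum]
  rw [Finset.sum_comm]
  refine Finset.sum_congr rfl fun m _ => Finset.sum_congr rfl fun i _ => ?_
  rw [mul_pow]
  ring

/-- Plan.  `Y i = 2^s (R - X i) ≥ 0`, `π_j(Y) = ∏_{i<j} (Y - a_i)` for the node list `a`.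
(1) `newt` computes `ν_j = den ∑ ω π_j(Y)` (induction on the node list with a general weight `ω g`;
`nxt` shortens the list by one, the length check guarantees enough moments).
(2) certificate: if `ω i ≠ 0` and `Y i ≥ y` then `ν_last ≥ den * π(Y i) * mass ≥ den * sqP y as`.
(3) `T^m_j = den ∑ ω Y^m π_j(Y)` satisfies `T^(m+1)_j = a_j T^m_j + T^m_(j+1)`; `pstep` drops the entry `j = d`,
which is `≥ 0` for doubled nodes and `≤ 0` for doubled nodes followed by `y`; as `a_j ≥ 0`, induction on `m` gives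
`(pm …) m ≤ den ∑ ω Y^m` resp. `≥`.
(4) `Real.sum_le_exp_of_nonneg`, `exp_le_taylor`, `tay_eq`. -/
theorem quad_core {ι : Type} [Fintype ι] (ω X : ι → ℝ) (hω : ∀ i, 0 ≤ ω i)
    (hmass : ∀ i, ω i ≠ 0 → 1 ≤ ∑ j ∈ Finset.univ.filter (fun j => X j = X i), ω j)
    (R : ℕ) (hR : ∀ i, X i ≤ R) (s T den : ℕ) (mu : List ℤ)
    (hmu : ∀ k, k < mu.length → (den : ℝ) * ∑ i, ω i * X i ^ k = (mu.getD k 0 : ℤ))
    (as bs : List ℕ) (y : ℕ) (tg : List Tg) (h : quadChk R s T den mu as bs y tg = true)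
    (t : Tg) (ht : t ∈ tg) (γ : ℚ) (hγ : EB γ t.El t.Eu) :
    IB (Real.exp (-(γ : ℝ)) * ∑ i, ω i * Real.exp ((t.p : ℝ) / t.q * (R - X i))) (t.lo, t.hi) := by
  simp only [quadChk, quadLo, certChk, allLo, allHi, Bool.and_eq_true, Nat.blt_eq, Nat.ble_eq,
    decide_eq_true_eq, List.all_eq_true] at h
  obtain ⟨⟨⟨⟨⟨hden, hla⟩, hlb⟩, htg⟩, ⟨has, hcert⟩, hlo⟩, hhi⟩ := h
  obtain ⟨⟨hq, hEl⟩, hhi0⟩ := htg t ht
  have hlo := hlo t ht
  have hhi := hhi t ht
  set c0 : ℤ := ((2 ^ s * R : ℕ) : ℤ) with hc0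
  set d0 : ℤ := ((2 ^ s : ℕ) : ℤ) with hd0
  set w : ι → ℝ := fun i => (den : ℝ) * ω i with hw
  set Y : ι → ℝ := fun i => (c0 : ℝ) - d0 * X i with hY
  have hden' : (0 : ℝ) < den := by exact_mod_cast hden
  have hw0 : ∀ i, 0 ≤ w i := fun i => mul_nonneg hden'.le (hω i)
  have hYe : ∀ i, Y i = 2 ^ s * (R - X i) := by
    intro i
    simp only [hY, hc0, hd0]
    push_cast
    ring
  have hY0 : ∀ i, 0 ≤ Y i := by
    intro i
    rw [hYe]
    exact mul_nonneg (by positivity) (by linarith [hR i])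
  have hmom : ∀ k, k < mu.length → ∑ i, w i * X i ^ k = (mu.getD k 0 : ℤ) := by
    intro k hk
    rw [← hmu k hk, Finset.mul_sum]
    exact Finset.sum_congr rfl fun i _ => by simp only [hw]; ring
  have hna := q_newt X c0 d0 (dbl as) w mu (by rw [q_dbl_length]; exact hla) hmom
  have hnb := q_newt X c0 d0 (dbl bs) w mu (by rw [q_dbl_length]; exact hlb) hmom
  -- certificate
  have hYy : ∀ i, ω i ≠ 0 → Y i ≤ y := by
    intro i hi
    by_contra hlt
    push Not at hlt
    have e : (newt c0 d0 (dbl as) mu).getLastD 0 = (newt c0 d0 (dbl as) mu).getD (dbl as).length 0 := by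
      rw [List.getLastD_eq_getLast?, List.getLast?_eq_getElem?, hna.1, List.getD_eq_getElem?_getD]
      rfl
    rw [e] at hcert
    have hcert' : (((newt c0 d0 (dbl as) mu).getD (dbl as).length 0 : ℤ) : ℝ) <
        (den : ℝ) * ((sqP y as : ℕ) : ℝ) := by exact_mod_cast hcert
    rw [hna.2 _ le_rfl] at hcert'
    have h1 := qpi_dbl_ge as y (Y i) hlt.le has
    have h2 : ∑ j ∈ Finset.univ.filter (fun j => X j = X i), w j * qpi (dbl as) (dbl as).length (Y j) ≤
        ∑ j, w j * qpi (dbl as) (dbl as).length (Y j) :=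
      Finset.sum_le_sum_of_subset_of_nonneg (Finset.filter_subset _ _)
        fun j _ _ => mul_nonneg (hw0 j) (qpi_dbl_nonneg _ _)
    have h3 : ∑ j ∈ Finset.univ.filter (fun j => X j = X i), w j * qpi (dbl as) (dbl as).length (Y j) =
        den * qpi (dbl as) (dbl as).length (Y i) * ∑ j ∈ Finset.univ.filter (fun j => X j = X i), ω j := by
      rw [Finset.mul_sum]
      refine Finset.sum_congr rfl fun j hj => ?_
      have hj' : X j = X i := (Finset.mem_filter.1 hj).2
      have : Y j = Y i := by simp only [hY, hj']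
      rw [this]
      simp only [hw]
      ring
    have h4 := hmass i hi
    have h5 := qpi_dbl_nonneg as (Y i)
    have h6 : (den : ℝ) * ((sqP y as : ℕ) : ℝ) ≤ den * qpi (dbl as) (dbl as).length (Y i) :=
      mul_le_mul_of_nonneg_left h1 hden'.le
    have h7 : (den : ℝ) * qpi (dbl as) (dbl as).length (Y i) ≤
        den * qpi (dbl as) (dbl as).length (Y i) * ∑ j ∈ Finset.univ.filter (fun j => X j = X i), ω j :=
      le_mul_of_one_le_right (mul_nonneg hden'.le h5) h4
    have h8 : ∑ j, w j * qpi (dbl as) (dbl as).length (Y j) < (den : ℝ) * ((sqP y as : ℕ) : ℝ) := hcert'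
    linarith
  set D : ℕ := t.q * 2 ^ s with hD
  have hD0 : 0 < D := by positivity
  have hD' : (0 : ℝ) < D := by exact_mod_cast hD0
  have hq' : (0 : ℝ) < t.q := by exact_mod_cast hq
  set c : ℝ := (t.p : ℝ) / D with hc
  have hc0' : 0 ≤ c := by positivity
  have hx : ∀ i, (t.p : ℝ) / t.q * (R - X i) = c * Y i := by
    intro i
    rw [hYe, hc, hD]
    push_cast
    field_simp
  simp only [hx]
  have hsum0 : 0 ≤ ∑ i, ω i * Real.exp (c * Y i) :=
    Finset.sum_nonneg fun i _ => mul_nonneg (hω i) (Real.exp_pos _).le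
  have hwsum : (den : ℝ) * ∑ i, ω i * Real.exp (c * Y i) = ∑ i, w i * Real.exp (c * Y i) := by
    rw [Finset.mul_sum]
    exact Finset.sum_congr rfl fun i _ => by simp only [hw]; ring
  have hcm : ∀ m : ℕ, 0 ≤ c ^ m / (m.factorial : ℝ) := fun m => by positivity
  refine ⟨?_, ?_⟩
  · -- lower bound
    change ((t.lo : ℚ) : ℝ) ≤ _
    simp only [loChk, Bool.or_eq_true, decide_eq_true_eq] at hlo
    by_cases hl0 : t.lo ≤ 0
    · have : ((t.lo : ℚ) : ℝ) ≤ 0 := by exact_mod_cast hl0
      exact this.trans (mul_nonneg (Real.exp_pos _).le hsum0)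
    have hlo := hlo.resolve_left hl0
    have hl0' : (0 : ℝ) ≤ t.lo := by exact_mod_cast (not_le.1 hl0).le
    have htr := q_trunc (dbl as) (newt c0 d0 (dbl as) mu)
    have hpm := q_pm_mom w Y (dbl as) 1 (fun m i => by
      rw [one_mul]
      exact mul_nonneg (mul_nonneg (hw0 i) (pow_nonneg (hY0 i) _)) (qpi_dbl_nonneg _ _)) (T + 1)
      (trunc (dbl as) (newt c0 d0 (dbl as) mu)) htr.1.le (fun j hj => by
        rw [htr.2 j hj, hna.2 j hj.le])
    set l := pm (dbl as) (T + 1) (trunc (dbl as) (newt c0 d0 (dbl as) mu))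
    have hlo' : (t.lo : ℝ) * t.Eu * ((den : ℝ) * (D : ℝ) ^ T * T.factorial) ≤
        ((tay t.p D l 0 1 0 : ℤ) : ℝ) := by exact_mod_cast hlo
    rw [tay_eq t.p D T hD0 l hpm.1] at hlo'
    have h1 : ∑ m ∈ Finset.range (T + 1), c ^ m / m.factorial * ((l.getD m 0 : ℤ) : ℝ) ≤
        ∑ i, w i * Real.exp (c * Y i) := by
      calc _ ≤ ∑ m ∈ Finset.range (T + 1), c ^ m / m.factorial * ∑ i, w i * Y i ^ m := by
            refine Finset.sum_le_sum fun m hm => mul_le_mul_of_nonneg_left ?_ (hcm m)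
            simpa using hpm.2 m (Finset.mem_range.1 hm)
        _ = _ := (q_sum_taylor w Y c T).symm
        _ ≤ _ := Finset.sum_le_sum fun i _ => mul_le_mul_of_nonneg_left
            (Real.sum_le_exp_of_nonneg (mul_nonneg hc0' (hY0 i)) _) (hw0 i)
    have hpos : (0 : ℝ) < (den : ℝ) * (D : ℝ) ^ T * T.factorial := by positivity
    have h2 : (t.lo : ℝ) * t.Eu ≤ ∑ i, ω i * Real.exp (c * Y i) := by
      refine le_of_mul_le_mul_right (hlo'.trans ?_) hpos
      calc _ ≤ (D : ℝ) ^ T * T.factorial * ∑ i, w i * Real.exp (c * Y i) :=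
            mul_le_mul_of_nonneg_left h1 (by positivity)
        _ = _ := by rw [← hwsum]; ring
    have h3 : (t.lo : ℝ) * Real.exp γ ≤ ∑ i, ω i * Real.exp (c * Y i) :=
      (mul_le_mul_of_nonneg_left hγ.2 hl0').trans h2
    rw [Real.exp_neg, ← div_eq_inv_mul, le_div_iff₀ (Real.exp_pos _)]
    exact h3
  · -- upper bound
    change _ ≤ ((t.hi : ℚ) : ℝ)
    simp only [hiChk, Bool.and_eq_true, decide_eq_true_eq, Nat.ble_eq] at hhi
    obtain ⟨hpy, hhi⟩ := hhi
    have hlen : (dbl bs ++ [y]).length = (dbl bs).length + 1 := by simp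
    have hpm := q_pm_mom w Y (dbl bs ++ [y]) (-1) (fun m i => by
      rw [hlen, qpi_append_last]
      by_cases hi : ω i = 0
      · simp [hw, hi]
      · have h1 := mul_nonneg (mul_nonneg (mul_nonneg (hw0 i) (pow_nonneg (hY0 i) m))
          (qpi_dbl_nonneg bs (Y i))) (sub_nonneg.2 (hYy i hi))
        linarith) (T + 1)
      (newt c0 d0 (dbl bs) mu) (by rw [hlen, hnb.1]) (fun j hj => by
        rw [hlen] at hj
        rw [hnb.2 j (by omega)]
        exact Finset.sum_congr rfl fun i _ => by rw [qpi_append _ _ _ (by omega)])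
    set l := pm (dbl bs ++ [y]) (T + 1) (newt c0 d0 (dbl bs) mu)
    have hhi' : ((tay t.p D l 0 1 0 : ℤ) : ℝ) * ((D : ℝ) * (T + 1)) +
        2 * ((hd mu : ℤ) : ℝ) * ((t.p : ℝ) * y) ^ (T + 1) ≤
        (t.hi : ℝ) * t.El * ((den : ℝ) * (D : ℝ) ^ (T + 1) * (T + 1).factorial) := by exact_mod_cast hhi
    rw [tay_eq t.p D T hD0 l hpm.1] at hhi'
    have hmu0 : ((hd mu : ℤ) : ℝ) = ∑ i, w i := by
      rw [q_hd, ← hmom 0 (by omega)]
      simp
    have hpy' : 2 * (c * y) ≤ T + 2 := by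
      have : (2 : ℝ) * (t.p * y) ≤ (T + 2) * D := by exact_mod_cast hpy
      rw [hc, div_mul_eq_mul_div, ← mul_div_assoc, div_le_iff₀ hD']
      exact this
    have h1 : ∑ i, w i * Real.exp (c * Y i) ≤
        ∑ m ∈ Finset.range (T + 1), c ^ m / m.factorial * ((l.getD m 0 : ℤ) : ℝ) +
          (∑ i, w i) * (2 * (c * y) ^ (T + 1) / (T + 1).factorial) := by
      calc _ ≤ ∑ i, (w i * ∑ m ∈ Finset.range (T + 1), (c * Y i) ^ m / m.factorial +
            w i * (2 * (c * y) ^ (T + 1) / (T + 1).factorial)) := by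
            refine Finset.sum_le_sum fun i _ => ?_
            by_cases hi : ω i = 0
            · simp [hw, hi]
            rw [← mul_add]
            refine mul_le_mul_of_nonneg_left ?_ (hw0 i)
            have hcy : c * Y i ≤ c * y := mul_le_mul_of_nonneg_left (hYy i hi) hc0'
            have hcy0 : 0 ≤ c * Y i := mul_nonneg hc0' (hY0 i)
            refine (exp_le_taylor _ T hcy0 (by linarith)).trans ?_
            gcongr
        _ = ∑ m ∈ Finset.range (T + 1), c ^ m / m.factorial * ∑ i, w i * Y i ^ m +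
          (∑ i, w i) * (2 * (c * y) ^ (T + 1) / (T + 1).factorial) := by
            rw [Finset.sum_add_distrib, q_sum_taylor, Finset.sum_mul]
        _ ≤ _ := by
            refine add_le_add_left (Finset.sum_le_sum fun m hm => mul_le_mul_of_nonneg_left ?_ (hcm m)) _
            simpa using hpm.2 m (Finset.mem_range.1 hm)
    have hpos : (0 : ℝ) < (den : ℝ) * (D : ℝ) ^ (T + 1) * (T + 1).factorial := by positivity
    have h2 : ∑ i, ω i * Real.exp (c * Y i) ≤ (t.hi : ℝ) * t.El := by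
      refine le_of_mul_le_mul_right (le_trans ?_ hhi') hpos
      calc _ = (D : ℝ) ^ (T + 1) * (T + 1).factorial * ∑ i, w i * Real.exp (c * Y i) := by
            rw [← hwsum]; ring
        _ ≤ (D : ℝ) ^ (T + 1) * (T + 1).factorial *
            (∑ m ∈ Finset.range (T + 1), c ^ m / m.factorial * ((l.getD m 0 : ℤ) : ℝ) +
            (∑ i, w i) * (2 * (c * y) ^ (T + 1) / (T + 1).factorial)) :=
            mul_le_mul_of_nonneg_left h1 (by positivity)
        _ = _ := by
            rw [hmu0]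
            generalize ∑ m ∈ Finset.range (T + 1), c ^ m / m.factorial * ((l.getD m 0 : ℤ) : ℝ) = S
            rw [hc, div_mul_eq_mul_div, div_pow, Nat.factorial_succ]
            push_cast
            have : (T.factorial : ℝ) ≠ 0 := by positivity
            field_simp
            ring
    have hhi0' : (0 : ℝ) ≤ t.hi := by exact_mod_cast hhi0
    have h3 : ∑ i, ω i * Real.exp (c * Y i) ≤ (t.hi : ℝ) * Real.exp γ :=
      h2.trans (mul_le_mul_of_nonneg_left hγ.1 hhi0')
    rw [Real.exp_neg, ← div_eq_inv_mul, div_le_iff₀ (Real.exp_pos _)]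
    exact h3

end Crest.Agent.R347
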