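import Crest.Agent.R347.Pack
import Crest.Agent.R347.Quad

/-!
# R347: polynomial filters for the spectral families
-/

set_option autoImplicit false

namespace Crest.Agent.R347

/-- upper bound of `a * x` for `x ∈ I` -/
def cu (a : ℚ) (I : ℚ × ℚ) : ℚ := if 0 ≤ a then a * I.2 else a * I.1

/-- `Z (n0 + j) ∈ I j` -/
def SecI (Z : ℕ → ℝ) (n0 : ℕ) (I : List (ℚ × ℚ)) : Prop :=
  ∀ j, j < I.length → IB (Z (n0 + j)) (I.getD j (0, 0))

theorem SecI.nil (Z : ℕ → ℝ) (n0 : ℕ) : SecI Z n0 [] := by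
  intro j hj
  simp at hj

theorem SecI.cons {Z : ℕ → ℝ} {n0 : ℕ} {I0 : ℚ × ℚ} {I : List (ℚ × ℚ)} (h0 : IB (Z n0) I0)
    (h : SecI Z (n0 + 1) I) : SecI Z n0 (I0 :: I) := by
  intro j hj
  cases j with
  | zero => simpa using h0
  | succ j =>
    have := h j (by simpa using hj)
    rw [List.getD_cons_succ, show n0 + (j + 1) = n0 + 1 + j by ring]
    exact this

/-- upper bound of `∑ x⁶ (x² - s x + t)²` from the power sums `6..10` -/
def fS (s t : ℚ) (I : List (ℚ × ℚ)) : ℚ :=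
  cu (t ^ 2) (I.getD 0 (0, 0)) + cu (-2 * s * t) (I.getD 1 (0, 0)) + cu (s ^ 2 + 2 * t) (I.getD 2 (0, 0)) +
    cu (-2 * s) (I.getD 3 (0, 0)) + cu 1 (I.getD 4 (0, 0))

/-- filter data: `x ≤ M` by `x³(x² - s x + t)`, `-m ≤ x` by `x³(x² - s' x + t')` -/
structure FD where
  s : ℚ
  t : ℚ
  M : ℚ
  s' : ℚ
  t' : ℚ
  m : ℚ

def FD.ok (d : FD) (I : List (ℚ × ℚ)) : Prop :=
  I.length = 5 ∧ 0 < d.M ∧ d.s ≤ 2 * d.M ∧ 0 < d.M ^ 2 - d.s * d.M + d.t ∧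
    fS d.s d.t I ≤ (d.M ^ 3 * (d.M ^ 2 - d.s * d.M + d.t)) ^ 2 ∧
    0 < d.m ∧ -2 * d.m ≤ d.s' ∧ 0 < d.m ^ 2 + d.s' * d.m + d.t' ∧
    fS d.s' d.t' I ≤ (d.m ^ 3 * (d.m ^ 2 + d.s' * d.m + d.t')) ^ 2

instance (d : FD) (I : List (ℚ × ℚ)) : Decidable (d.ok I) := by unfold FD.ok; infer_instance

variable {Z c : ℕ → ℝ} {X W : ℕ → ℝ}

theorem cu_le {x : ℝ} {I : ℚ × ℚ} (h : IB x I) (a : ℚ) : (a : ℝ) * x ≤ (cu a I : ℚ) := by
  unfold cu
  split_ifs with ha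
  · push_cast
    exact mul_le_mul_of_nonneg_left h.2 (by exact_mod_cast ha)
  · push_cast
    exact mul_le_mul_of_nonpos_left h.1 (by exact_mod_cast (not_le.1 ha).le)

theorem filt_sq (F : Fam Z c X W) (I : List (ℚ × ℚ)) (hI : SecI Z 6 I) (hl : I.length = 5) (s t : ℚ) (i : ℕ) :
    (X i ^ 3 * (X i ^ 2 - s * X i + t)) ^ 2 ≤ (fS s t I : ℚ) := by
  have h := ((((((F.hZ 6 (by norm_num)).mul_left ((t ^ 2 : ℚ) : ℝ)).add
    ((F.hZ 7 (by norm_num)).mul_left ((-2 * s * t : ℚ) : ℝ))).add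
    ((F.hZ 8 (by norm_num)).mul_left ((s ^ 2 + 2 * t : ℚ) : ℝ))).add
    ((F.hZ 9 (by norm_num)).mul_left ((-2 * s : ℚ) : ℝ))).add
    ((F.hZ 10 (by norm_num)).mul_left ((1 : ℚ) : ℝ)))
  have e : ∀ j, ((t ^ 2 : ℚ) : ℝ) * X j ^ 6 + ((-2 * s * t : ℚ) : ℝ) * X j ^ 7 +
      ((s ^ 2 + 2 * t : ℚ) : ℝ) * X j ^ 8 + ((-2 * s : ℚ) : ℝ) * X j ^ 9 + ((1 : ℚ) : ℝ) * X j ^ 10 =
      (X j ^ 3 * (X j ^ 2 - s * X j + t)) ^ 2 := by
    intro j
    push_cast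
    ring
  simp only [e] at h
  refine (le_hasSum h i fun j _ => sq_nonneg _).trans ?_
  unfold fS
  simp only [Rat.cast_add]
  have h0 := cu_le (hI 0 (by omega)) (t ^ 2)
  have h1 := cu_le (hI 1 (by omega)) (-2 * s * t)
  have h2 := cu_le (hI 2 (by omega)) (s ^ 2 + 2 * t)
  have h3 := cu_le (hI 3 (by omega)) (-2 * s)
  have h4 := cu_le (hI 4 (by omega)) 1
  simp only [Rat.cast_add] at h2
  norm_num only at h0 h1 h2 h3 h4 ⊢
  linarith

theorem filt_mono (x M s t : ℝ) (hM : 0 < M) (hs : s ≤ 2 * M) (hq : 0 < M ^ 2 - s * M + t)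
    (h : (x ^ 3 * (x ^ 2 - s * x + t)) ^ 2 ≤ (M ^ 3 * (M ^ 2 - s * M + t)) ^ 2) : x ≤ M := by
  by_contra hx
  push Not at hx
  have h1 : M ^ 2 - s * M + t ≤ x ^ 2 - s * x + t := by nlinarith
  have h2 : M ^ 3 < x ^ 3 := pow_lt_pow_left₀ hx hM.le (by norm_num)
  have h3 : M ^ 3 * (M ^ 2 - s * M + t) < x ^ 3 * (x ^ 2 - s * x + t) :=
    mul_lt_mul h2 h1 hq (pow_nonneg (hM.trans hx).le _)
  have h4 := pow_lt_pow_left₀ h3 (by positivity) (two_ne_zero)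
  linarith

/-- Plan: `HasSum (fun i => (X i^3 (X i^2 - s X i + t))^2) (t² Z6 - 2st Z7 + (s²+2t) Z8 - 2s Z9 + Z10)`, each term is
at most the sum (`le_hasSum`), and `x ↦ x³ (x² - s x + t)` is strictly increasing and positive on `[M, ∞)`. -/
theorem filt_abs (F : Fam Z c X W) (I : List (ℚ × ℚ)) (hI : SecI Z 6 I) (d : FD) (h : d.ok I) (i : ℕ) :
    -(d.m : ℝ) ≤ X i ∧ X i ≤ d.M := by
  obtain ⟨hl, hM, hs, hq, hS, hm, hs', hq', hS'⟩ := h
  have h1 := filt_sq F I hI hl d.s d.t i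
  have h2 := filt_sq F I hI hl d.s' d.t' i
  refine ⟨?_, ?_⟩
  · have := filt_mono (-X i) d.m (-d.s') d.t' (by exact_mod_cast hm)
      (by have : (-2 : ℝ) * d.m ≤ d.s' := by exact_mod_cast hs'
          linarith)
      (by have : (0 : ℝ) < d.m ^ 2 + d.s' * d.m + d.t' := by exact_mod_cast hq'
          linarith)
      (by have h3 : ((fS d.s' d.t' I : ℚ) : ℝ) ≤ ((d.m : ℝ) ^ 3 * (d.m ^ 2 + d.s' * d.m + d.t')) ^ 2 := by
            exact_mod_cast hS'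
          calc _ = (X i ^ 3 * (X i ^ 2 - d.s' * X i + d.t')) ^ 2 := by ring
            _ ≤ _ := h2.trans h3
            _ = _ := by ring)
    linarith
  · exact filt_mono (X i) d.M d.s d.t (by exact_mod_cast hM) (by exact_mod_cast hs) (by exact_mod_cast hq)
      (h1.trans (by exact_mod_cast hS))

theorem even_pow_le {x r : ℝ} (hx : |x| ≤ r) {n k : ℕ} (hn : Even n) (hk : Even k) (h : n ≤ k) :
    x ^ k ≤ r ^ (k - n) * x ^ n := by
  rw [← hk.pow_abs, ← hn.pow_abs]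
  conv_lhs => rw [← Nat.sub_add_cancel h, pow_add]
  exact mul_le_mul_of_nonneg_right (pow_le_pow_left₀ (abs_nonneg _) hx _) (by positivity)

theorem two_conv (a r y M : ℝ) (hy0 : 0 ≤ y) (hya : y ≤ a) (haM : a ≤ M) (hr : 0 ≤ r)
    (h : a ^ 10 + r ^ 10 = M ^ 10 + y ^ 10) (L : ℕ) (h10 : 10 ≤ L) : a ^ L + r ^ L ≤ M ^ L + y ^ L := by
  have ha : 0 ≤ a := hy0.trans hya
  have hM : 0 ≤ M := ha.trans haM
  have e : ∀ x : ℝ, 0 ≤ x → x ^ L = (x ^ 10) ^ ((L : ℝ) / 10) := by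
    intro x hx
    rw [← Real.rpow_natCast x 10, ← Real.rpow_mul hx, ← Real.rpow_natCast x L]
    congr 1
    push_cast
    ring
  have hs : (1 : ℝ) ≤ (L : ℝ) / 10 := by
    have : (10 : ℝ) ≤ L := by exact_mod_cast h10
    linarith
  have hc := convexOn_rpow hs
  have h1 : a ^ 10 ∈ Set.Icc (y ^ 10) (M ^ 10) :=
    ⟨pow_le_pow_left₀ hy0 hya _, pow_le_pow_left₀ ha haM _⟩
  obtain ⟨u, v, hu, hv, huv, huv'⟩ := (Convex.mem_Icc (h1.1.trans h1.2)).1 h1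
  have h2 := hc.2 (x := y ^ 10) (y := M ^ 10) (by simp; positivity) (by simp; positivity) hu hv huv
  have h3 := hc.2 (x := y ^ 10) (y := M ^ 10) (by simp; positivity) (by simp; positivity) hv hu
    (by linarith)
  simp only [smul_eq_mul] at h2 h3
  have h4 : v * y ^ 10 + u * M ^ 10 = r ^ 10 := by
    have : v = 1 - u := by linarith
    subst this
    linarith
  rw [huv'] at h2
  rw [h4] at h3
  rw [e a ha, e r hr, e M hM, e y hy0]
  have : v = 1 - u := by linarith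
  subst this
  linarith

/-- Plan: if all `|X i| ≤ y` then `Z L ≤ y^(L-10) (M^10 + y^10)`.  Otherwise take `i` with `|X i| > y`, put
`u = X i^10 ∈ [y^10, M^10]`; the other terms have `∑ X j^10 ≤ ρ = M^10 + y^10 - u`, so `∑ X j^L ≤ ρ^(L/10)`,
and `u^s + ρ^s ≤ (M^10)^s + (y^10)^s` by convexity of `t ↦ t^s`, `s = L/10 ≥ 1`. -/
theorem sum_le_two (F : Fam Z c X W) (M y : ℝ) (hX : ∀ i, |X i| ≤ M) (hy0 : 0 ≤ y) (hy : y ≤ M)
    (hz : Z 10 ≤ M ^ 10 + y ^ 10) (L : ℕ) (hL : Even L) (h10 : 10 ≤ L) : Z L ≤ M ^ L + y ^ L := by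
  have h10e : Even 10 := by decide
  by_cases hall : ∀ i, |X i| ≤ y
  · have h1 := hasSum_le (fun i => even_pow_le (hall i) h10e hL h10) (F.hZ L (by omega))
      ((F.hZ 10 (by norm_num)).mul_left (y ^ (L - 10)))
    have h2 : y ^ (L - 10) * Z 10 ≤ y ^ (L - 10) * (M ^ 10 + y ^ 10) :=
      mul_le_mul_of_nonneg_left hz (by positivity)
    have h3 : y ^ (L - 10) * M ^ 10 ≤ M ^ (L - 10) * M ^ 10 :=
      mul_le_mul_of_nonneg_right (pow_le_pow_left₀ hy0 hy _) (by positivity)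
    rw [← pow_add, Nat.sub_add_cancel h10] at h3
    rw [mul_add, ← pow_add, Nat.sub_add_cancel h10] at h2
    linarith
  · push Not at hall
    obtain ⟨i, hi⟩ := hall
    have ha : |X i| ^ 10 ≤ M ^ 10 := pow_le_pow_left₀ (abs_nonneg _) (hX i) _
    have hρ : 0 ≤ M ^ 10 + y ^ 10 - |X i| ^ 10 := by
      have : 0 ≤ y ^ 10 := by positivity
      linarith
    obtain ⟨r, hr0, hr⟩ : ∃ r : ℝ, 0 ≤ r ∧ r ^ 10 = M ^ 10 + y ^ 10 - |X i| ^ 10 :=
      ⟨(M ^ 10 + y ^ 10 - |X i| ^ 10) ^ ((10 : ℕ) : ℝ)⁻¹, by positivity,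
        Real.rpow_inv_natCast_pow hρ (by norm_num)⟩
    have s10 := hasSum_ite_sub_hasSum (F.hZ 10 (by norm_num)) i
    have sL := hasSum_ite_sub_hasSum (F.hZ L (by omega)) i
    have hz' : Z 10 - X i ^ 10 ≤ r ^ 10 := by
      rw [hr, h10e.pow_abs]
      linarith
    have hj : ∀ j, j ≠ i → |X j| ≤ r := by
      intro j hj
      have h1 := le_hasSum s10 j fun k _ => by
        split_ifs
        · exact le_rfl
        · positivity
      rw [if_neg hj, ← h10e.pow_abs] at h1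
      exact le_of_pow_le_pow_left₀ (by norm_num : (10 : ℕ) ≠ 0) hr0 (h1.trans hz')
    have h1 := hasSum_le (fun j => by
      by_cases hji : j = i
      · simp [hji]
      · simp only [if_neg hji]
        exact even_pow_le (hj j hji) h10e hL h10) sL (s10.mul_left (r ^ (L - 10)))
    have h2 : r ^ (L - 10) * (Z 10 - X i ^ 10) ≤ r ^ (L - 10) * r ^ 10 :=
      mul_le_mul_of_nonneg_left hz' (by positivity)
    rw [← pow_add, Nat.sub_add_cancel h10] at h2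
    have h3 := two_conv |X i| r y M hy0 hi.le (hX i) hr0 (by linarith) L h10
    rw [hL.pow_abs] at h3
    linarith

/-- upper bound of `Λ(p²)`, `p = x³ - e1 x² + e2 x - e3` -/
def oS (e1 e2 e3 : ℚ) (J : List (ℚ × ℚ)) : ℚ :=
  cu (e3 ^ 2) (J.getD 0 (0, 0)) + cu (-2 * e2 * e3) (J.getD 1 (0, 0)) +
    cu (e2 ^ 2 + 2 * e1 * e3) (J.getD 2 (0, 0)) + cu (-2 * e3 - 2 * e1 * e2) (J.getD 3 (0, 0)) +
    cu (e1 ^ 2 + 2 * e2) (J.getD 4 (0, 0)) + cu (-2 * e1) (J.getD 5 (0, 0)) + cu 1 (J.getD 6 (0, 0))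

/-- weighted filter data: roots `r1 r2 r3`, cut `xs`, exponents `c1 c2 c3`, output coefficients -/
structure OD where
  r1 : ℚ
  r2 : ℚ
  r3 : ℚ
  xs : ℚ
  c1 : ℕ
  c2 : ℕ
  c3 : ℕ
  cf : ℚ
  cg : ℚ
  k0 : ℕ

def OD.ok (d : OD) (M m : ℚ) (J : List (ℚ × ℚ)) : Prop :=
  J.length = 7 ∧ m ≤ d.xs ∧ 0 < d.xs ∧ d.xs ≤ M ∧ d.r1 < d.xs ∧ d.r2 < d.xs ∧ d.r3 < d.xs ∧
    1 ≤ d.c1 ∧ 1 ≤ d.c2 ∧ 1 ≤ d.c3 ∧ d.xs ≤ d.c1 * (d.xs - d.r1) ∧ d.xs ≤ d.c2 * (d.xs - d.r2) ∧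
    d.xs ≤ d.c3 * (d.xs - d.r3) ∧ 2 * (d.c1 + d.c2 + d.c3) ≤ d.k0 ∧ 6 ≤ d.k0 ∧ 0 ≤ d.cf ∧
    oS (d.r1 + d.r2 + d.r3) (d.r1 * d.r2 + d.r1 * d.r3 + d.r2 * d.r3) (d.r1 * d.r2 * d.r3) J ≤
      d.cf * ((M - d.r1) * (M - d.r2) * (M - d.r3)) ^ 2 ∧
    (J.getD 6 (0, 0)).2 ≤ d.cg * d.xs ^ 6

instance (d : OD) (M m : ℚ) (J : List (ℚ × ℚ)) : Decidable (d.ok M m J) := by
  unfold OD.ok; infer_instance

theorem bern_root (x xs M r : ℝ) (n : ℕ) (hxs : 0 < xs) (hx : xs ≤ x) (hM : x ≤ M) (hr : r < xs) (hn : 1 ≤ n)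
    (h : xs ≤ n * (xs - r)) : (M - r) * x ^ n ≤ M ^ n * (x - r) := by
  have hx0 : 0 < x := hxs.trans_le hx
  have hn' : (1 : ℝ) ≤ n := by exact_mod_cast hn
  have h1 : x ≤ n * (x - r) := by nlinarith
  have hh : 0 ≤ M / x - 1 := by
    rw [sub_nonneg, le_div_iff₀ hx0]
    linarith
  have h2 := one_add_mul_le_pow (a := M / x - 1) (by linarith) n
  rw [add_sub_cancel, div_pow, le_div_iff₀ (by positivity)] at h2
  have h3 : M - r ≤ (1 + n * (M / x - 1)) * (x - r) := by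
    have h4 : x * (M / x - 1) = M - x := by field_simp
    nlinarith [mul_le_mul_of_nonneg_right h1 hh]
  calc _ ≤ (1 + n * (M / x - 1)) * (x - r) * x ^ n := mul_le_mul_of_nonneg_right h3 (by positivity)
    _ = (1 + n * (M / x - 1)) * x ^ n * (x - r) := by ring
    _ ≤ _ := mul_le_mul_of_nonneg_right h2 (by linarith)

/-- Plan: `p x = (x-r1)(x-r2)(x-r3)`.  For `xs ≤ x ≤ M`: `(M - r)/(x - r) ≤ 1 + c (M/x - 1) ≤ (M/x)^c` (Bernoulli,
`x ≤ c (x - r)`), so `x^k p(M)² ≤ M^k p(x)²` for `k ≥ 2(c1+c2+c3)`; for `|x| ≤ xs`: `x^k ≤ xs^(k-6) x^6`.  Sum over a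
finite set with `Fam.pos` (`d = 7`, coefficients of `p²`) and `sum_le_hasSum`; `hasSum_le_of_sum_le`. -/
theorem filt_top (F : Fam Z c X W) (M m : ℚ) (hX : ∀ i, -(m : ℝ) ≤ X i ∧ X i ≤ M) (J : List (ℚ × ℚ))
    (hJ : SecI c 0 J) (d : OD) (h : d.ok M m J) (k : ℕ) (hk : Even k) (hk0 : d.k0 ≤ k) :
    c k ≤ d.cf * (M : ℝ) ^ k + d.cg * (d.xs : ℝ) ^ k := by
  obtain ⟨hl, hm, hxs, hM, hr1, hr2, hr3, hc1, hc2, hc3, hb1, hb2, hb3, hk1, hk6, hcf, hS, hg⟩ := h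
  have hm' : (m : ℝ) ≤ d.xs := by exact_mod_cast hm
  have hxs' : (0 : ℝ) < d.xs := by exact_mod_cast hxs
  have hM' : (d.xs : ℝ) ≤ M := by exact_mod_cast hM
  have hr1' : (d.r1 : ℝ) < d.xs := by exact_mod_cast hr1
  have hr2' : (d.r2 : ℝ) < d.xs := by exact_mod_cast hr2
  have hr3' : (d.r3 : ℝ) < d.xs := by exact_mod_cast hr3
  have hM0 : (0 : ℝ) < M := hxs'.trans_le hM'
  set e1 : ℚ := d.r1 + d.r2 + d.r3 with he1
  set e2 : ℚ := d.r1 * d.r2 + d.r1 * d.r3 + d.r2 * d.r3 with he2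
  set e3 : ℚ := d.r1 * d.r2 * d.r3 with he3
  set p : ℝ → ℝ := fun x => (x - d.r1) * (x - d.r2) * (x - d.r3) with hp
  set a : ℕ → ℝ := fun j => (([e3 ^ 2, -2 * e2 * e3, e2 ^ 2 + 2 * e1 * e3, -2 * e3 - 2 * e1 * e2,
    e1 ^ 2 + 2 * e2, -2 * e1, 1].getD j 0 : ℚ) : ℝ) with ha
  have hpa : ∀ t : ℝ, ∑ j ∈ Finset.range 7, a j * t ^ j = p t ^ 2 := by
    intro t
    simp only [Finset.sum_range_succ, Finset.sum_range_zero, ha, hp, List.getD_cons_succ, List.getD_cons_zero,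
      he1, he2, he3]
    push_cast
    ring
  have hpM : 0 < p M := by
    simp only [hp]
    exact mul_pos (mul_pos (by linarith) (by linarith)) (by linarith)
  have hS1 : ∑ j ∈ Finset.range 7, a j * c j ≤ d.cf * p M ^ 2 := by
    have h1 : ((oS e1 e2 e3 J : ℚ) : ℝ) ≤ d.cf * p M ^ 2 := by
      simp only [hp]
      exact_mod_cast hS
    refine le_trans ?_ h1
    have h0 := cu_le (hJ 0 (by omega)) (e3 ^ 2)
    have h1 := cu_le (hJ 1 (by omega)) (-2 * e2 * e3)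
    have h2 := cu_le (hJ 2 (by omega)) (e2 ^ 2 + 2 * e1 * e3)
    have h3 := cu_le (hJ 3 (by omega)) (-2 * e3 - 2 * e1 * e2)
    have h4 := cu_le (hJ 4 (by omega)) (e1 ^ 2 + 2 * e2)
    have h5 := cu_le (hJ 5 (by omega)) (-2 * e1)
    have h6 := cu_le (hJ 6 (by omega)) 1
    simp only [zero_add] at h0 h1 h2 h3 h4 h5 h6
    simp only [Finset.sum_range_succ, Finset.sum_range_zero, ha, List.getD_cons_succ, List.getD_cons_zero,
      zero_add]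
    unfold oS
    simp only [Rat.cast_add] at h2 h4 ⊢
    linarith
  have hc6 : c 6 ≤ d.cg * (d.xs : ℝ) ^ 6 := by
    have h1 := (hJ 6 (by omega)).2
    rw [zero_add] at h1
    exact h1.trans (by exact_mod_cast hg)
  have hpt : ∀ i, X i ^ k ≤ (M : ℝ) ^ k / p M ^ 2 * p (X i) ^ 2 + (d.xs : ℝ) ^ (k - 6) * X i ^ 6 := by
    intro i
    have t1 : 0 ≤ (M : ℝ) ^ k / p M ^ 2 * p (X i) ^ 2 := by positivity
    have t2 : 0 ≤ (d.xs : ℝ) ^ (k - 6) * X i ^ 6 := by positivity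
    by_cases hx : (d.xs : ℝ) ≤ X i
    · have hxM := (hX i).2
      have hx0 : 0 < X i := hxs'.trans_le hx
      have b1 := bern_root (X i) d.xs M d.r1 d.c1 hxs' hx hxM hr1' hc1 (by exact_mod_cast hb1)
      have b2 := bern_root (X i) d.xs M d.r2 d.c2 hxs' hx hxM hr2' hc2 (by exact_mod_cast hb2)
      have b3 := bern_root (X i) d.xs M d.r3 d.c3 hxs' hx hxM hr3' hc3 (by exact_mod_cast hb3)
      have n1 : (0 : ℝ) ≤ M - d.r1 := by linarith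
      have n2 : (0 : ℝ) ≤ M - d.r2 := by linarith
      have n3 : (0 : ℝ) ≤ M - d.r3 := by linarith
      have m1 : (0 : ℝ) ≤ X i - d.r1 := by linarith
      have m2 : (0 : ℝ) ≤ X i - d.r2 := by linarith
      have b12 := mul_le_mul b1 b2 (by positivity) (by positivity)
      have b123 := mul_le_mul b12 b3 (by positivity) (by positivity)
      have b4 : p M * X i ^ (d.c1 + d.c2 + d.c3) ≤ (M : ℝ) ^ (d.c1 + d.c2 + d.c3) * p (X i) := by
        simp only [hp]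
        calc _ = _ := by ring
          _ ≤ _ := b123
          _ = _ := by ring
      have b5 := pow_le_pow_left₀ (by positivity) b4 2
      obtain ⟨n, rfl⟩ : ∃ n, k = 2 * (d.c1 + d.c2 + d.c3) + n := ⟨k - 2 * (d.c1 + d.c2 + d.c3), by omega⟩
      have b6 : X i ^ n ≤ (M : ℝ) ^ n := pow_le_pow_left₀ hx0.le hxM _
      have b7 := mul_le_mul b5 b6 (by positivity) (by positivity)
      refine le_trans ?_ (le_add_of_nonneg_right t2)
      rw [div_mul_eq_mul_div, le_div_iff₀ (by positivity)]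
      calc _ = _ := by ring
        _ ≤ _ := b7
        _ = _ := by ring
    · have h1 : |X i| ≤ d.xs := abs_le.2 ⟨by linarith [(hX i).1], (not_le.1 hx).le⟩
      exact (even_pow_le h1 (by decide : Even 6) hk (by omega)).trans (le_add_of_nonneg_left t1)
  refine hasSum_le_of_sum_le (F.hc k (by omega)) fun s => ?_
  have h1 := F.pos 7 a (fun t => by rw [hpa]; positivity) s
  simp only [hpa] at h1
  have h2 : ∑ i ∈ s, W i * X i ^ 6 ≤ c 6 :=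
    sum_le_hasSum s (fun i _ => mul_nonneg (F.w_nonneg i) (by positivity)) (F.hc 6 (by norm_num))
  calc ∑ i ∈ s, W i * X i ^ k
      ≤ ∑ i ∈ s, W i * ((M : ℝ) ^ k / p M ^ 2 * p (X i) ^ 2 + (d.xs : ℝ) ^ (k - 6) * X i ^ 6) :=
        Finset.sum_le_sum fun i _ => mul_le_mul_of_nonneg_left (hpt i) (F.w_nonneg i)
    _ = (M : ℝ) ^ k / p M ^ 2 * ∑ i ∈ s, W i * p (X i) ^ 2 + (d.xs : ℝ) ^ (k - 6) * ∑ i ∈ s, W i * X i ^ 6 := by
        rw [Finset.mul_sum, Finset.mul_sum, ← Finset.sum_add_distrib]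
        exact Finset.sum_congr rfl fun i _ => by ring
    _ ≤ (M : ℝ) ^ k / p M ^ 2 * (d.cf * p M ^ 2) + (d.xs : ℝ) ^ (k - 6) * (d.cg * (d.xs : ℝ) ^ 6) :=
        add_le_add (mul_le_mul_of_nonneg_left (h1.trans hS1) (by positivity))
          (mul_le_mul_of_nonneg_left (h2.trans hc6) (by positivity))
    _ = _ := by
        obtain ⟨n, rfl⟩ : ∃ n, k = n + 6 := ⟨k - 6, by omega⟩
        rw [Nat.add_sub_cancel]
        field_simp
        ring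

theorem filt_mag (F : Fam Z c X W) (M cf : ℝ) (hX : ∀ i, |X i| ≤ M) (h : c 6 ≤ cf * M ^ 6) (k : ℕ)
    (hk : Even k) (h6 : 6 ≤ k) : c k ≤ cf * M ^ k := by
  have hM : 0 ≤ M := (abs_nonneg _).trans (hX 0)
  have h1 := hasSum_le (fun i => show W i * X i ^ k ≤ M ^ (k - 6) * (W i * X i ^ 6) by
      rw [mul_left_comm]
      exact mul_le_mul_of_nonneg_left (even_pow_le (hX i) (by decide : Even 6) hk h6) (F.w_nonneg i))
    (F.hc k (by omega)) ((F.hc 6 (by norm_num)).mul_left (M ^ (k - 6)))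
  have h2 : M ^ (k - 6) * c 6 ≤ M ^ (k - 6) * (cf * M ^ 6) := mul_le_mul_of_nonneg_left h (by positivity)
  rw [mul_left_comm, ← pow_add, Nat.sub_add_cancel h6] at h2
  linarith

end Crest.Agent.R347
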