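import Crest.Agent.R347.QuadM

/-!
# R347: flip-even and flip-odd parts of the untwisted sector `m = 0`
-/

set_option autoImplicit false

namespace Crest.Agent.R347

open Matrix

noncomputable def AG (L : ℕ) (e : ℝ) (β : ℝ) : ℝ :=
  trace (PF L e * NormedSpace.exp ((-β) • HRn L 0))

theorem isProj_PF0 (L : ℕ) (hL : 2 ≤ L) (e : ℝ) (he : e = 1 ∨ e = -1) : IsProj (HR L 0) (PF L e) := by
  have hP := isProj_PI_R L hL 0 (Or.inl rfl) L L
  have hV := VV1_PI L L L (by omega) le_rfl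
  rw [show 2 * L - L = L by omega] at hV
  have hVt := VV_transpose L 1
  have hVH := VV_comm_HR L 0 1
  have hVV := VV_mul_self L 1
  unfold PF
  generalize VV L 1 = V at hV hVH hVV hVt ⊢
  generalize PI L L L = P at hP hV ⊢
  generalize HR L 0 = H at hP hVH ⊢
  have h1 : P * (V * P) = V * P := by rw [← Matrix.mul_assoc, ← hV, Matrix.mul_assoc, hP.idem]
  have h2 : V * P * P = V * P := by rw [Matrix.mul_assoc, hP.idem]
  have h3 : V * P * (V * P) = P := by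
    rw [Matrix.mul_assoc, h1, ← Matrix.mul_assoc, hVV, Matrix.one_mul]
  have h4 : V * P * H = H * (V * P) := by
    rw [Matrix.mul_assoc, hP.comm, ← Matrix.mul_assoc, hVH, Matrix.mul_assoc]
  refine ⟨?_, ?_, ?_⟩
  · rw [transpose_smul, transpose_add, transpose_smul, transpose_mul, hP.symm, hVt, hV]
  · simp only [Matrix.mul_add, Matrix.add_mul, Matrix.mul_smul, Matrix.smul_mul, hP.idem, h1, h2, h3,
      smul_add, smul_smul]
    rcases he with rfl | rfl <;> module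
  · simp only [Matrix.mul_add, Matrix.add_mul, Matrix.mul_smul, Matrix.smul_mul, hP.comm, h4]

theorem AR_AG (L : ℕ) (β : ℝ) : AR L 0 L L β = AG L 1 β + AG L (-1) β := by
  have h1 : PF L 1 + PF L (-1) = PI L L L := by
    unfold PF
    module
  rw [AG, AG, ← trace_add, ← Matrix.add_mul, h1, AR]

theorem quadU {L : ℕ} {e : ℤ} {mu : List ℤ} (hm : Mom (PF L e) (XR L 0) 2 mu)
    (s T : ℕ) (as bs : List ℕ) (y β1 β2 : ℕ) {El1 Eu1 El2 Eu2 : ℚ} (I1 I2 : ℚ × ℚ)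
    (hE1 : EB (gR L β1) El1 Eu1) (hE2 : EB (gR L β2) El2 Eu2) (hc : 2 ≤ L ∧ (e = 1 ∨ e = -1))
    (h : quadChk (2 * L) s T 2 mu as bs y
      [⟨β1, 1, El1, Eu1, I1.1, I1.2⟩, ⟨β2, 1, El2, Eu2, I2.1, I2.2⟩] = true) :
    IB (AG L e β1) I1 ∧ IB (AG L e β2) I2 := by
  have he : ((e : ℤ) : ℝ) = 1 ∨ ((e : ℤ) : ℝ) = -1 := by
    rcases hc.2 with h | h <;> simp [h]
  have hP := isProj_PF0 L hc.1 e he
  exact ⟨quadP L hc.1 0 _ hP 2 mu hm s T as bs y _ h β1 El1 Eu1 I1.1 I1.2 (by simp) hE1,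
    quadP L hc.1 0 _ hP 2 mu hm s T as bs y _ h β2 El2 Eu2 I2.1 I2.2 (by simp) hE2⟩

theorem IB_AG {L : ℕ} {β : ℝ} {I J : ℚ × ℚ} (h1 : IB (AG L ((1 : ℤ) : ℝ) β) I)
    (h2 : IB (AG L ((-1 : ℤ) : ℝ) β) J) (K : ℚ × ℚ) (hc : K.1 ≤ I.1 + J.1 ∧ I.2 + J.2 ≤ K.2) :
    IB (AR L 0 L L β) K := by
  have e1 : ((1 : ℤ) : ℝ) = 1 := by simp
  have e2 : ((-1 : ℤ) : ℝ) = -1 := by simp
  rw [e1] at h1
  rw [e2] at h2
  have c1 : (K.1 : ℝ) ≤ I.1 + J.1 := by exact_mod_cast hc.1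
  have c2 : (I.2 : ℝ) + J.2 ≤ K.2 := by exact_mod_cast hc.2
  rw [AR_AG]
  exact ⟨by linarith [h1.1, h2.1], by linarith [h1.2, h2.2]⟩

theorem IB_AF1 {L : ℕ} {β : ℝ} {I : ℚ × ℚ} (h : IB (AF L ((1 : ℤ) : ℝ) β) I) : IB (AF L 1 β) I := by
  simpa using h

theorem IB_AFm {L : ℕ} {β : ℝ} {I : ℚ × ℚ} (h : IB (AF L ((-1 : ℤ) : ℝ) β) I) :
    IB (AF L (-1) β) I := by
  simpa using h

theorem IB_ACt {k lo hi : ℕ} {β : ℝ} {I : ℚ × ℚ}
    (h : IB (AC k (if true then 1 else -1) lo hi β) I) : IB (AC k 1 lo hi β) I := by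
  simpa using h

theorem IB_ACf {k lo hi : ℕ} {β : ℝ} {I : ℚ × ℚ}
    (h : IB (AC k (if false then 1 else -1) lo hi β) I) : IB (AC k (-1) lo hi β) I := by
  simpa using h

end Crest.Agent.R347
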