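import Crest.Agent.R347.Pack

/-!
# R347: limit of the spectral families, and the space package
-/

set_option autoImplicit false

namespace Crest.Agent.R347

open Filter Topology

private lemma lim_sort {ι : Type} [Fintype ι] (x w : ι → ℝ) (hw : ∀ i, 0 ≤ w i) :
    ∃ xt wt : ℕ → ℝ, (∀ i, 0 ≤ wt i) ∧ (∀ i : ℕ, ((i : ℝ) + 1) * xt i ^ 4 ≤ ∑ j, x j ^ 4) ∧
      ∀ φ : ℝ → ℝ → ℝ, φ 0 0 = 0 → HasSum (fun i => φ (xt i) (wt i)) (∑ j, φ (x j) (w j)) := by
  classical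
  set N := Fintype.card ι
  let e0 : Fin N ≃ ι := (Fintype.equivFin ι).symm
  let σ := Tuple.sort (fun i : Fin N => -(x (e0 i) ^ 4))
  let e : Fin N ≃ ι := σ.trans e0
  have hmono : Monotone fun i : Fin N => -(x (e i) ^ 4) :=
    Tuple.monotone_sort (fun i : Fin N => -(x (e0 i) ^ 4))
  refine ⟨fun i => if h : i < N then x (e ⟨i, h⟩) else 0,
    fun i => if h : i < N then w (e ⟨i, h⟩) else 0, fun i => ?_, fun i => ?_, fun φ hφ => ?_⟩
  · dsimp only
    split_ifs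
    · exact hw _
    · exact le_rfl
  · have h0 : 0 ≤ ∑ j, x j ^ 4 := Finset.sum_nonneg fun j _ => by positivity
    dsimp only
    split_ifs with h
    · rw [← e.sum_comp]
      calc ((i : ℝ) + 1) * x (e ⟨i, h⟩) ^ 4
          = ∑ _j ∈ Finset.Iic (⟨i, h⟩ : Fin N), x (e ⟨i, h⟩) ^ 4 := by
            rw [Finset.sum_const, Fin.card_Iic, nsmul_eq_mul]; push_cast; rfl
        _ ≤ ∑ j ∈ Finset.Iic (⟨i, h⟩ : Fin N), x (e j) ^ 4 :=
            Finset.sum_le_sum fun j hj => by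
              have := hmono (Finset.mem_Iic.1 hj)
              dsimp only at this
              linarith
        _ ≤ _ := Finset.sum_le_sum_of_subset_of_nonneg (Finset.subset_univ _)
            fun j _ _ => by positivity
    · simpa using h0
  · have h1 : ∑ j, φ (x j) (w j) = ∑ i ∈ Finset.range N,
        φ (if h : i < N then x (e ⟨i, h⟩) else 0) (if h : i < N then w (e ⟨i, h⟩) else 0) := by
      rw [← e.sum_comp, Finset.sum_range]
      refine Finset.sum_congr rfl fun j _ => ?_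
      simp
    rw [h1]
    refine hasSum_sum_of_ne_finset_zero fun i hi => ?_
    have : ¬ i < N := by simpa using hi
    simp [this, hφ]

private lemma lim_tannery {𝓕 : Filter ℕ} [𝓕.NeBot] (h𝓕 : 𝓕 ≤ atTop) (f : ℕ → ℕ → ℝ)
    (g bound s : ℕ → ℝ) (S : ℝ) (hs : ∀ n, HasSum (f n) (s n)) (hS : Tendsto s atTop (𝓝 S))
    (hb : Summable bound) (hg : ∀ i, Tendsto (fun n => f n i) 𝓕 (𝓝 (g i)))
    (hf : ∀ n i, |f n i| ≤ bound i) : HasSum g S := by
  have h1 := tendsto_tsum_of_dominated_convergence hb hg (Eventually.of_forall hf)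
  have h2 : (fun n => ∑' i, f n i) = s := funext fun n => (hs n).tsum_eq
  rw [h2] at h1
  have h3 : ∑' i, g i = S := tendsto_nhds_unique h1 (hS.mono_left h𝓕)
  have h4 : Summable g := Summable.of_norm_bounded hb fun i =>
    le_of_tendsto' (hg i).abs fun n => hf n i
  rw [← h3]
  exact h4.hasSum

private lemma lim_ultra (𝒰 : Ultrafilter ℕ) (u : ℕ → ℝ) (B : ℝ) (h : ∀ n, |u n| ≤ B) :
    ∃ a, Tendsto u 𝒰 (𝓝 a) := by
  obtain ⟨a, -, ha⟩ := (isCompact_Icc (a := -B) (b := B)).ultrafilter_le_nhds (𝒰.map u) (by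
    rw [Ultrafilter.coe_map, le_principal_iff, mem_map]
    exact Eventually.of_forall fun n => abs_le.1 (h n))
  exact ⟨a, ha⟩

private lemma lim_pow_le (t C : ℝ) (i L : ℕ) (hC : 0 ≤ C) (h : ((i : ℝ) + 1) * t ^ 4 ≤ C) :
    |t| ≤ C + 1 ∧ (5 ≤ L → |t ^ L| ≤ (C / ((i : ℝ) + 1)) ^ (5 / 4 : ℝ) * (C + 1) ^ (L - 5)) := by
  have hi : (0 : ℝ) < (i : ℝ) + 1 := by positivity
  have h4 : |t| ^ 4 = t ^ 4 := by rw [← abs_pow]; exact abs_of_nonneg (by positivity)
  have h1 : t ^ 4 ≤ C := by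
    have : 0 ≤ (i : ℝ) * t ^ 4 := by positivity
    nlinarith
  have h2 : |t| ≤ C + 1 := by
    by_contra hcon
    push Not at hcon
    have h3 : 1 ≤ |t| := by linarith
    have h5 : |t| ^ 1 ≤ |t| ^ 4 := pow_le_pow_right₀ h3 (by norm_num)
    rw [pow_one] at h5
    linarith
  refine ⟨h2, fun hL => ?_⟩
  have h5 : |t| ^ 5 ≤ (C / ((i : ℝ) + 1)) ^ (5 / 4 : ℝ) := by
    have e : |t| ^ 5 = (|t| ^ 4) ^ (5 / 4 : ℝ) := by
      rw [← Real.rpow_natCast |t| 4, ← Real.rpow_mul (abs_nonneg t), ← Real.rpow_natCast]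
      norm_num
    rw [e, h4]
    refine Real.rpow_le_rpow (by positivity) ?_ (by norm_num)
    rw [le_div_iff₀ hi]; linarith
  rw [abs_pow, show L = 5 + (L - 5) by omega, pow_add, Nat.add_sub_cancel_left]
  exact mul_le_mul h5 (pow_le_pow_left₀ (abs_nonneg t) h2 _) (by positivity) (by positivity)

private lemma lim_summable (C : ℝ) (hC : 0 ≤ C) :
    Summable fun i : ℕ => (C / ((i : ℝ) + 1)) ^ (5 / 4 : ℝ) := by
  have h1 : Summable fun i : ℕ => ((i : ℝ) ^ (5 / 4 : ℝ))⁻¹ :=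
    Real.summable_nat_rpow_inv.2 (by norm_num)
  have h2 := ((summable_nat_add_iff 1).2 h1).mul_left (C ^ (5 / 4 : ℝ))
  refine h2.congr fun i => ?_
  rw [Real.div_rpow hC (by positivity)]
  push_cast
  exact (div_eq_mul_inv _ _).symm

/-- Plan: sort `|x n ·|` decreasingly (`Tuple.sort` after `Fintype.equivFin`), extend by zero to `ℕ`;
`(i+1) x̃ n i ^ 4 ≤ ∑ x^4 ≤ C`, `0 ≤ w̃ n i ≤ ∑ w ≤ C` (convergent sequences are bounded).  Take an
ultrafilter `𝒰 ≤ atTop` and coordinatewise limits (compact intervals); Tannery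
(`tendsto_tsum_of_dominated_convergence`) with the bound `(C/(i+1))^(5/4) * C^..`; `pos` by
`le_of_tendsto` for finite partial sums. -/
theorem lim_exists {ι : ℕ → Type} [∀ n, Fintype (ι n)] (x w : ∀ n, ι n → ℝ)
    (hw : ∀ n i, 0 ≤ w n i) (Z c : ℕ → ℝ)
    (hZ : ∀ L, 4 ≤ L → Tendsto (fun n => ∑ i, x n i ^ L) atTop (𝓝 (Z L)))
    (hc : ∀ k, Tendsto (fun n => ∑ i, w n i * x n i ^ k) atTop (𝓝 (c k))) :
    ∃ X W : ℕ → ℝ, Fam Z c X W := by
  choose xt wt hw0 hx4 hφ using fun n => lim_sort (x n) (w n) (hw n)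
  obtain ⟨C₁, hC₁⟩ := (hZ 4 le_rfl).bddAbove_range
  obtain ⟨C₂, hC₂⟩ := (hc 0).bddAbove_range
  have h1 : ∀ n, ∑ i, x n i ^ 4 ≤ C₁ := fun n => hC₁ ⟨n, rfl⟩
  have h2 : ∀ n, ∑ i, w n i ≤ C₂ := fun n => by simpa using hC₂ ⟨n, rfl⟩
  have hC0 : 0 ≤ C₁ := (Finset.sum_nonneg fun i _ => by positivity).trans (h1 0)
  have hxb : ∀ n (i L : ℕ), |xt n i| ≤ C₁ + 1 ∧ (5 ≤ L → |xt n i ^ L| ≤
      (C₁ / ((i : ℝ) + 1)) ^ (5 / 4 : ℝ) * (C₁ + 1) ^ (L - 5)) := fun n i L =>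
    lim_pow_le _ _ i L hC0 ((hx4 n i).trans (h1 n))
  have hwb : ∀ n i, |wt n i| ≤ C₂ := fun n i => by
    rw [abs_of_nonneg (hw0 n i)]
    exact (le_hasSum (hφ n (fun _ b => b) rfl) i fun j _ => hw0 n j).trans (h2 n)
  let 𝒰 : Ultrafilter ℕ := Ultrafilter.of atTop
  have h𝒰 : (𝒰 : Filter ℕ) ≤ atTop := Ultrafilter.of_le atTop
  choose X hX using fun i => lim_ultra 𝒰 (fun n => xt n i) _ fun n => (hxb n i 0).1
  choose W hW using fun i => lim_ultra 𝒰 (fun n => wt n i) _ fun n => hwb n i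
  refine ⟨X, W, fun i => ge_of_tendsto' (hW i) fun n => hw0 n i, fun L hL => ?_, fun k hk => ?_,
    fun d a hp s => ?_⟩
  · exact lim_tannery h𝒰 (fun n i => xt n i ^ L) _ _ _ _
      (fun n => hφ n (fun a _ => a ^ L) (zero_pow (by omega))) (hZ L (by omega))
      ((lim_summable C₁ hC0).mul_right ((C₁ + 1) ^ (L - 5))) (fun i => (hX i).pow L)
      fun n i => (hxb n i L).2 hL
  · refine lim_tannery h𝒰 (fun n i => wt n i * xt n i ^ k) _ _ _ _
      (fun n => hφ n (fun a b => b * a ^ k) (zero_mul _)) (hc k)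
      (((lim_summable C₁ hC0).mul_right ((C₁ + 1) ^ (k - 5))).mul_left C₂)
      (fun i => (hW i).mul ((hX i).pow k)) fun n i => ?_
    rw [abs_mul]
    exact mul_le_mul (hwb n i) ((hxb n i k).2 hk) (abs_nonneg _) ((abs_nonneg _).trans (hwb n i))
  · have h3 : Tendsto (fun n => ∑ i ∈ s, wt n i * ∑ j ∈ Finset.range d, a j * xt n i ^ j) 𝒰
        (𝓝 (∑ i ∈ s, W i * ∑ j ∈ Finset.range d, a j * X i ^ j)) :=
      tendsto_finsetSum _ fun i _ => (hW i).mul
        (tendsto_finsetSum _ fun j _ => ((hX i).pow j).const_mul _)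
    have h4 : Tendsto (fun n => ∑ j ∈ Finset.range d, a j * ∑ i, w n i * x n i ^ j) 𝒰
        (𝓝 (∑ j ∈ Finset.range d, a j * c j)) :=
      (tendsto_finsetSum _ fun j _ => (hc j).const_mul _).mono_left h𝒰
    refine le_of_tendsto_of_tendsto' h3 h4 fun n => ?_
    have h5 := sum_le_hasSum s (fun i _ => mul_nonneg (hw0 n i) (hp (xt n i)))
      (hφ n (fun t b => b * ∑ j ∈ Finset.range d, a j * t ^ j) (zero_mul _))
    refine h5.trans (le_of_eq ?_)
    simp only [Finset.mul_sum]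
    rw [Finset.sum_comm]
    exact Finset.sum_congr rfl fun j _ => Finset.sum_congr rfl fun i _ => by ring

end Crest.Agent.R347
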