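import Crest.Agent.R347.EngS

/-!
# R347: signed permutation symmetries of the ring and chain matrices (auxiliary file of `Mom`)
-/

set_option autoImplicit false

namespace Crest.Agent.R347

open Matrix

namespace MomA

variable {L : ℕ}

/-- `M (φ σ) (φ τ) = D σ * M' σ τ * D τ` -/
def S (φ : Cfg L → Cfg L) (D : Cfg L → ℝ) (M M' : Op L) : Prop :=
  ∀ σ τ, M (φ σ) (φ τ) = D σ * M' σ τ * D τ

variable {φ : Cfg L → Cfg L} {D : Cfg L → ℝ}

theorem S.add {M M' N N' : Op L} (h : S φ D M M') (h' : S φ D N N') : S φ D (M + N) (M' + N') :=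
  fun σ τ => by rw [Matrix.add_apply, Matrix.add_apply, h, h']; ring

theorem S.sub {M M' N N' : Op L} (h : S φ D M M') (h' : S φ D N N') : S φ D (M - N) (M' - N') :=
  fun σ τ => by rw [Matrix.sub_apply, Matrix.sub_apply, h, h']; ring

theorem S.smul {M M' : Op L} (h : S φ D M M') (c : ℝ) : S φ D (c • M) (c • M') :=
  fun σ τ => by rw [Matrix.smul_apply, Matrix.smul_apply, h]; simp only [smul_eq_mul]; ring

theorem S.sum {ι : Type} (s : Finset ι) {M M' : ι → Op L} (h : ∀ i, S φ D (M i) (M' i)) :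
    S φ D (∑ i ∈ s, M i) (∑ i ∈ s, M' i) := fun σ τ => by
  rw [Matrix.sum_apply, Matrix.sum_apply, Finset.mul_sum, Finset.sum_mul]
  exact Finset.sum_congr rfl fun i _ => h i σ τ

theorem S.mul (hφ : Function.Bijective φ) (hD : ∀ σ, D σ * D σ = 1) {M M' N N' : Op L}
    (h : S φ D M M') (h' : S φ D N N') : S φ D (M * N) (M' * N') := fun σ τ => by
  rw [Matrix.mul_apply, Matrix.mul_apply, ← hφ.sum_comp, Finset.mul_sum, Finset.sum_mul]
  refine Finset.sum_congr rfl fun ρ _ => ?_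
  rw [h, h']
  linear_combination (D σ * M' σ ρ * N' ρ τ * D τ) * hD ρ

theorem S.one (hφ : Function.Bijective φ) (hD : ∀ σ, D σ * D σ = 1) : S φ D 1 1 := fun σ τ => by
  by_cases h : σ = τ
  · subst h; simp [hD]
  · rw [Matrix.one_apply_ne h, Matrix.one_apply_ne (hφ.1.ne h)]; simp

theorem S.pow (hφ : Function.Bijective φ) (hD : ∀ σ, D σ * D σ = 1) {M : Op L} (h : S φ D M M)
    (k : ℕ) : S φ D (M ^ k) (M ^ k) := by
  induction k with
  | zero => simpa using S.one hφ hD
  | succ k ih => rw [pow_succ]; exact ih.mul hφ hD h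

theorem S.diag {M : Op L} (h : S φ D M M) (hD : ∀ σ, D σ * D σ = 1) (σ : Cfg L) :
    M (φ σ) (φ σ) = M σ σ := by
  rw [h]; linear_combination (M σ σ) * hD σ

theorem XR_pow (hφ : Function.Bijective φ) (hD : ∀ σ, D σ * D σ = 1) {g : Fin 4}
    (h : S φ D (HR L g) (HR L g)) (k : ℕ) : S φ D (XR L g ^ k) (XR L g ^ k) :=
  S.pow hφ hD ((h.smul _).add ((S.one hφ hD).smul _)) k

theorem XO_pow {n : ℕ} {φ : Cfg (n + 1) → Cfg (n + 1)} (hφ : Function.Bijective φ) {s : ℝ}
    (h : S φ (fun _ => 1) (HO n s) (HO n s)) (k : ℕ) : S φ (fun _ => 1) (XO n s ^ k) (XO n s ^ k) :=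
  S.pow hφ (fun _ => one_mul _) ((h.smul _).add ((S.one hφ fun _ => one_mul _).smul _)) k

theorem bij_perm (π : Equiv.Perm (Fin L)) : Function.Bijective fun σ : Cfg L => σ ∘ π :=
  Function.bijective_iff_has_inverse.2 ⟨fun σ => σ ∘ π.symm, fun σ => by funext i; simp,
    fun σ => by funext i; simp⟩

theorem flip_flip (σ : Cfg L) : flipC (flipC σ) = σ := by funext i; simp [flipC]

theorem bij_flip : Function.Bijective (flipC : Cfg L → Cfg L) :=
  Function.Involutive.bijective flip_flip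

theorem ds_flip (σ : Cfg L) : ds (flipC σ) + ds σ = 2 * L := by
  have : ∀ j, (flipC σ j).val + (σ j).val = 2 := fun j => by
    have := (σ j).2
    simp only [flipC, Fin.val_rev]
    omega
  simp only [ds, ← Finset.sum_add_distrib, this]
  simp [mul_comm]

theorem onS_perm (π : Equiv.Perm (Fin L)) (A : M3) (j : Fin L) (σ τ : Cfg L) :
    onS A j (σ ∘ π) (τ ∘ π) = onS A (π j) σ τ := by
  simp only [onS, of_apply, Function.comp_apply]
  refine if_congr ⟨fun h k hk => ?_, fun h k hk => h _ fun e => hk (π.injective e)⟩ rfl rfl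
  have := h (π.symm k) fun e => hk (by rw [← e, Equiv.apply_symm_apply])
  rwa [Equiv.apply_symm_apply] at this

theorem S_onS (π : Equiv.Perm (Fin L)) (A : M3) (j : Fin L) :
    S (fun σ => σ ∘ π) (fun _ => 1) (onS A j) (onS A (π j)) := fun σ τ => by
  rw [onS_perm, one_mul, mul_one]

theorem S_bond (π : Equiv.Perm (Fin L)) (g : Fin 4) (i j : Fin L) :
    S (fun σ => σ ∘ π) (fun _ => 1) (bondR g i j) (bondR g (π i) (π j)) :=
  S.sum _ fun _ => ((S_onS π _ i).mul (bij_perm π) (fun _ => one_mul _) (S_onS π _ j)).smul _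

theorem bond_comm (g : Fin 4) {i j : Fin L} (h : i ≠ j) : bondR g i j = bondR g j i :=
  Finset.sum_congr rfl fun a _ => by rw [onS_comm _ _ h]

theorem rot_eq_zero {n : ℕ} (j : Fin (n + 1)) : finRotate (n + 1) j = 0 ↔ j.val + 1 = n + 1 := by
  rw [← finRotate_last (n := n), (finRotate (n + 1)).injective.eq_iff, Fin.ext_iff, Fin.val_last]
  omega

theorem rot_rev_rot {n : ℕ} (j : Fin (n + 1)) :
    finRotate (n + 1) (Fin.rev (finRotate (n + 1) j)) = Fin.rev j := by
  induction j using Fin.lastCases with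
  | last => rw [finRotate_last, Fin.rev_zero, finRotate_last, Fin.rev_last]
  | cast i =>
    rw [finRotate_apply, finRotate_apply, Fin.coeSucc_eq_succ, Fin.rev_succ,
      Fin.coeSucc_eq_succ, Fin.rev_castSucc]

theorem HR_rev {n : ℕ} (hL : 2 ≤ n + 1) (g : Fin 4) :
    S (fun σ => σ ∘ Fin.revPerm) (fun _ => 1) (HR (n + 1) g) (HR (n + 1) g) := by
  have h := S.sum Finset.univ fun j : Fin (n + 1) =>
    S_bond Fin.revPerm (if j.val + 1 = n + 1 then g else 0) j (finRotate (n + 1) j)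
  have e : ∑ j : Fin (n + 1), bondR (if j.val + 1 = n + 1 then g else 0) (Fin.revPerm j)
      (Fin.revPerm (finRotate (n + 1) j)) = HR (n + 1) g := by
    conv_rhs => rw [HR, ← Equiv.sum_comp ((finRotate (n + 1)).trans Fin.revPerm)]
    refine Finset.sum_congr rfl fun j _ => ?_
    simp only [Equiv.trans_apply, Fin.revPerm_apply, rot_rev_rot]
    rw [bond_comm _ (Fin.rev_injective.ne (finRotate_ne hL j))]
    congr 1
    refine if_congr ?_ rfl rfl
    rw [← rot_eq_zero j, Fin.ext_iff, Fin.val_rev, Fin.val_zero]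
    have := (finRotate (n + 1) j).2
    omega
  rw [e] at h
  exact h

theorem gauge_sq {n : ℕ} {g : Fin 4} (hg : g = 0 ∨ g = 3) (σ : Cfg (n + 1)) :
    Vm g (σ 0) (σ 0) * Vm g (σ 0) (σ 0) = 1 := by
  generalize σ 0 = a
  rcases hg with rfl | rfl <;> fin_cases a <;> simp [Vm]

theorem gauge_Cm {g : Fin 4} (hg : g = 0 ∨ g = 3) (c a b : Fin 3) :
    Cm c a b = Vm g a a * (chr g c.succ * Cm c a b) * Vm g b b := by
  rcases hg with rfl | rfl <;> fin_cases c <;> fin_cases a <;> fin_cases b <;> simp [Vm, Cm, chr]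

theorem S_onS_gauge {n : ℕ} {g : Fin 4} (hg : g = 0 ∨ g = 3) (π : Equiv.Perm (Fin (n + 1)))
    (c : Fin 3) (j : Fin (n + 1)) :
    S (fun σ => σ ∘ π) (fun σ => Vm g (σ 0) (σ 0)) (onS (Cm c) j)
      ((if π j = 0 then chr g c.succ else 1) • onS (Cm c) (π j)) := fun σ τ => by
  rw [onS_perm, Matrix.smul_apply, smul_eq_mul]
  simp only [onS, of_apply]
  by_cases h : ∀ k, k ≠ π j → σ k = τ k
  · rw [if_pos h]
    by_cases h0 : π j = 0
    · rw [if_pos h0, h0]
      exact gauge_Cm hg c _ _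
    · rw [if_neg h0, ← h 0 (Ne.symm h0)]
      linear_combination (-Cm c (σ (π j)) (τ (π j))) * gauge_sq hg σ
  · rw [if_neg h]; simp

theorem HR_rot {n : ℕ} {g : Fin 4} (hg : g = 0 ∨ g = 3) :
    S (fun σ => σ ∘ finRotate (n + 1)) (fun σ => Vm g (σ 0) (σ 0)) (HR (n + 1) g) (HR (n + 1) g) := by
  have hb : ∀ j : Fin (n + 1), S (fun σ => σ ∘ finRotate (n + 1)) (fun σ => Vm g (σ 0) (σ 0))
      (bondR (if j.val + 1 = n + 1 then g else 0) j (finRotate (n + 1) j))
      (bondR (if (finRotate (n + 1) j).val + 1 = n + 1 then g else 0) (finRotate (n + 1) j)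
        (finRotate (n + 1) (finRotate (n + 1) j))) := by
    intro j
    refine S.sum _ fun a => ?_
    have h := ((S_onS_gauge hg (finRotate (n + 1)) a j).mul (bij_perm _) (gauge_sq hg)
      (S_onS_gauge hg (finRotate (n + 1)) a (finRotate (n + 1) j))).smul
      (chr (if j.val + 1 = n + 1 then g else 0) a.succ * eps a)
    rw [Matrix.smul_mul, Matrix.mul_smul, smul_smul, smul_smul] at h
    convert h using 2
    simp only [rot_eq_zero]
    have := chr_mul_self g a.succ
    have h0 := chr_zero_left a.succ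
    split_ifs
    · linear_combination (-(chr g a.succ * eps a)) * this
    · rw [h0]; ring
    · linear_combination (-eps a) * this + eps a * h0
    · ring
  have h := S.sum Finset.univ hb
  rw [Equiv.sum_comp (finRotate (n + 1)) (fun j => bondR (if j.val + 1 = n + 1 then g else 0) j
    (finRotate (n + 1) j))] at h
  exact h

theorem VV_apply (σ τ : Cfg L) : VV L 1 σ τ = if τ = flipC σ then (-1) ^ L else 0 := by
  have h1 : ∀ a b : Fin 3, Vm 1 a b = if b = Fin.rev a then (-1 : ℝ) else 0 := fun a b => by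
    fin_cases a <;> fin_cases b <;> simp [Vm]
  simp only [VV, tens, of_apply, h1]
  rw [Finset.prod_ite_zero, Finset.prod_const]
  simp [funext_iff, flipC]

theorem VV_mul (M : Op L) (σ τ : Cfg L) : (VV L 1 * M) σ τ = (-1) ^ L * M (flipC σ) τ := by
  simp [Matrix.mul_apply, VV_apply]

theorem mul_VV (M : Op L) (σ τ : Cfg L) : (M * VV L 1) σ τ = (-1) ^ L * M σ (flipC τ) := by
  have : ∀ ρ : Cfg L, τ = flipC ρ ↔ ρ = flipC τ := fun ρ =>
    ⟨fun h => by rw [h, flip_flip], fun h => by rw [h, flip_flip]⟩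
  simp [Matrix.mul_apply, VV_apply, this, mul_comm]

theorem HR_flip (g : Fin 4) : S flipC (fun _ => 1) (HR L g) (HR L g) := fun σ τ => by
  have := congrFun (congrFun (VV_comm_HR L g 1) σ) (flipC τ)
  rw [VV_mul, mul_VV, flip_flip] at this
  rw [one_mul, mul_one]
  exact mul_left_cancel₀ (pow_ne_zero _ (by norm_num)) this

theorem HO_rev (n : ℕ) : S (fun σ => σ ∘ Fin.revPerm) (fun _ => 1) (HO n 1) (HO n 1) := by
  have h := (S.sum Finset.univ fun j : Fin n =>
    S_bond Fin.revPerm 0 (Fin.castSucc j) (Fin.succ j)).sub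
    ((((S_onS Fin.revPerm (Cm 2) (0 : Fin (n + 1))).smul 1).add
      (S_onS Fin.revPerm (Cm 2) (Fin.last n))).smul (3 / 5))
  have e : ∑ j : Fin n, bondR 0 (Fin.revPerm (Fin.castSucc j)) (Fin.revPerm (Fin.succ j)) =
      ∑ j : Fin n, bondR 0 (Fin.castSucc j) (Fin.succ j) := by
    rw [← Equiv.sum_comp Fin.revPerm]
    refine Finset.sum_congr rfl fun j _ => ?_
    simp only [Fin.revPerm_apply, Fin.rev_succ, Fin.rev_castSucc, Fin.rev_rev]
    exact bond_comm _ (Fin.castSucc_lt_succ).ne'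
  rw [e] at h
  convert h using 1 <;>
  simp only [HO, Fin.revPerm_apply, Fin.rev_zero, Fin.rev_last, one_smul, add_comm]

theorem HO_flip (n : ℕ) :
    S (flipC ∘ fun σ => σ ∘ Fin.revPerm) (fun _ => 1) (HO n (-1)) (HO n (-1)) := fun σ τ => by
  have := congrFun (congrFun (SecA.flip_HO n) σ) (flipC (τ ∘ Fin.rev))
  rw [Matrix.mul_assoc, SecA.Rf_mul, VV_mul, ← Matrix.mul_assoc, mul_VV, SecA.mul_Rf, flip_flip,
    show (τ ∘ Fin.rev) ∘ Fin.rev = τ by funext i; simp] at this
  rw [one_mul, mul_one]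
  exact mul_left_cancel₀ (pow_ne_zero _ (by norm_num)) this

end MomA

end Crest.Agent.R347
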