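import Crest.Agent.R347.EngS

/-!
# R347: sums over a sector through orbit representatives
-/

set_option autoImplicit false

namespace Crest.Agent.R347

open Matrix

/-- rotation of the code: the most significant digit becomes the least significant one -/
def rotX (L x : ℕ) : ℕ := Nat.add (Nat.mul (Nat.mod x (Nat.pow 3 (Nat.sub L 1))) 3) (Nat.div x (Nat.pow 3 (Nat.sub L 1)))

/-- reversal of the `L` digits -/
def revX (L : ℕ) : ℕ → ℕ → ℕ :=
  Nat.rec (motive := fun _ => ℕ → ℕ → ℕ) (fun _ acc => acc)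
    (fun _ ih x acc => ih (Nat.div x 3) (Nat.add (Nat.mul acc 3) (Nat.mod x 3))) L

def flipX (L x : ℕ) : ℕ := Nat.sub (Nat.sub (Nat.pow 3 L) 1) x

/-- `x, rot x, …` (`k` terms) in front of `l` -/
def rots (L k : ℕ) : ℕ → List ℕ → List ℕ :=
  Nat.rec (motive := fun _ => ℕ → List ℕ → List ℕ) (fun _ l => l) (fun _ ih x l => x :: ih (rotX L x) l) k

/-- images under the symmetry group number `md`:
`0` trivial, `1` reflection, `2` reflection∘flip, `3` dihedral, `4` dihedral × flip -/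
def img (L md x : ℕ) : List ℕ :=
  if md = 1 then [x, revX L x 0]
  else if md = 2 then [x, flipX L (revX L x 0)]
  else if md = 3 then rots L L x (rots L L (revX L x 0) [])
  else if md = 4 then
    rots L L x (rots L L (revX L x 0) (rots L L (flipX L x) (rots L L (flipX L (revX L x 0)) [])))
  else [x]

/-- the invariance required in mode `md` -/
def Inv (L md : ℕ) (f : Cfg L → ℝ) : Prop :=
  ((md = 1 ∨ md = 3 ∨ md = 4) → ∀ σ, f (σ ∘ Fin.rev) = f σ) ∧
  (md = 2 → ∀ σ, f (flipC (σ ∘ Fin.rev)) = f σ) ∧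
  ((md = 3 ∨ md = 4) → ∀ σ, f (σ ∘ finRotate L) = f σ) ∧
  (md = 4 → ∀ σ, f (flipC σ) = f σ)

/-- insert the codes of `l` into the bitmask `m`, counting the new ones -/
def orbIns (l : List ℕ) : ℕ → ℕ → ℕ × ℕ :=
  List.rec (motive := fun _ => ℕ → ℕ → ℕ × ℕ) (fun m c => (m, c))
    (fun y _ ih m c => ih (Nat.lor m (Nat.shiftLeft 1 y))
      (Bool.rec (Nat.succ c) c (Nat.beq (Nat.lor m (Nat.shiftLeft 1 y)) m))) l

def orbLoop (L md tgt : ℕ) (cols : List (ℕ × ℕ)) : ℕ → Bool :=
  List.rec (motive := fun _ => ℕ → Bool) (fun m => Nat.beq m tgt)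
    (fun c _ ih m => Bool.rec false
      (Bool.rec false (ih (orbIns (img L md c.1) m 0).1) (Nat.beq (orbIns (img L md c.1) m 0).2 c.2))
      (Nat.ble (Nat.succ c.1) (Nat.pow 3 L))) cols

/-- one more digit in the table of masks -/
def orbWin (p : ℕ) (l : List ℕ) : List ℕ :=
  List.rec (motive := fun _ => List ℕ) []
    (fun a t ih => Nat.lor a (Nat.lor (Nat.shiftLeft (hdN t) p)
      (Nat.shiftLeft (hdN (tlN t)) (Nat.mul 2 p))) :: ih) l

/-- the entries `s, s + 1, …` (`k` terms) of the indicator of `[lo, ∞)` -/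
def orbIni (lo k : ℕ) : ℕ → List ℕ :=
  Nat.rec (motive := fun _ => ℕ → List ℕ) (fun _ => [])
    (fun _ ih s => Bool.rec 0 1 (Nat.ble lo s) :: ih (Nat.succ s)) k

/-- entry `s`: mask of the codes `y < 3 ^ n` with `lo ≤ s + digit sum ≤ hi` -/
def orbTab (lo hi n : ℕ) : List ℕ :=
  Nat.rec (motive := fun _ => List ℕ) (orbIni lo (Nat.succ hi) 0)
    (fun k ih => orbWin (Nat.pow 3 k) ih) n

/-- Accepts when the codes in `cols` are `< 3^L`, inserting the images `img L md c.1` one after the other into a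
bitmask adds exactly `c.2` new codes for every column `c`, and the final mask is the mask of all codes `< 3^L`
with digit sum in `[lo, hi]`. -/
def orbChk (L md lo hi : ℕ) (cols : List (ℕ × ℕ)) : Bool :=
  orbLoop L md (hdN (orbTab lo hi L)) cols 0

theorem orb_beq {a b : ℕ} {P : Bool → Prop} (h1 : a = b → P true) (h2 : a ≠ b → P false) :
    P (Nat.beq a b) := by
  cases h : Nat.beq a b
  · exact h2 (Nat.ne_of_beq_eq_false h)
  · exact h1 (Nat.eq_of_beq_eq_true h)

/-- sum of `F` over the codes in a mask -/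
noncomputable def orbVal (N : ℕ) (F : ℕ → ℝ) (m : ℕ) : ℝ :=
  ∑ y ∈ Finset.range N, if m.testBit y then F y else 0

theorem orbVal_ins (N : ℕ) (F : ℕ → ℝ) (m y : ℕ) (hy : y < N) (h : m ||| 1 <<< y ≠ m) :
    orbVal N F (m ||| 1 <<< y) = orbVal N F m + F y := by
  have hb : m.testBit y = false := by
    by_contra hb
    refine h (Nat.eq_of_testBit_eq fun i => ?_)
    rw [Nat.testBit_or, Nat.one_shiftLeft, Nat.testBit_two_pow]
    by_cases hi : y = i
    · subst hi
      simpa using hb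
    · simp [hi]
  have : F y = ∑ z ∈ Finset.range N, if y = z then F z else 0 := by
    rw [Finset.sum_ite_eq]; simp [hy]
  rw [this, orbVal, orbVal, ← Finset.sum_add_distrib]
  refine Finset.sum_congr rfl fun z _ => ?_
  rw [Nat.testBit_or, Nat.one_shiftLeft, Nat.testBit_two_pow]
  by_cases hz : y = z
  · subst hz
    simp [hb]
  · simp [hz]

theorem orbIns_spec (N : ℕ) (F : ℕ → ℝ) (a : ℝ) (l : List ℕ) (hl : ∀ y ∈ l, y < N ∧ F y = a)
    (m c : ℕ) :
    orbVal N F (orbIns l m c).1 + c * a = orbVal N F m + (orbIns l m c).2 * a := by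
  induction l generalizing m c with
  | nil => rfl
  | cons y l ih =>
    have h1 := ih (fun z hz => hl z (List.mem_cons_of_mem _ hz)) (m ||| 1 <<< y)
      (Bool.rec (c + 1) c (Nat.beq (m ||| 1 <<< y) m))
    have h2 : orbIns (y :: l) m c = orbIns l (m ||| 1 <<< y)
      (Bool.rec (c + 1) c (Nat.beq (m ||| 1 <<< y) m)) := rfl
    rw [h2]
    have h3 : orbVal N F (m ||| 1 <<< y) + c * a = orbVal N F m +
        ((Bool.rec (c + 1) c (Nat.beq (m ||| 1 <<< y) m) : ℕ) : ℝ) * a := by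
      refine orb_beq (P := fun b => orbVal N F (m ||| 1 <<< y) + c * a = orbVal N F m +
        ((Bool.rec (c + 1) c b : ℕ) : ℝ) * a) (fun h => ?_) (fun h => ?_)
      · rw [h]
      · obtain ⟨hy, hF⟩ := hl y List.mem_cons_self
        rw [orbVal_ins N F m y hy h, hF]
        push_cast
        ring
    linarith

theorem orbLoop_spec (L md tgt : ℕ) (F : ℕ → ℝ)
    (hF : ∀ x, x < 3 ^ L → ∀ y ∈ img L md x, y < 3 ^ L ∧ F y = F x) (cols : List (ℕ × ℕ)) (m : ℕ)
    (h : orbLoop L md tgt cols m = true) :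
    orbVal (3 ^ L) F tgt = orbVal (3 ^ L) F m + (cols.map fun c => (c.2 : ℝ) * F c.1).sum := by
  induction cols generalizing m with
  | nil =>
    have h1 : Nat.beq m tgt = true := h
    rw [Nat.eq_of_beq_eq_true h1]
    simp
  | cons c cols ih =>
    have h1 : (Bool.rec false (Bool.rec false (orbLoop L md tgt cols (orbIns (img L md c.1) m 0).1)
        (Nat.beq (orbIns (img L md c.1) m 0).2 c.2)) (Nat.ble (c.1 + 1) (3 ^ L)) : Bool) = true := h
    cases h2 : Nat.ble (c.1 + 1) (3 ^ L)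
    · rw [h2] at h1; exact absurd h1 (by simp)
    cases h3 : Nat.beq (orbIns (img L md c.1) m 0).2 c.2
    · rw [h2, h3] at h1; exact absurd h1 (by simp)
    rw [h2, h3] at h1
    have h4 := orbIns_spec (3 ^ L) F (F c.1) _ (hF c.1 (Nat.le_of_ble_eq_true h2)) m 0
    rw [Nat.eq_of_beq_eq_true h3] at h4
    rw [ih _ h1, List.map_cons, List.sum_cons]
    push_cast at h4
    linarith

theorem orb_hdN (l : List ℕ) : hdN l = l.getD 0 0 := by cases l <;> rfl

theorem orb_tlN (l : List ℕ) (s : ℕ) : (tlN l).getD s 0 = l.getD (s + 1) 0 := by cases l <;> rfl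

theorem orbWin_getD (p : ℕ) (l : List ℕ) (s : ℕ) : (orbWin p l).getD s 0 =
    l.getD s 0 ||| (l.getD (s + 1) 0 <<< p ||| l.getD (s + 2) 0 <<< (2 * p)) := by
  induction l generalizing s with
  | nil =>
    have : orbWin p [] = [] := rfl
    simp [this]
  | cons a t ih =>
    have h : orbWin p (a :: t) =
        (a ||| (hdN t <<< p ||| hdN (tlN t) <<< (2 * p))) :: orbWin p t := rfl
    rw [h]
    cases s with
    | zero => rw [orb_hdN, orb_hdN, orb_tlN]; rfl
    | succ s => exact ih s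

theorem orbIni_getD (lo k s i : ℕ) :
    (orbIni lo k s).getD i 0 = if i < k ∧ lo ≤ s + i then 1 else 0 := by
  induction k generalizing s i with
  | zero =>
    have : orbIni lo 0 s = [] := rfl
    simp [this]
  | succ k ih =>
    have h : orbIni lo (k + 1) s = (Bool.rec 0 1 (Nat.ble lo s) : ℕ) :: orbIni lo k (s + 1) := rfl
    rw [h]
    cases i with
    | zero =>
      cases h2 : Nat.ble lo s
      · have : ¬ lo ≤ s := fun h3 => by rw [Nat.ble_eq_true_of_le h3] at h2; exact absurd h2 (by simp)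
        simp [this]
      · simp [Nat.le_of_ble_eq_true h2]
    | succ i =>
      rw [List.getD_cons_succ, ih]
      exact if_congr (by omega) rfl rfl

/-- sum of the lowest `n` ternary digits -/
def orbDs (n y : ℕ) : ℕ := ∑ i ∈ Finset.range n, y / 3 ^ i % 3

theorem orb_dig_mod {n i : ℕ} (hi : i < n) (x : ℕ) : x % 3 ^ n / 3 ^ i % 3 = x / 3 ^ i % 3 := by
  obtain ⟨k, rfl⟩ := Nat.exists_eq_add_of_lt hi
  rw [add_assoc, pow_add, Nat.mod_mul_right_div_self, Nat.mod_mod_of_dvd _ (dvd_pow_self 3 (by omega))]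

theorem orbDs_succ (n y a : ℕ) (ha : a < 3) (hy : y < 3 ^ n) :
    orbDs (n + 1) (y + 3 ^ n * a) = orbDs n y + a := by
  rw [orbDs, Finset.sum_range_succ, Nat.add_mul_div_left _ _ (by positivity), Nat.div_eq_of_lt hy,
    zero_add, Nat.mod_eq_of_lt ha]
  congr 1
  refine Finset.sum_congr rfl fun i hi => ?_
  rw [← orb_dig_mod (Finset.mem_range.1 hi), Nat.add_mul_mod_self_left, Nat.mod_eq_of_lt hy]

theorem orbTab_spec (lo hi n s y : ℕ) : ((orbTab lo hi n).getD s 0).testBit y = true ↔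
    y < 3 ^ n ∧ lo ≤ s + orbDs n y ∧ s + orbDs n y ≤ hi := by
  induction n generalizing s y with
  | zero =>
    have h : orbTab lo hi 0 = orbIni lo (hi + 1) 0 := rfl
    rw [h, orbIni_getD]
    simp only [orbDs, Finset.range_zero, Finset.sum_empty, pow_zero, add_zero, zero_add]
    split_ifs with h1
    · rw [Nat.testBit_one_eq_true_iff_self_eq_zero]; omega
    · simp only [Nat.zero_testBit]
      constructor
      · intro h; exact absurd h (by simp)
      · intro h; exact absurd ⟨by omega, by omega⟩ h1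
  | succ n ih =>
    have h : orbTab lo hi (n + 1) = orbWin (3 ^ n) (orbTab lo hi n) := rfl
    rw [h, orbWin_getD]
    simp only [Nat.testBit_or, Nat.testBit_shiftLeft, Bool.or_eq_true, Bool.and_eq_true,
      decide_eq_true_eq, ih, pow_succ]
    have h0 := orbDs_succ n y 0 (by omega)
    have h1 := orbDs_succ n (y - 3 ^ n) 1 (by omega)
    have h2 := orbDs_succ n (y - 2 * 3 ^ n) 2 (by omega)
    generalize 3 ^ n = p at h0 h1 h2 ⊢
    rcases lt_or_ge y p with c0 | c0
    · have := h0 c0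
      rw [mul_zero, add_zero] at this
      omega
    rcases lt_or_ge y (2 * p) with c1 | c1
    · have := h1 (by omega)
      rw [show y - p + p * 1 = y by omega] at this
      omega
    rcases lt_or_ge y (3 * p) with c2 | c2
    · have := h2 (by omega)
      rw [show y - 2 * p + p * 2 = y by omega] at this
      omega
    omega

theorem orb_ds (L y : ℕ) : ds (cfgOf L y) = orbDs L y := by
  rw [ds, orbDs, ← Finset.sum_range_reflect, ← Fin.sum_univ_eq_sum_range]
  exact Finset.sum_congr rfl fun j _ => cfgOf_val L y j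

theorem orb_mod_eq (L x y : ℕ) (h : ∀ i, i < L → x / 3 ^ i % 3 = y / 3 ^ i % 3) :
    x % 3 ^ L = y % 3 ^ L := by
  induction L with
  | zero => simp [Nat.mod_one]
  | succ L ih =>
    rw [Nat.mod_pow_succ, Nat.mod_pow_succ, ih fun i hi => h i (by omega), h L (by omega)]

theorem orb_bij (L : ℕ) : Function.Bijective fun y : Fin (3 ^ L) => cfgOf L y := by
  refine (Fintype.bijective_iff_injective_and_card _).2 ⟨fun x y h => ?_, by simp⟩
  have h1 := orb_mod_eq L x y fun i hi => by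
    have h2 := cfgOf_val L x ⟨L - 1 - i, by omega⟩
    have h3 := cfgOf_val L y ⟨L - 1 - i, by omega⟩
    simp only at h
    rw [h, h3] at h2
    simp only [show L - 1 - (L - 1 - i) = i by omega] at h2
    exact h2.symm
  rw [Nat.mod_eq_of_lt x.2, Nat.mod_eq_of_lt y.2] at h1
  exact Fin.ext h1

theorem orb_rot (L x : ℕ) (hL : 1 ≤ L) (hx : x < 3 ^ L) :
    rotX L x < 3 ^ L ∧ cfgOf L (rotX L x) = cfgOf L x ∘ finRotate L := by
  obtain ⟨n, rfl⟩ : ∃ n, L = n + 1 := ⟨L - 1, by omega⟩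
  have h : rotX (n + 1) x = x % 3 ^ n * 3 + x / 3 ^ n := rfl
  have hp : 0 < 3 ^ n := by positivity
  have h1 : x / 3 ^ n < 3 := by
    rw [Nat.div_lt_iff_lt_mul hp]; rw [pow_succ] at hx; omega
  have h2 := Nat.mod_lt x hp
  refine ⟨by rw [h, pow_succ]; omega, funext fun j => Fin.ext ?_⟩
  rw [Function.comp_apply, cfgOf_val, cfgOf_val, h]
  refine Fin.lastCases ?_ (fun i => ?_) j
  · rw [finRotate_last]
    simp only [Fin.val_last, Fin.val_zero, Nat.add_sub_cancel, Nat.sub_self, Nat.sub_zero, pow_zero,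
      Nat.div_one]
    omega
  · have h3 : (finRotate (n + 1) i.castSucc).val = i.val + 1 := by
      rw [finRotate_succ_apply, Fin.coeSucc_eq_succ, Fin.val_succ]
    have hi := i.2
    have h4 : (x % 3 ^ n * 3 + x / 3 ^ n) / 3 = x % 3 ^ n := by
      generalize x / 3 ^ n = a at h1
      omega
    rw [h3, Fin.val_castSucc, show n + 1 - 1 - i.val = (n + 1 - 1 - (i.val + 1)) + 1 by omega,
      pow_succ', ← Nat.div_div_eq_div_mul, h4, orb_dig_mod (by omega)]

theorem orb_revX (n x acc : ℕ) : revX n x acc / 3 ^ n = acc ∧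
    ∀ i, i < n → revX n x acc / 3 ^ i % 3 = x / 3 ^ (n - 1 - i) % 3 := by
  induction n generalizing x acc with
  | zero => exact ⟨Nat.div_one _, fun i hi => absurd hi (by omega)⟩
  | succ n ih =>
    have h : revX (n + 1) x acc = revX n (x / 3) (acc * 3 + x % 3) := rfl
    obtain ⟨h1, h2⟩ := ih (x / 3) (acc * 3 + x % 3)
    rw [h]
    refine ⟨by rw [pow_succ, ← Nat.div_div_eq_div_mul, h1]; omega, fun i hi => ?_⟩
    rcases Nat.lt_succ_iff_lt_or_eq.1 hi with h3 | rfl
    · rw [h2 i h3, Nat.div_div_eq_div_mul, ← pow_succ', show n - 1 - i + 1 = n + 1 - 1 - i by omega]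
    · rw [h1]
      simp only [Nat.add_sub_cancel, Nat.sub_self, pow_zero, Nat.div_one]
      omega

theorem orb_rev (L x : ℕ) :
    revX L x 0 < 3 ^ L ∧ cfgOf L (revX L x 0) = cfgOf L x ∘ Fin.rev := by
  obtain ⟨h1, h2⟩ := orb_revX L x 0
  refine ⟨(Nat.div_eq_zero_iff_lt (by positivity)).1 h1, funext fun j => Fin.ext ?_⟩
  have hj := j.2
  rw [Function.comp_apply, cfgOf_val, cfgOf_val, h2 _ (by omega), Fin.val_rev]
  congr 3
  omega

theorem orb_flipX (L x : ℕ) (hx : x < 3 ^ L) (i : ℕ) (hi : i < L) :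
    (3 ^ L - 1 - x) / 3 ^ i % 3 = 2 - x / 3 ^ i % 3 := by
  induction L generalizing x i with
  | zero => omega
  | succ L ih =>
    rw [pow_succ] at hx ⊢
    cases i with
    | zero =>
      simp only [pow_zero, Nat.div_one]
      omega
    | succ i =>
      rw [pow_succ', ← Nat.div_div_eq_div_mul, ← Nat.div_div_eq_div_mul,
        ← ih (x / 3) (by omega) i (by omega)]
      congr 2
      omega

theorem orb_flip (L x : ℕ) (hx : x < 3 ^ L) :
    flipX L x < 3 ^ L ∧ cfgOf L (flipX L x) = flipC (cfgOf L x) := by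
  have h : flipX L x = 3 ^ L - 1 - x := rfl
  refine ⟨by omega, funext fun j => Fin.ext ?_⟩
  have hj := j.2
  rw [flipC, Fin.val_rev, cfgOf_val, cfgOf_val, h, orb_flipX L x hx _ (by omega)]
  omega

theorem orb_rots (L : ℕ) (Q : ℕ → Prop) (hQ : ∀ x, Q x → Q (rotX L x)) (k x : ℕ) (l : List ℕ)
    (hx : Q x) (hl : ∀ y ∈ l, Q y) : ∀ y ∈ rots L k x l, Q y := by
  induction k generalizing x with
  | zero => exact hl
  | succ k ih =>
    have h : rots L (k + 1) x l = x :: rots L k (rotX L x) l := rfl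
    rw [h]
    exact List.forall_mem_cons.2 ⟨hx, ih _ (hQ x hx)⟩

theorem orb_img (L md : ℕ) (hL : 1 ≤ L) (f : Cfg L → ℝ) (hf : Inv L md f) (x : ℕ)
    (hx : x < 3 ^ L) : ∀ y ∈ img L md x, y < 3 ^ L ∧ f (cfgOf L y) = f (cfgOf L x) := by
  obtain ⟨h1, h2, h3, h4⟩ := hf
  set Q : ℕ → Prop := fun y => y < 3 ^ L ∧ f (cfgOf L y) = f (cfgOf L x) with hQ
  have hQx : Q x := ⟨hx, rfl⟩
  have hrev : (md = 1 ∨ md = 3 ∨ md = 4) → Q (revX L x 0) := fun h =>
    ⟨(orb_rev L x).1, by rw [(orb_rev L x).2, h1 h]⟩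
  have hrot : (md = 3 ∨ md = 4) → ∀ y, Q y → Q (rotX L y) := fun h y hy =>
    ⟨(orb_rot L y hL hy.1).1, by rw [(orb_rot L y hL hy.1).2, h3 h, hy.2]⟩
  have hflip : md = 4 → ∀ y, Q y → Q (flipX L y) := fun h y hy =>
    ⟨(orb_flip L y hy.1).1, by rw [(orb_flip L y hy.1).2, h4 h, hy.2]⟩
  change ∀ y ∈ img L md x, Q y
  unfold img
  split_ifs with m1 m2 m3 m4
  · exact List.forall_mem_cons.2 ⟨hQx, List.forall_mem_singleton.2 (hrev (Or.inl m1))⟩
  · refine List.forall_mem_cons.2 ⟨hQx, List.forall_mem_singleton.2 ?_⟩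
    exact ⟨(orb_flip L _ (orb_rev L x).1).1,
      by rw [(orb_flip L _ (orb_rev L x).1).2, (orb_rev L x).2, h2 m2]⟩
  · have hr := hrot (Or.inl m3)
    exact orb_rots L Q hr _ _ _ hQx (orb_rots L Q hr _ _ _ (hrev (Or.inr (Or.inl m3))) (by simp))
  · have hr := hrot (Or.inr m4)
    have hv := hrev (Or.inr (Or.inr m4))
    exact orb_rots L Q hr _ _ _ hQx (orb_rots L Q hr _ _ _ hv (orb_rots L Q hr _ _ _
      (hflip m4 _ hQx) (orb_rots L Q hr _ _ _ (hflip m4 _ hv) (by simp))))
  · exact List.forall_mem_singleton.2 hQx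

theorem orb_sum (L md lo hi : ℕ) (hL : 1 ≤ L) (cols : List (ℕ × ℕ)) (h : orbChk L md lo hi cols = true)
    (f : Cfg L → ℝ) (hf : Inv L md f) :
    ∑ σ : Cfg L, (if lo ≤ ds σ ∧ ds σ ≤ hi then f σ else 0) =
      (cols.map fun c => (c.2 : ℝ) * f (cfgOf L c.1)).sum := by
  have h1 := orbLoop_spec L md _ (fun y => f (cfgOf L y)) (orb_img L md hL f hf) cols 0 h
  have h2 : orbVal (3 ^ L) (fun y => f (cfgOf L y)) 0 = 0 := by simp [orbVal]
  rw [h2, zero_add] at h1
  rw [← h1, orbVal, ← (orb_bij L).sum_comp, ← Fin.sum_univ_eq_sum_range]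
  refine Finset.sum_congr rfl fun y _ => if_congr ?_ rfl rfl
  rw [orb_hdN, orbTab_spec, orb_ds, zero_add]
  exact ⟨fun h => ⟨y.2, h⟩, fun h => h.2⟩

end Crest.Agent.R347
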