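import Crest.Agent.R347.EngR
import Crest.Agent.R347.Orb
import Crest.Agent.R347.MomA

/-!
# R347: exact sector moments
-/

set_option autoImplicit false
set_option linter.unusedSectionVars false

namespace Crest.Agent.R347

open Matrix

/-- `den * trace (P X^k) = mu k` -/
def Mom {N : ℕ} (P X : Op N) (den : ℕ) (mu : List ℤ) : Prop :=
  ∀ k, k < mu.length → (den : ℝ) * trace (P * X ^ k) = (mu.getD k 0 : ℤ)

/-- Plan: a site permutation `π` acts by `Matrix.submatrix X (· ∘ π) (· ∘ π)` (a ring automorphism,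
`Matrix.submatrix_mul_equiv`); `onS A j ↦ onS A (π j)`.  Reflection fixes `HR L g` (bonds are symmetric in
their two sites, the wrap bond goes to itself).  Rotation moves the twisted bond; for `g = 3` conjugation by the
diagonal sign matrix `onS (Vm 3) j` moves it back (`Vm_mul_Cm`), so
`(X^k) (σ∘ρ) (τ∘ρ) = D σ * (X^k) σ τ * D τ` with `D σ = (-1)^(σ j + 1)`; `D σ * D σ = 1` and
`D (flipC σ) = D σ`.  Flip: `VV L 1` is `(-1)^L` times the permutation matrix of `flipC` (`VV_comm_HR`). -/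
theorem invR (L : ℕ) (hL : 2 ≤ L) (g : Fin 4) (hg : g = 0 ∨ g = 3) (md : ℕ) (k : ℕ) :
    Inv L md (fun σ => (XR L g ^ k) σ σ) := by
  obtain ⟨n, rfl⟩ : ∃ n, L = n + 1 := ⟨L - 1, by omega⟩
  refine ⟨fun _ σ => ?_, fun _ σ => ?_, fun _ σ => ?_, fun _ σ => ?_⟩
  · exact (MomA.XR_pow (MomA.bij_perm Fin.revPerm) (fun _ => one_mul _) (MomA.HR_rev hL g) k).diag
      (fun _ => one_mul _) σ
  · exact ((MomA.XR_pow MomA.bij_flip (fun _ => one_mul _) (MomA.HR_flip g) k).diag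
      (fun _ => one_mul _) _).trans
      ((MomA.XR_pow (MomA.bij_perm Fin.revPerm) (fun _ => one_mul _) (MomA.HR_rev hL g) k).diag
      (fun _ => one_mul _) σ)
  · exact (MomA.XR_pow (MomA.bij_perm (finRotate _)) (MomA.gauge_sq hg) (MomA.HR_rot hg) k).diag
      (MomA.gauge_sq hg) σ
  · exact (MomA.XR_pow MomA.bij_flip (fun _ => one_mul _) (MomA.HR_flip g) k).diag
      (fun _ => one_mul _) σ

theorem invF (L : ℕ) (hL : 2 ≤ L) (g : Fin 4) (hg : g = 0 ∨ g = 3) (md : ℕ) (k : ℕ) :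
    Inv L md (fun σ => (XR L g ^ k) (flipC σ) σ) := by
  obtain ⟨n, rfl⟩ : ∃ n, L = n + 1 := ⟨L - 1, by omega⟩
  have hR : ∀ σ : Cfg (n + 1), (XR (n + 1) g ^ k) (flipC (σ ∘ Fin.rev)) (σ ∘ Fin.rev) =
      (XR (n + 1) g ^ k) (flipC σ) σ := fun σ => by
    have := MomA.XR_pow (MomA.bij_perm Fin.revPerm) (fun _ => one_mul _) (MomA.HR_rev hL g) k
      (flipC σ) σ
    rw [one_mul, mul_one] at this
    exact this
  have hF : ∀ σ : Cfg (n + 1), (XR (n + 1) g ^ k) (flipC (flipC σ)) (flipC σ) =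
      (XR (n + 1) g ^ k) (flipC σ) σ := fun σ => by
    have := MomA.XR_pow MomA.bij_flip (fun _ => one_mul _) (MomA.HR_flip (L := n + 1) g) k
      (flipC σ) σ
    rw [one_mul, mul_one] at this
    exact this
  refine ⟨fun _ σ => hR σ, fun _ σ => (hF _).trans (hR σ), fun _ σ => ?_, fun _ σ => hF σ⟩
  have := MomA.XR_pow (MomA.bij_perm (finRotate _)) (MomA.gauge_sq hg)
    (MomA.HR_rot (n := n) hg) k (flipC σ) σ
  have h1 : Vm g (flipC σ 0) (flipC σ 0) = Vm g (σ 0) (σ 0) := by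
    simp only [flipC]
    generalize σ 0 = a
    rcases hg with rfl | rfl <;> fin_cases a <;> simp [Vm]
  rw [h1, mul_comm (Vm g (σ 0) (σ 0)), mul_assoc, MomA.gauge_sq hg σ, mul_one] at this
  exact this

theorem invO (n : ℕ) (s : Bool) (md : ℕ) (hmd : md = 0 ∨ (md = 1 ∧ s = true) ∨ (md = 2 ∧ s = false))
    (k : ℕ) : Inv (n + 1) md (fun σ => (XO n (if s then 1 else -1) ^ k) σ σ) := by
  rcases hmd with rfl | ⟨rfl, rfl⟩ | ⟨rfl, rfl⟩
  · exact ⟨fun h => by omega, fun h => by omega, fun h => by omega, fun h => by omega⟩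
  · refine ⟨fun _ σ => ?_, fun h => by omega, fun h => by omega, fun h => by omega⟩
    exact (MomA.XO_pow (MomA.bij_perm Fin.revPerm) (MomA.HO_rev n) k).diag (fun _ => one_mul _) σ
  · refine ⟨fun h => by omega, fun _ σ => ?_, fun h => by omega, fun h => by omega⟩
    exact (MomA.XO_pow (MomA.bij_flip.comp (MomA.bij_perm Fin.revPerm)) (MomA.HO_flip n) k).diag
      (fun _ => one_mul _) σ

theorem momR (L : ℕ) (g : Fin 4) (md lo hi : ℕ) (cols : List (ℕ × ℕ)) (mu mu' : List ℤ)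
    (h : CR (XR L g) cols mu) (ho : orbChk L md lo hi cols = true)
    (hc : 2 ≤ L ∧ (g = 0 ∨ g = 3) ∧ mu = mu') : Mom (PI L lo hi) (XR L g) 1 mu' := by
  obtain ⟨hL, hg, rfl⟩ := hc
  intro k hk
  rw [← h k hk, ← orb_sum L md lo hi (by omega) cols ho _ (invR L hL g hg md k), PI, SecA.tr_diag,
    Nat.cast_one, one_mul]
  simp only [ite_mul, one_mul, zero_mul]

/-- `2 trace (PF e X^k) = trace (PI X^k) + e (-1)^L ∑ σ, (X^k) (flip σ) σ` -/
theorem momF (L : ℕ) (g : Fin 4) (md : ℕ) (cols : List (ℕ × ℕ)) (mu nu mu' : List ℤ) (e : ℤ)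
    (h : CR (XR L g) cols mu) (hF : CF (XR L g) cols nu) (ho : orbChk L md L L cols = true)
    (hc : 2 ≤ L ∧ (g = 0 ∨ g = 3) ∧ List.zipWith (fun a b => a + e * (-1) ^ L * b) mu nu = mu') :
    Mom (PF L e) (XR L g) 2 mu' := by
  obtain ⟨hL, hg, rfl⟩ := hc
  intro k hk
  rw [List.length_zipWith, lt_min_iff] at hk
  have e1 := h k hk.1
  have e2 := hF k hk.2
  rw [← orb_sum L md L L (by omega) cols ho _ (invR L hL g hg md k)] at e1
  rw [← orb_sum L md L L (by omega) cols ho _ (invF L hL g hg md k)] at e2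
  have e3 : (List.zipWith (fun a b => a + e * (-1) ^ L * b) mu nu).getD k 0 =
      mu.getD k 0 + e * (-1) ^ L * nu.getD k 0 := by
    rw [List.getD_eq_getElem _ _ (by rw [List.length_zipWith, lt_min_iff]; exact hk),
      List.getD_eq_getElem _ _ hk.1, List.getD_eq_getElem _ _ hk.2, List.getElem_zipWith]
  have e4 : trace (VV L 1 * PI L L L * XR L g ^ k) =
      (-1) ^ L * ∑ σ : Cfg L, if L ≤ ds σ ∧ ds σ ≤ L then (XR L g ^ k) (flipC σ) σ else 0 := by
    rw [Matrix.mul_assoc, trace, Finset.mul_sum]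
    refine Finset.sum_congr rfl fun σ _ => ?_
    rw [diag_apply, MomA.VV_mul, PI, diagonal_mul, ite_mul, one_mul, zero_mul]
    have := MomA.ds_flip σ
    congr 1
    exact if_congr (by omega) rfl rfl
  rw [e3]
  push_cast
  rw [← e1, ← e2, PF, Matrix.smul_mul, Matrix.add_mul, Matrix.smul_mul, trace_smul, trace_add,
    trace_smul, e4, PI, SecA.tr_diag]
  simp only [ite_mul, one_mul, zero_mul, smul_eq_mul]
  ring

theorem momO (n : ℕ) (s : Bool) (md lo hi : ℕ) (cols : List (ℕ × ℕ)) (mu mu' : List ℤ)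
    (h : CR (XO n (if s then 1 else -1)) cols mu) (ho : orbChk (n + 1) md lo hi cols = true)
    (hc : (md = 0 ∨ (md = 1 ∧ s = true) ∨ (md = 2 ∧ s = false)) ∧ mu = mu') :
    Mom (PI (n + 1) lo hi) (XO n (if s then 1 else -1)) 1 mu' := by
  obtain ⟨hmd, rfl⟩ := hc
  intro k hk
  rw [← h k hk, ← orb_sum (n + 1) md lo hi (by omega) cols ho _ (invO n s md hmd k), PI, SecA.tr_diag,
    Nat.cast_one, one_mul]
  simp only [ite_mul, one_mul, zero_mul]

end Crest.Agent.R347
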