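import Crest.Agent.R347.MpsVar

/-!
# R347: pairing identities and the variational bound `mps_bound`
-/

set_option autoImplicit false

namespace Crest.Agent.R347

open Matrix

variable {D : ℕ}

namespace MpsB

theorem trace_sand (A : Fin 3 → MD D) (O : M3) (W Z : MD D) :
    trace (sand A O W * Zᵀ) = trace (W * (sand (trT A) O Z)ᵀ) := by
  simp only [sand, trT, Finset.sum_mul, trace_sum, transpose_sum, Finset.mul_sum, transpose_smul,
    smul_mul_assoc, mul_smul_comm, trace_smul, transpose_mul, transpose_transpose]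
  refine Finset.sum_congr rfl fun s _ => Finset.sum_congr rfl fun t _ => ?_
  congr 1
  rw [Matrix.mul_assoc, Matrix.mul_assoc, trace_mul_comm]
  simp only [Matrix.mul_assoc]

theorem sand_add (A : Fin 3 → MD D) (O : M3) (W Z : MD D) :
    sand A O (W + Z) = sand A O W + sand A O Z := by
  simp only [sand, Matrix.mul_add, Matrix.add_mul, smul_add, Finset.sum_add_distrib]

theorem sand_sub (A : Fin 3 → MD D) (O : M3) (W Z : MD D) :
    sand A O (W - Z) = sand A O W - sand A O Z := by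
  simp only [sand, Matrix.mul_sub, Matrix.sub_mul, smul_sub, Finset.sum_sub_distrib]

theorem sand_smul (A : Fin 3 → MD D) (O : M3) (c : ℝ) (W : MD D) :
    sand A O (c • W) = c • sand A O W := by
  simp only [sand, Matrix.mul_smul, Matrix.smul_mul, Finset.smul_sum, smul_comm c]

theorem sum_bar {M : Type*} [AddCommMonoid M] (f : Fin 3 → Fin 3 → M) :
    ∑ a, f a (bar a) = ∑ a, f (bar a) a := by
  simp only [Fin.sum_univ_three, bar, Matrix.cons_val_zero, Matrix.cons_val_one,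
    Matrix.cons_val]
  rw [add_comm (f 0 1)]

theorem trT_trT (A : Fin 3 → MD D) : trT (trT A) = A := by
  funext s; simp [trT]

/-- bilinear bound -/
def Bl (W : MD D) (B : ℝ) : Prop :=
  0 ≤ B ∧ ∀ u v : Fin D → ℝ, |u ⬝ᵥ W *ᵥ v| ≤ B / 2 * (u ⬝ᵥ u + v ⬝ᵥ v)

theorem dot_self_nonneg (u : Fin D → ℝ) : 0 ≤ u ⬝ᵥ u :=
  Finset.sum_nonneg fun i _ => mul_self_nonneg (u i)

theorem sq_le_dot (u : Fin D → ℝ) (i : Fin D) : u i * u i ≤ u ⬝ᵥ u :=
  Finset.single_le_sum (f := fun i => u i * u i) (fun i _ => mul_self_nonneg (u i))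
    (Finset.mem_univ i)

theorem l1_nonneg (W : MD D) : 0 ≤ l1 W :=
  Finset.sum_nonneg fun _ _ => Finset.sum_nonneg fun _ _ => abs_nonneg _

theorem Bl.mono {W : MD D} {B B' : ℝ} (h : Bl W B) (hB : B ≤ B') : Bl W B' :=
  ⟨h.1.trans hB, fun u v => (h.2 u v).trans (mul_le_mul_of_nonneg_right (by linarith)
    (add_nonneg (dot_self_nonneg u) (dot_self_nonneg v)))⟩

theorem bl_l1 (W : MD D) : Bl W (l1 W) := by
  refine ⟨l1_nonneg W, fun u v => ?_⟩
  have e : u ⬝ᵥ W *ᵥ v = ∑ i, ∑ j, W i j * (u i * v j) := by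
    simp only [dotProduct, mulVec, Finset.mul_sum]
    refine Finset.sum_congr rfl fun i _ => Finset.sum_congr rfl fun j _ => by ring
  rw [e, l1, Finset.sum_div, Finset.sum_mul]
  refine (Finset.abs_sum_le_sum_abs _ _).trans (Finset.sum_le_sum fun i _ => ?_)
  rw [Finset.sum_div, Finset.sum_mul]
  refine (Finset.abs_sum_le_sum_abs _ _).trans (Finset.sum_le_sum fun j _ => ?_)
  rw [abs_mul, div_mul_eq_mul_div, mul_div_assoc]
  refine mul_le_mul_of_nonneg_left ?_ (abs_nonneg _)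
  have h1 := sq_le_dot u i
  have h2 := sq_le_dot v j
  rw [abs_le]
  constructor <;> nlinarith [sq_nonneg (u i + v j), sq_nonneg (u i - v j)]

theorem bl_of_l1 {W : MD D} {B : ℝ} (h : l1 W ≤ B) : Bl W B := (bl_l1 W).mono h

theorem Bl.add {W Z : MD D} {B C : ℝ} (h : Bl W B) (h' : Bl Z C) : Bl (W + Z) (B + C) := by
  refine ⟨add_nonneg h.1 h'.1, fun u v => ?_⟩
  rw [add_mulVec, dotProduct_add]
  refine (abs_add_le _ _).trans ?_
  have := h.2 u v
  have := h'.2 u v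
  linarith

theorem bl_zero : Bl (0 : MD D) 0 := ⟨le_rfl, fun u v => by simp⟩

theorem Bl.entry {W : MD D} {B : ℝ} (h : Bl W B) (i j : Fin D) : |W i j| ≤ B := by
  have := h.2 (Pi.single i 1) (Pi.single j 1)
  simp only [mulVec_single_one, single_one_dotProduct, Pi.single_eq_same, col_apply] at this
  linarith

theorem Bl.trace_le {W : MD D} {B : ℝ} (h : Bl W B) (Z : MD D) :
    |trace (W * Zᵀ)| ≤ B * l1 Z := by
  simp only [trace, diag, mul_apply, transpose_apply, l1, Finset.mul_sum]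
  refine (Finset.abs_sum_le_sum_abs _ _).trans (Finset.sum_le_sum fun i _ => ?_)
  refine (Finset.abs_sum_le_sum_abs _ _).trans (Finset.sum_le_sum fun j _ => ?_)
  rw [abs_mul]
  exact mul_le_mul_of_nonneg_right (h.entry i j) (abs_nonneg _)

theorem dot_sand (A : Fin 3 → MD D) (O : M3) (W : MD D) (u v : Fin D → ℝ) :
    u ⬝ᵥ sand A O W *ᵥ v = ∑ s, ∑ t, O s t * ((A s *ᵥ u) ⬝ᵥ W *ᵥ (A t *ᵥ v)) := by
  simp only [sand, Matrix.sum_mulVec, dotProduct_sum, smul_mulVec, dotProduct_smul, smul_eq_mul]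
  refine Finset.sum_congr rfl fun s _ => Finset.sum_congr rfl fun t _ => ?_
  congr 1
  rw [Matrix.mul_assoc, ← mulVec_mulVec, dotProduct_mulVec, vecMul_transpose, mulVec_mulVec]

theorem sum_iso {A : Fin 3 → MD D} (hA : sand A 1 1 = 1) (u : Fin D → ℝ) :
    ∑ s, (A s *ᵥ u) ⬝ᵥ (A s *ᵥ u) = u ⬝ᵥ u := by
  have := dot_sand A 1 1 u u
  rw [hA] at this
  simp only [one_mulVec, one_apply, ite_mul, one_mul, zero_mul, Finset.sum_ite_eq,
    Finset.mem_univ, if_true] at this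
  exact this.symm

/-- substochastic in absolute value -/
def Sub (O : M3) : Prop := (∀ s, ∑ t, |O s t| ≤ 1) ∧ ∀ t, ∑ s, |O s t| ≤ 1

theorem sub_one : Sub 1 := by
  constructor <;> intro s <;> fin_cases s <;> simp [Fin.sum_univ_three, one_apply]

theorem sub_Dm (a : Fin 3) : Sub (Dm a) := by
  fin_cases a <;> constructor <;> intro s <;> fin_cases s <;> simp [Fin.sum_univ_three, Dm]

theorem Bl.sand {A : Fin 3 → MD D} (hA : sand A 1 1 = 1) {O : M3} (hO : Sub O) {W : MD D} {B : ℝ}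
    (h : Bl W B) : Bl (sand A O W) B := by
  refine ⟨h.1, fun u v => ?_⟩
  rw [dot_sand]
  have h1 : |∑ s, ∑ t, O s t * ((A s *ᵥ u) ⬝ᵥ W *ᵥ (A t *ᵥ v))| ≤
      ∑ s, ∑ t, |O s t| * (B / 2 * ((A s *ᵥ u) ⬝ᵥ (A s *ᵥ u) + (A t *ᵥ v) ⬝ᵥ (A t *ᵥ v))) := by
    refine (Finset.abs_sum_le_sum_abs _ _).trans (Finset.sum_le_sum fun s _ => ?_)
    refine (Finset.abs_sum_le_sum_abs _ _).trans (Finset.sum_le_sum fun t _ => ?_)
    rw [abs_mul]
    exact mul_le_mul_of_nonneg_left (h.2 _ _) (abs_nonneg _)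
  refine h1.trans ?_
  have e : ∑ s, ∑ t, |O s t| * (B / 2 * ((A s *ᵥ u) ⬝ᵥ (A s *ᵥ u) + (A t *ᵥ v) ⬝ᵥ (A t *ᵥ v))) =
      B / 2 * (∑ s, (∑ t, |O s t|) * ((A s *ᵥ u) ⬝ᵥ (A s *ᵥ u)) +
        ∑ t, (∑ s, |O s t|) * ((A t *ᵥ v) ⬝ᵥ (A t *ᵥ v))) := by
    simp only [Fin.sum_univ_three]
    ring
  rw [e]
  refine mul_le_mul_of_nonneg_left (add_le_add ?_ ?_) (by linarith [h.1])
  · rw [← sum_iso hA u]
    exact Finset.sum_le_sum fun s _ => mul_le_of_le_one_left (dot_self_nonneg _) (hO.1 s)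
  · rw [← sum_iso hA v]
    exact Finset.sum_le_sum fun s _ => mul_le_of_le_one_left (dot_self_nonneg _) (hO.2 s)

theorem run_append (S : St D) (l l' : List (Fin 3 → MD D)) :
    S.run (l ++ l') = (S.run l).run l' := by
  simp [St.run, List.foldl_append]

theorem run_replicate_succ (S : St D) (A : Fin 3 → MD D) (j : ℕ) :
    S.run (List.replicate (j + 1) A) = (S.run (List.replicate j A)).step A := by
  rw [List.replicate_succ', run_append]; rfl

theorem inv {A : Fin 3 → MD D} {G ρ : MD D} {e η ε B : ℝ} {S0 : St D} (hA : sand A 1 1 = 1)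
    (hN : l1 (S0.N - 1) ≤ η) (hY : ∀ a, l1 (S0.Y a - sand A (Dm a) 1) ≤ η)
    (hG : l1 (sand A 1 G + ∑ a, sand A (Dm (bar a)) (sand A (Dm a) 1) - G - e • (1 : MD D)) ≤ ε)
    (hB : l1 (S0.X - G) ≤ B) (j : ℕ) :
    Bl ((S0.run (List.replicate j A)).N - 1) η ∧
      (∀ a, Bl ((S0.run (List.replicate j A)).Y a - sand A (Dm a) 1) η) ∧
      ∃ P T : MD D, (S0.run (List.replicate j A)).X = G + ((j : ℝ) * e) • (1 : MD D) + P + T ∧
        Bl P B ∧ Bl T (j * (ε + 3 * η)) ∧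
        trace (P * ρᵀ) ≤ trace ((S0.X - G) * ρᵀ) + j * (B * l1 (sand (trT A) 1 ρ - ρ)) := by
  induction j with
  | zero =>
    refine ⟨bl_of_l1 hN, fun a => bl_of_l1 (hY a), S0.X - G, 0, ?_, bl_of_l1 hB, ?_, ?_⟩
    · simp [St.run]
    · simpa using bl_zero
    · simp
  | succ j ih =>
    obtain ⟨h1, h2, P, T, hX, hP, hT, htr⟩ := ih
    rw [run_replicate_succ]
    set S := S0.run (List.replicate j A) with hS
    refine ⟨?_, fun a => ?_, sand A 1 P,
      sand A 1 T + (sand A 1 G + ∑ a, sand A (Dm (bar a)) (sand A (Dm a) 1) - G - e • (1 : MD D)) +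
        (sand A (Dm (bar 0)) (S.Y 0 - sand A (Dm 0) 1) +
          sand A (Dm (bar 1)) (S.Y 1 - sand A (Dm 1) 1) +
          sand A (Dm (bar 2)) (S.Y 2 - sand A (Dm 2) 1)), ?_, hP.sand hA sub_one, ?_, ?_⟩
    · have := h1.sand hA sub_one
      rwa [sand_sub, hA] at this
    · have := h1.sand hA (sub_Dm a)
      rwa [sand_sub] at this
    · show sand A 1 S.X + ∑ a, sand A (Dm (bar a)) (S.Y a) = _
      rw [hX]
      simp only [sand_add, sand_sub, sand_smul, hA, Fin.sum_univ_three]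
      push_cast
      rw [add_mul, one_mul, add_smul]
      abel
    · have := ((hT.sand hA sub_one).add (bl_of_l1 hG)).add
        ((((h2 0).sand hA (sub_Dm (bar 0))).add ((h2 1).sand hA (sub_Dm (bar 1)))).add
          ((h2 2).sand hA (sub_Dm (bar 2))))
      refine this.mono (le_of_eq ?_)
      push_cast
      ring
    · rw [trace_sand]
      have e1 : trace (P * (sand (trT A) 1 ρ)ᵀ) =
          trace (P * ρᵀ) + trace (P * (sand (trT A) 1 ρ - ρ)ᵀ) := by
        rw [transpose_sub, Matrix.mul_sub, trace_sub]; ring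
      have e2 := (le_abs_self _).trans (hP.trace_le (sand (trT A) 1 ρ - ρ))
      push_cast
      rw [e1]
      linarith

theorem trace_split (W C Z : MD D) : trace (W * Zᵀ) = trace (C * Zᵀ) + trace ((W - C) * Zᵀ) := by
  rw [Matrix.sub_mul, trace_sub]; ring

end MpsB

open MpsB

/-- Plan: `trace (sand A O W * Zᵀ) = trace (W * (sand (trT A) O Z)ᵀ)`; reindex by `bar` (an involution). -/
theorem pair_step (S S' : St D) (A : Fin 3 → MD D) :
    pairN (S.step A) S' = pairN S (S'.step (trT A)) ∧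
      pairH (S.step A) S' = pairH S (S'.step (trT A)) := by
  refine ⟨trace_sand _ _ _ _, ?_⟩
  simp only [pairH, St.step, Matrix.add_mul, trace_add, Finset.sum_mul, trace_sum, trace_sand,
    transpose_add, transpose_sum, Matrix.mul_add, Finset.mul_sum]
  rw [sum_bar (fun a b => trace (S.N * (sand (trT A) (Dm a) (S'.Y b))ᵀ))]
  ring

theorem pair_run (S S' : St D) (l : List (Fin 3 → MD D)) :
    pairN (S.run (l.reverse.map trT)) S' = pairN S (S'.run l) ∧
      pairH (S.run (l.reverse.map trT)) S' = pairH S (S'.run l) := by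
  induction l generalizing S' with
  | nil => exact ⟨rfl, rfl⟩
  | cons A l ih =>
    rw [List.reverse_cons, List.map_append, run_append]
    have h := pair_step (S.run (l.reverse.map trT)) S' (trT A)
    rw [trT_trT] at h
    exact ⟨h.1.trans (ih _).1, h.2.trans (ih _).2⟩

/-- The variational bound for the list `lL ++ replicate j A ++ (lR.reverse.map trT)`.
Plan: let `Bl W B := ∀ u v, |u ⬝ᵥ W *ᵥ v| ≤ B/2 * (u ⬝ᵥ u + v ⬝ᵥ v)`.  `Bl W (l1 W)`; `Bl W B → |W i j| ≤ B`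
hence `|trace (W * Zᵀ)| ≤ B * l1 Z`; if `sand A 1 1 = 1` then `sand A O` preserves `Bl · B` for
`O ∈ {1, Dm a}` (at most one entry `±1` in each row and column of `O`, `∑ s, |A s u|² = |u|²`).
With `S_j = S0.run (replicate j A)`: `Bl (N_j - 1) η`, `Bl (Y_j a - sand A (Dm a) 1) η`,
`X_j = G + j e • 1 + 𝓔^j (X_0 - G) + T_j`, `Bl T_j (j (ε + 3 η))`, `𝓔 = sand A 1`,
`trace (𝓔 W * ρᵀ) = trace (W * ρᵀ) + trace (W * δρᵀ)`, `δρ = sand (trT A) 1 ρ - ρ`.
So `pairH S_j S' ≤ c0 + j * c1` and `trace ρ - η l1 ρ ≤ pairN S_j S' ≤ trace ρ + η l1 ρ`; the target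
`E0 + j * e1` is `≤ 0`. -/
theorem mps_bound (lL lR : List (Fin 3 → MD D)) (A : Fin 3 → MD D) (G : MD D)
    (s e η ε B E0 e1 : ℝ) (S0 S' : St D)
    (hS0 : S0 = (St.init D (-(3 / 5) * s)).run lL) (hS' : S' = (St.init D (-(3 / 5))).run lR)
    (hA : sand A 1 1 = 1)
    (hN : l1 (S0.N - 1) ≤ η) (hY : ∀ a, l1 (S0.Y a - sand A (Dm a) 1) ≤ η)
    (hG : l1 (sand A 1 G + ∑ a, sand A (Dm (bar a)) (sand A (Dm a) 1) - G - e • (1 : MD D)) ≤ ε)
    (hB : l1 (S0.X - G) ≤ B)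
    (hpos : η * l1 S'.N < trace S'.N) (hE0 : E0 ≤ 0) (he1 : e1 ≤ 0)
    (hslope : e * trace S'.N + B * l1 (sand (trT A) 1 S'.N - S'.N) + (ε + 3 * η) * l1 S'.N ≤
      e1 * (trace S'.N + η * l1 S'.N))
    (hint : trace (S0.X * S'.Nᵀ) + trace S'.X + η * l1 S'.X +
        ∑ a, (trace (sand A (Dm a) 1 * (S'.Y (bar a))ᵀ) + η * l1 (S'.Y (bar a))) ≤
      E0 * (trace S'.N + η * l1 S'.N))
    (j n : ℕ) (hn : lL.length + j + lR.length = n + 1) :
    ∃ ψ : Cfg (n + 1) → ℝ, ψ ≠ 0 ∧ ψ ⬝ᵥ (HO n s *ᵥ ψ) ≤ (E0 + j * e1) * (ψ ⬝ᵥ ψ) := by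
  obtain ⟨ψ, h1, h2⟩ := mps_var (lL ++ List.replicate j A ++ lR.reverse.map trT) n
    (by simp [← hn, add_assoc]) s
  rw [run_append, run_append, ← hS0] at h1 h2
  rw [(pair_run _ _ lR).1, ← hS'] at h1
  rw [(pair_run _ _ lR).2, ← hS'] at h2
  obtain ⟨k1, k2, P, T, hX, -, hT, htr⟩ := inv (ρ := S'.N) hA hN hY hG hB j
  set S := S0.run (List.replicate j A) with hS
  have one : ∀ Z : MD D, trace ((1 : MD D) * Zᵀ) = trace Z := fun Z => by
    rw [Matrix.one_mul, trace_transpose]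
  have n1 : pairN S S' = trace S'.N + trace ((S.N - 1) * S'.Nᵀ) := by
    rw [pairN, trace_split _ 1, one]
  have n2 := abs_le.1 (k1.trace_le S'.N)
  have npos : 0 < ψ ⬝ᵥ ψ := by rw [h1, n1]; linarith [n2.1]
  have nle : ψ ⬝ᵥ ψ ≤ trace S'.N + η * l1 S'.N := by rw [h1, n1]; linarith [n2.2]
  refine ⟨ψ, ?_, ?_⟩
  · rintro rfl
    simp at npos
  have hj : (0 : ℝ) ≤ j := Nat.cast_nonneg j
  have hc : E0 + j * e1 ≤ 0 := by nlinarith
  refine le_trans ?_ (mul_le_mul_of_nonpos_left nle hc)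
  rw [h2, pairH]
  have t1 : trace (S.X * S'.Nᵀ) ≤ trace (S0.X * S'.Nᵀ) +
      j * (e * trace S'.N + B * l1 (sand (trT A) 1 S'.N - S'.N) + (ε + 3 * η) * l1 S'.N) := by
    have a1 := (le_abs_self _).trans (hT.trace_le S'.N)
    rw [Matrix.sub_mul, trace_sub] at htr
    rw [hX]
    simp only [Matrix.add_mul, trace_add, Matrix.smul_mul, trace_smul, one, smul_eq_mul]
    nlinarith
  have t2 : trace (S.N * S'.Xᵀ) ≤ trace S'.X + η * l1 S'.X := by
    rw [trace_split _ 1, one]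
    linarith [(le_abs_self _).trans (k1.trace_le S'.X)]
  have t3 : ∑ a, trace (S.Y a * (S'.Y (bar a))ᵀ) ≤
      ∑ a, (trace (sand A (Dm a) 1 * (S'.Y (bar a))ᵀ) + η * l1 (S'.Y (bar a))) := by
    refine Finset.sum_le_sum fun a _ => ?_
    rw [trace_split _ (sand A (Dm a) 1)]
    linarith [(le_abs_self _).trans ((k2 a).trace_le (S'.Y (bar a)))]
  have t4 := mul_le_mul_of_nonneg_left hslope hj
  nlinarith

end Crest.Agent.R347
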