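import Crest.Agent.R347.MpsD
import Crest.Agent.R347.MpsD1
import Crest.Agent.R347.MpsD2
import Crest.Agent.R347.MpsD3

/-! # R347: kernel checks, part 1 (generated) -/

set_option autoImplicit false
set_option maxRecDepth 100000

namespace Crest.Agent.R347.Z

theorem c5 : eqS (stepZ 24 (stepZ 24 (stepZ 24 (stepZ 24 (stepZ 24 S00 L1) L2) L3) L4) L5) S5 = true := by decide +kernel

theorem c8 : eqS (stepZ 24 (stepZ 24 (stepZ 24 S5 L6) L7) L8) S8 = true := by decide +kernel

theorem c10 : eqS (stepZ 24 (stepZ 24 S8 L9) L10) S10 = true := by decide +kernel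

end Crest.Agent.R347.Z
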