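import Crest.Agent.R347.MpsS

/-!
# R347: integer form of the hypotheses of `mps_bound`
-/

set_option autoImplicit false

namespace Crest.Agent.R347.Z

open Matrix MpsB

variable {D : Nat}

theorem l1_smul_toM {c : ℝ} (hc : 0 ≤ c) (M : Mat) : l1 (c • toM D M) ≤ c * (ml1 M : ℝ) := by
  have h := l1_toM D M
  have : l1 (c • toM D M) = c * l1 (toM D M) := by
    simp only [l1, Matrix.smul_apply, smul_eq_mul, abs_mul, abs_of_nonneg hc, Finset.mul_sum]
  rw [this]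
  exact mul_le_mul_of_nonneg_left h hc

theorem trace_toM' (M : Mat) : trace (toM D M) = (mdot D M (idM D) : ℝ) := by
  rw [← trace_toM, toM_idM, transpose_one, Matrix.mul_one]

noncomputable def SI (D : Nat) : SZ := ⟨idM D, [], [], [], []⟩

noncomputable def chkA (D d : Nat) (A : T3) (SA : SZ) : Bool :=
  eqS (stepZ D (SI D) A) SA && eqM SA.N (smul ((d : Int) ^ 2) (idM D))

noncomputable def chkL (D K d : Nat) (S0 SA : SZ) : Bool :=
  Nat.ble (ml1 (rsub (smul (K : Int) (idM D)) S0.N) * 10 ^ 7) K &&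
  Nat.ble (ml1 (rsub (smul (K : Int) SA.Y0) (smul ((d : Int) ^ 2) S0.Y0)) * 10 ^ 7) (K * d ^ 2) &&
  Nat.ble (ml1 (rsub (smul (K : Int) SA.Y1) (smul ((d : Int) ^ 2) S0.Y1)) * 10 ^ 7) (K * d ^ 2) &&
  Nat.ble (ml1 (rsub (smul (K : Int) SA.Y2) (smul ((d : Int) ^ 2) S0.Y2)) * 10 ^ 7) (K * d ^ 2)

noncomputable def chkG (D d g : Nat) (A : T3) (SA : SZ) (G : Mat) (e : Int) : Bool :=
  Nat.ble (ml1 (rsub (smul (e * (d : Int) ^ 4) (idM D)) (rsub (smul ((d : Int) ^ 4) G)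
    (stepZ D ⟨[], smul ((d : Int) ^ 2) G, smul (g : Int) SA.Y0, smul (g : Int) SA.Y1,
      smul (g : Int) SA.Y2⟩ A).X)) * 10 ^ 6) (g * d ^ 4)

noncomputable def chkB (K g : Nat) (S0 : SZ) (G : Mat) : Bool :=
  Nat.ble (ml1 (rsub (smul (K : Int) G) (smul (g : Int) S0.X))) (2 * (K * g))

noncomputable def chkS (D d g : Nat) (A : T3) (S' : SZ) (e : Int) : Bool :=
  decide ((ml1 S'.N : Int) < 10 ^ 7 * mdot D S'.N (idM D)) &&
  decide (e * mdot D S'.N (idM D) * (d : Int) ^ 2 * 10 ^ 13 +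
      2 * (ml1 (rsub (smul ((d : Int) ^ 2) S'.N) (stepZ D S' (trZ D A)).N) : Int) * g * 10 ^ 13 +
      13 * (ml1 S'.N : Int) * (d : Int) ^ 2 * g * 10 ^ 6 ≤
    -1401478 * (10 ^ 7 * mdot D S'.N (idM D) + (ml1 S'.N : Int)) * (d : Int) ^ 2 * g)

noncomputable def chkH (D K d k : Nat) (S0 SA S' : SZ) : Bool :=
  decide (mdot D S0.X S'.N * (d : Int) ^ 2 * 10 ^ 13 +
      mdot D S'.X (idM D) * K * (d : Int) ^ 2 * 10 ^ 13 +
      ((ml1 S'.X : Int) + ml1 S'.Y0 + ml1 S'.Y1 + ml1 S'.Y2) * K * (d : Int) ^ 2 * 10 ^ 6 +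
      (mdot D SA.Y0 S'.Y1 + mdot D SA.Y1 S'.Y0 + mdot D SA.Y2 S'.Y2) * K * 10 ^ 13 ≤
    (-1401478 * (k : Int) - 2398600) * (10 ^ 7 * mdot D S'.N (idM D) + (ml1 S'.N : Int)) * K *
      (d : Int) ^ 2)

theorem inf_case {a b K K' k0 d g : Nat} {S0 S' SA : SZ} {A : T3} {G : Mat} {e : Int}
    (h : RchK D a (3 / 5) K S0) (h' : RchK D b (-(3 / 5)) K' S') (hk : a + b = k0 + 2)
    (hd : 0 < d) (hg : 0 < g) (cA : chkA D d A SA = true) (cL : chkL D K d S0 SA = true)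
    (cG : chkG D d g A SA G e = true) (cB : chkB K g S0 G = true) (cS : chkS D d g A S' e = true)
    (cH : chkH D K d k0 S0 SA S' = true) (k : Nat) (hk0 : k0 ≤ k) :
    ∃ ψ : Cfg (k + 2) → ℝ, ψ ≠ 0 ∧ ψ ⬝ᵥ (HOn k (-1) *ᵥ ψ) ≤ 0 := by
  obtain ⟨hK, l, hl, hr⟩ := h
  obtain ⟨hK', l', hl', hr'⟩ := h'
  have hKr : (0 : ℝ) < K := by exact_mod_cast hK
  have hKr' : (0 : ℝ) < K' := by exact_mod_cast hK'
  have hdr : (0 : ℝ) < d := by exact_mod_cast hd
  have hgr : (0 : ℝ) < g := by exact_mod_cast hg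
  obtain ⟨AR, hAR⟩ : ∃ AR, AR = toT D (1 / (d : ℝ)) A := ⟨_, rfl⟩
  simp only [chkA, Bool.and_eq_true] at cA
  have hSA : (⟨1, 0, fun _ => 0⟩ : St D).step AR = toS D (1 / (d : ℝ) ^ 2) SA := by
    have : (⟨1, 0, fun _ => 0⟩ : St D) = toS D 1 (SI D) := by
      refine St.ext' ?_ ?_ ?_ ?_ ?_ <;> simp [toS, SI, toM_idM, toM_nil]
    rw [this, hAR, step_toS, eqS_sound _ cA.1]
    congr 1
    field_simp
  have hA : sand AR 1 1 = 1 := by
    have := congrArg St.N hSA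
    simp only [St.step, toS] at this
    rw [this, eqM_sound cA.2, toM_smul, toM_idM, smul_smul]
    push_cast
    rw [one_div_mul_cancel (by positivity), one_smul]
  have hY0 : sand AR (Dm 0) 1 = (1 / (d : ℝ) ^ 2) • toM D SA.Y0 := congrFun (congrArg St.Y hSA) 0
  have hY1 : sand AR (Dm 1) 1 = (1 / (d : ℝ) ^ 2) • toM D SA.Y1 := congrFun (congrArg St.Y hSA) 1
  have hY2 : sand AR (Dm 2) 1 = (1 / (d : ℝ) ^ 2) • toM D SA.Y2 := congrFun (congrArg St.Y hSA) 2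
  simp only [chkL, Bool.and_eq_true, Nat.ble_eq] at cL
  obtain ⟨⟨⟨cN, c0⟩, c1⟩, c2⟩ := cL
  have keyY : ∀ Y YA : Mat, ml1 (rsub (smul (K : Int) YA) (smul ((d : Int) ^ 2) Y)) * 10 ^ 7 ≤ K * d ^ 2 →
      l1 ((1 / (K : ℝ)) • toM D Y - (1 / (d : ℝ) ^ 2) • toM D YA) ≤ 1 / 10 ^ 7 := by
    intro Y YA hc
    have e1 : (1 / (K : ℝ)) • toM D Y - (1 / (d : ℝ) ^ 2) • toM D YA = (1 / ((K : ℝ) * d ^ 2)) •
        toM D (rsub (smul (K : Int) YA) (smul ((d : Int) ^ 2) Y)) := by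
      rw [toM_rsub, toM_smul, toM_smul, smul_sub, smul_smul, smul_smul]
      congr 2 <;> push_cast <;> field_simp
    rw [e1]
    refine (l1_smul_toM (by positivity) _).trans ?_
    have : (ml1 (rsub (smul (K : Int) YA) (smul ((d : Int) ^ 2) Y)) : ℝ) * 10 ^ 7 ≤ K * d ^ 2 := by
      exact_mod_cast hc
    rw [one_div_mul_eq_div, div_le_div_iff₀ (by positivity) (by positivity)]
    linarith
  obtain ⟨t, ht⟩ : ∃ t : ℝ, t = (mdot D S'.N (idM D) : ℝ) := ⟨_, rfl⟩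
  obtain ⟨u, hu⟩ : ∃ u : ℝ, u = (ml1 S'.N : ℝ) := ⟨_, rfl⟩
  have htr : trace ((1 / (K' : ℝ)) • toM D S'.N) = 1 / (K' : ℝ) * t := by
    rw [trace_smul, trace_toM', ht, smul_eq_mul]
  have hl1 : l1 ((1 / (K' : ℝ)) • toM D S'.N) ≤ 1 / (K' : ℝ) * u := by
    rw [hu]; exact l1_smul_toM (by positivity) _
  simp only [chkS, Bool.and_eq_true, decide_eq_true_eq] at cS
  simp only [chkH, decide_eq_true_eq] at cH
  have hE0 : (k0 : ℝ) * e0 + eb0 = (-1401478 * (k0 : ℝ) - 2398600) / 10 ^ 6 := by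
    simp only [e0, eb0, e0q, eb0q]; push_cast; ring
  have he0 : e0 = -1401478 / 10 ^ 6 := by simp only [e0, e0q]; push_cast; ring
  have hk0' : (0 : ℝ) ≤ k0 := Nat.cast_nonneg _
  have hc' : (0 : ℝ) < 1 / (K' : ℝ) := by positivity
  obtain ⟨ψ, h0, hψ⟩ := mps_bound l l' AR ((1 / (g : ℝ)) • toM D G) (-1) ((e : ℝ) / g)
    (1 / 10 ^ 7) (1 / 10 ^ 6) 2 ((k0 : ℝ) * e0 + eb0) e0 (toS D (1 / (K : ℝ)) S0)
    (toS D (1 / (K' : ℝ)) S') (by rw [← hr]; norm_num) hr'.symm hA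
    (by
      have e1 : (toS D (1 / (K : ℝ)) S0).N - 1 = (1 / (K : ℝ)) •
          toM D (rsub (smul (K : Int) (idM D)) S0.N) := by
        rw [toM_rsub, toM_smul, toM_idM, smul_sub, smul_smul]
        push_cast
        rw [one_div_mul_cancel hKr.ne', one_smul]
        rfl
      rw [e1]
      refine (l1_smul_toM (by positivity) _).trans ?_
      have : (ml1 (rsub (smul (K : Int) (idM D)) S0.N) : ℝ) * 10 ^ 7 ≤ K := by exact_mod_cast cN
      rw [one_div_mul_eq_div, div_le_div_iff₀ (by positivity) (by positivity)]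
      linarith)
    (by
      intro a
      fin_cases a
      · exact hY0 ▸ keyY _ _ c0
      · exact hY1 ▸ keyY _ _ c1
      · exact hY2 ▸ keyY _ _ c2)
    (by
      have e1 := congrArg St.X (step_toS (D := D) (1 / ((g : ℝ) * d ^ 2)) (1 / (d : ℝ))
        ⟨[], smul ((d : Int) ^ 2) G, smul (g : Int) SA.Y0, smul (g : Int) SA.Y1,
          smul (g : Int) SA.Y2⟩ A)
      rw [← hAR] at e1
      simp only [St.step, toS, Fin.sum_univ_three, cons_val_zero, cons_val_one, cons_val, toM_smul,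
        smul_smul] at e1
      have s1 : 1 / ((g : ℝ) * d ^ 2) * (((d : Int) ^ 2 : Int) : ℝ) = 1 / (g : ℝ) := by
        push_cast; field_simp
      have s2 : 1 / ((g : ℝ) * d ^ 2) * ((g : Int) : ℝ) = 1 / (d : ℝ) ^ 2 := by
        push_cast; field_simp
      rw [s1, s2] at e1
      rw [Fin.sum_univ_three, hY0, hY1, hY2, e1]
      simp only [chkG, Nat.ble_eq] at cG
      generalize (stepZ D ⟨[], smul ((d : Int) ^ 2) G, smul (g : Int) SA.Y0, smul (g : Int) SA.Y1,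
          smul (g : Int) SA.Y2⟩ A).X = W at cG ⊢
      have e2 : (1 / ((g : ℝ) * d ^ 2) * (1 / (d : ℝ)) ^ 2) • toM D W - (1 / (g : ℝ)) • toM D G -
          ((e : ℝ) / g) • (1 : MD D) = (1 / ((g : ℝ) * d ^ 4)) •
          toM D (rsub (smul (e * (d : Int) ^ 4) (idM D)) (rsub (smul ((d : Int) ^ 4) G) W)) := by
        rw [toM_rsub, toM_rsub, toM_smul, toM_smul, toM_idM, smul_sub, smul_sub, smul_smul,
          smul_smul]
        congr 2
        · congr 1; field_simp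
        · congr 1; push_cast; field_simp
        · push_cast; field_simp
      rw [e2]
      refine (l1_smul_toM (by positivity) _).trans ?_
      have : (ml1 (rsub (smul (e * (d : Int) ^ 4) (idM D)) (rsub (smul ((d : Int) ^ 4) G) W)) : ℝ) *
          10 ^ 6 ≤ g * d ^ 4 := by exact_mod_cast cG
      rw [one_div_mul_eq_div, div_le_div_iff₀ (by positivity) (by positivity)]
      linarith)
    (by
      have e1 : (toS D (1 / (K : ℝ)) S0).X - (1 / (g : ℝ)) • toM D G = (1 / ((K : ℝ) * g)) •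
          toM D (rsub (smul (K : Int) G) (smul (g : Int) S0.X)) := by
        rw [toM_rsub, toM_smul, toM_smul, smul_sub, smul_smul, smul_smul]
        show (1 / (K : ℝ)) • toM D S0.X - _ = _
        congr 2 <;> push_cast <;> field_simp
      rw [e1]
      refine (l1_smul_toM (by positivity) _).trans ?_
      simp only [chkB, Nat.ble_eq] at cB
      have : (ml1 (rsub (smul (K : Int) G) (smul (g : Int) S0.X)) : ℝ) ≤ 2 * (K * g) := by
        exact_mod_cast cB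
      rw [one_div_mul_eq_div, div_le_iff₀ (by positivity)]
      linarith)
    (by
      show 1 / 10 ^ 7 * l1 ((1 / (K' : ℝ)) • toM D S'.N) < trace ((1 / (K' : ℝ)) • toM D S'.N)
      have : u < 10 ^ 7 * t := by rw [hu, ht]; exact_mod_cast cS.1
      rw [htr]
      nlinarith)
    (by rw [hE0]; apply div_nonpos_of_nonpos_of_nonneg <;> linarith)
    (by rw [he0]; norm_num)
    (by
      have e1 := congrArg St.N (step_toS (D := D) (1 / (K' : ℝ)) (1 / (d : ℝ)) S' (trZ D A))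
      rw [← trT_toT, ← hAR] at e1
      simp only [St.step] at e1
      rw [e1]
      have c2 := cS.2
      generalize (stepZ D S' (trZ D A)) = W at c2 ⊢
      have e2 : (toS D (1 / (K' : ℝ) * (1 / (d : ℝ)) ^ 2) W).N - (toS D (1 / (K' : ℝ)) S').N =
          (1 / ((K' : ℝ) * d ^ 2)) • toM D (rsub (smul ((d : Int) ^ 2) S'.N) W.N) := by
        rw [toM_rsub, toM_smul, smul_sub, smul_smul]
        show (1 / (K' : ℝ) * (1 / (d : ℝ)) ^ 2) • toM D W.N - (1 / (K' : ℝ)) • toM D S'.N = _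
        congr 2 <;> push_cast <;> field_simp
      rw [e2]
      have b1 := l1_smul_toM (D := D) (c := 1 / ((K' : ℝ) * d ^ 2)) (by positivity)
        (rsub (smul ((d : Int) ^ 2) S'.N) W.N)
      generalize ml1 (rsub (smul ((d : Int) ^ 2) S'.N) W.N) = w at c2 b1
      have c3 : (e : ℝ) * t * (d : ℝ) ^ 2 * 10 ^ 13 + 2 * (w : ℝ) * g * 10 ^ 13 +
          13 * u * (d : ℝ) ^ 2 * g * 10 ^ 6 ≤ -1401478 * (10 ^ 7 * t + u) * (d : ℝ) ^ 2 * g := by
        rw [ht, hu]; exact_mod_cast c2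
      have c4 : (e : ℝ) / g * (1 / (K' : ℝ) * t) + 2 * (1 / ((K' : ℝ) * d ^ 2) * w) +
          (1 / 10 ^ 6 + 3 * (1 / 10 ^ 7)) * (1 / (K' : ℝ) * u) ≤
          -1401478 / 10 ^ 6 * (1 / (K' : ℝ) * t + 1 / 10 ^ 7 * (1 / (K' : ℝ) * u)) := by
        have p : (0 : ℝ) < (K' : ℝ) * d ^ 2 * g * 10 ^ 13 := by positivity
        refine le_of_mul_le_mul_right (le_of_eq_of_le ?_ (le_of_le_of_eq c3 ?_)) p
        · field_simp
          ring
        · field_simp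
      show (e : ℝ) / g * trace ((1 / (K' : ℝ)) • toM D S'.N) + 2 * _ +
        _ * l1 ((1 / (K' : ℝ)) • toM D S'.N) ≤ e0 * (trace ((1 / (K' : ℝ)) • toM D S'.N) +
          1 / 10 ^ 7 * l1 ((1 / (K' : ℝ)) • toM D S'.N))
      rw [htr, he0]
      linarith)
    (by
      simp only [toS, Fin.sum_univ_three, bar0, bar1, bar2, cons_val_zero, cons_val_one, cons_val,
        hY0, hY1, hY2, transpose_smul, Matrix.smul_mul, Matrix.mul_smul, trace_smul, trace_toM,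
        trace_toM', smul_eq_mul, ← ht]
      have b0 := l1_smul_toM (D := D) hc'.le S'.X
      have b1 := l1_smul_toM (D := D) hc'.le S'.Y0
      have b2 := l1_smul_toM (D := D) hc'.le S'.Y1
      have b3 := l1_smul_toM (D := D) hc'.le S'.Y2
      have c3 : (mdot D S0.X S'.N : ℝ) * (d : ℝ) ^ 2 * 10 ^ 13 +
          (mdot D S'.X (idM D) : ℝ) * K * (d : ℝ) ^ 2 * 10 ^ 13 +
          ((ml1 S'.X : ℝ) + ml1 S'.Y0 + ml1 S'.Y1 + ml1 S'.Y2) * K * (d : ℝ) ^ 2 * 10 ^ 6 +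
          ((mdot D SA.Y0 S'.Y1 : ℝ) + mdot D SA.Y1 S'.Y0 + mdot D SA.Y2 S'.Y2) * K * 10 ^ 13 ≤
          (-1401478 * (k0 : ℝ) - 2398600) * (10 ^ 7 * t + u) * K * (d : ℝ) ^ 2 := by
        rw [ht, hu]; exact_mod_cast cH
      have c4 : 1 / (K' : ℝ) * (1 / (K : ℝ) * (mdot D S0.X S'.N : ℝ)) +
          1 / (K' : ℝ) * (mdot D S'.X (idM D) : ℝ) + 1 / 10 ^ 7 * (1 / (K' : ℝ) *
            ((ml1 S'.X : ℝ) + ml1 S'.Y0 + ml1 S'.Y1 + ml1 S'.Y2)) +
          1 / (K' : ℝ) * (1 / (d : ℝ) ^ 2 *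
            ((mdot D SA.Y0 S'.Y1 : ℝ) + mdot D SA.Y1 S'.Y0 + mdot D SA.Y2 S'.Y2)) ≤
          (-1401478 * (k0 : ℝ) - 2398600) / 10 ^ 6 *
            (1 / (K' : ℝ) * t + 1 / 10 ^ 7 * (1 / (K' : ℝ) * u)) := by
        have p : (0 : ℝ) < (K' : ℝ) * K * d ^ 2 * 10 ^ 13 := by positivity
        refine le_of_mul_le_mul_right (le_of_eq_of_le ?_ (le_of_le_of_eq c3 ?_)) p
        · field_simp
        · field_simp
      have hneg : (-1401478 * (k0 : ℝ) - 2398600) / 10 ^ 6 ≤ 0 := by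
        apply div_nonpos_of_nonpos_of_nonneg <;> linarith
      have c5 := mul_le_mul_of_nonpos_left hl1 hneg
      rw [hE0]
      linarith)
    (k - k0) (k + 1) (by omega)
  refine ⟨ψ, h0, ?_⟩
  rw [HOn, sub_mulVec, dotProduct_sub, smul_mulVec, one_mulVec, dotProduct_smul, smul_eq_mul]
  have : ((k - k0 : ℕ) : ℝ) = k - k0 := by push_cast [Nat.cast_sub hk0]; ring
  rw [this] at hψ
  have e3 : (k0 : ℝ) * e0 + eb0 + ((k : ℝ) - k0) * e0 = k * e0 + eb0 := by ring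
  rw [e3] at hψ
  linarith

end Crest.Agent.R347.Z
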