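import Crest.Agent.R347.MpsZ

/-!
# R347: integer version of the Gram recursion, spin flip, and the two ways to conclude
-/

set_option autoImplicit false

namespace Crest.Agent.R347.Z

open Matrix MpsB

structure T3 where
  a0 : Mat
  a1 : Mat
  a2 : Mat

structure SZ where
  N : Mat
  X : Mat
  Y0 : Mat
  Y1 : Mat
  Y2 : Mat

noncomputable def add (M N : Mat) : Mat := madd (Int.ofNat 1) M N
/-- `N - M` -/
noncomputable def rsub (M N : Mat) : Mat := madd (Int.negSucc 0) M N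
noncomputable def smul (c : Int) (M : Mat) : Mat := madd c M []

noncomputable def stepZ (D : Nat) (S : SZ) (A : T3) : SZ :=
  let B0 := tr D A.a0
  let B1 := tr D A.a1
  let B2 := tr D A.a2
  let N0 := mul D S.N A.a0
  let N1 := mul D S.N A.a1
  let N2 := mul D S.N A.a2
  let P0 := mul D B0 N0
  let P2 := mul D B2 N2
  ⟨add P0 (add (mul D B1 N1) P2),
    add (mul D B0 (add (mul D (add S.X S.Y2) A.a0) (mul D S.Y1 A.a1)))
      (add (mul D B1 (add (mul D S.X A.a1) (add (mul D S.Y0 A.a0) (mul D S.Y1 A.a2))))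
        (mul D B2 (add (mul D (rsub S.Y2 S.X) A.a2) (mul D S.Y0 A.a1)))),
    add (mul D B0 N1) (mul D B1 N2), add (mul D B1 N0) (mul D B2 N1), rsub P2 P0⟩

noncomputable def flipZ (S : SZ) : SZ := ⟨S.N, S.X, S.Y1, S.Y0, smul (Int.negSucc 0) S.Y2⟩

noncomputable def trZ (D : Nat) (A : T3) : T3 := ⟨tr D A.a0, tr D A.a1, tr D A.a2⟩

noncomputable def eqM (M N : Mat) : Bool := Nat.beq (ml1 (rsub M N)) 0

noncomputable def eqS (S S' : SZ) : Bool :=
  eqM S.N S'.N && eqM S.X S'.X && eqM S.Y0 S'.Y0 && eqM S.Y1 S'.Y1 && eqM S.Y2 S'.Y2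

noncomputable def pN (D : Nat) (S S' : SZ) : Int := mdot D S.N S'.N
noncomputable def pH (D : Nat) (S S' : SZ) : Int :=
  mdot D S.X S'.N + mdot D S.N S'.X + (mdot D S.Y0 S'.Y1 + mdot D S.Y1 S'.Y0 + mdot D S.Y2 S'.Y2)

variable {D : Nat}

noncomputable def toT (D : Nat) (t : ℝ) (A : T3) : Fin 3 → MD D :=
  ![t • toM D A.a0, t • toM D A.a1, t • toM D A.a2]

noncomputable def toS (D : Nat) (c : ℝ) (S : SZ) : St D :=
  ⟨c • toM D S.N, c • toM D S.X, ![c • toM D S.Y0, c • toM D S.Y1, c • toM D S.Y2]⟩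

theorem toM_add (M N : Mat) : toM D (add M N) = toM D M + toM D N := by
  rw [add, toM_madd]; simp

theorem toM_rsub (M N : Mat) : toM D (rsub M N) = toM D N - toM D M := by
  rw [rsub, toM_madd]; simp [Int.negSucc_eq]; abel

theorem toM_smul (c : Int) (M : Mat) : toM D (smul c M) = (c : ℝ) • toM D M := by
  rw [smul, toM_madd, toM_nil, add_zero]

theorem sand_one (A : Fin 3 → MD D) (W : MD D) :
    sand A 1 W = (A 0)ᵀ * W * A 0 + (A 1)ᵀ * W * A 1 + (A 2)ᵀ * W * A 2 := by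
  simp [sand, Fin.sum_univ_three, one_apply]

theorem sand_D0 (A : Fin 3 → MD D) (W : MD D) :
    sand A (Dm 0) W = (A 0)ᵀ * W * A 1 + (A 1)ᵀ * W * A 2 := by
  simp [sand, Fin.sum_univ_three, Dm]

theorem sand_D1 (A : Fin 3 → MD D) (W : MD D) :
    sand A (Dm 1) W = (A 1)ᵀ * W * A 0 + (A 2)ᵀ * W * A 1 := by
  simp [sand, Fin.sum_univ_three, Dm]

theorem sand_D2 (A : Fin 3 → MD D) (W : MD D) :
    sand A (Dm 2) W = (A 0)ᵀ * W * A 0 - (A 2)ᵀ * W * A 2 := by
  simp [sand, Fin.sum_univ_three, Dm, sub_eq_add_neg]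

theorem St.ext' {S S' : St D} (h1 : S.N = S'.N) (h2 : S.X = S'.X) (h3 : S.Y 0 = S'.Y 0)
    (h4 : S.Y 1 = S'.Y 1) (h5 : S.Y 2 = S'.Y 2) : S = S' := by
  cases S; cases S'
  simp only [St.mk.injEq]
  refine ⟨h1, h2, funext fun a => ?_⟩
  fin_cases a
  · exact h3
  · exact h4
  · exact h5

theorem bar0 : bar 0 = 1 := rfl
theorem bar1 : bar 1 = 0 := rfl
theorem bar2 : bar 2 = 2 := rfl

theorem step_toS (c t : ℝ) (S : SZ) (A : T3) :
    (toS D c S).step (toT D t A) = toS D (c * t ^ 2) (stepZ D S A) := by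
  refine St.ext' ?_ ?_ ?_ ?_ ?_ <;>
    simp only [St.step, toS, toT, stepZ, Fin.sum_univ_three, bar0, bar1, bar2, sand_one, sand_D0,
      sand_D1, sand_D2, toM_add, toM_rsub, toM_mul, toM_tr, cons_val_zero, cons_val_one, cons_val,
      transpose_smul, Matrix.smul_mul, Matrix.mul_smul, Matrix.mul_add, Matrix.add_mul,
      Matrix.mul_sub, Matrix.sub_mul, Matrix.mul_assoc] <;> module

theorem eqM_sound {M N : Mat} (h : eqM M N = true) : toM D M = toM D N := by
  have h0 : ml1 (rsub M N) = 0 := Nat.eq_of_beq_eq_true h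
  have h1 := l1_toM D (rsub M N)
  rw [h0, toM_rsub, Nat.cast_zero] at h1
  ext i j
  have := (bl_of_l1 h1).entry i j
  have h2 := abs_nonpos_iff.1 this
  rw [Matrix.sub_apply] at h2
  linarith

theorem eqS_sound (c : ℝ) {S S' : SZ} (h : eqS S S' = true) : toS D c S = toS D c S' := by
  simp only [eqS, Bool.and_eq_true] at h
  obtain ⟨⟨⟨⟨h1, h2⟩, h3⟩, h4⟩, h5⟩ := h
  simp only [toS, eqM_sound h1, eqM_sound h2, eqM_sound h3, eqM_sound h4, eqM_sound h5]

/-- spin flip -/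
def flipT (A : Fin 3 → MD D) : Fin 3 → MD D := ![A 2, A 1, A 0]
def flipS (S : St D) : St D := ⟨S.N, S.X, ![S.Y 1, S.Y 0, -S.Y 2]⟩

theorem flip_step (S : St D) (A : Fin 3 → MD D) :
    (flipS S).step (flipT A) = flipS (S.step A) := by
  refine St.ext' ?_ ?_ ?_ ?_ ?_ <;>
    simp only [St.step, flipS, flipT, Fin.sum_univ_three, bar0, bar1, bar2, sand_one, sand_D0,
      sand_D1, sand_D2, cons_val_zero, cons_val_one, cons_val, Matrix.mul_neg, Matrix.neg_mul] <;>
    abel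

theorem flip_run (S : St D) (l : List (Fin 3 → MD D)) :
    (flipS S).run (l.map flipT) = flipS (S.run l) := by
  induction l generalizing S with
  | nil => rfl
  | cons A l ih =>
    show ((flipS S).step (flipT A)).run (l.map flipT) = flipS ((S.step A).run l)
    rw [flip_step, ih]

theorem flip_init (f : ℝ) : flipS (St.init D f) = St.init D (-f) := by
  refine St.ext' ?_ ?_ ?_ ?_ ?_ <;> simp [flipS, St.init]

theorem flip_toS (c : ℝ) (S : SZ) : flipS (toS D c S) = toS D c (flipZ S) := by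
  refine St.ext' ?_ ?_ ?_ ?_ ?_ <;> simp [flipS, toS, flipZ, toM_smul, Int.negSucc_eq]

theorem trT_toT (t : ℝ) (A : T3) : trT (toT D t A) = toT D t (trZ D A) := by
  funext s
  fin_cases s <;> simp [trT, toT, trZ, toM_tr]

def S00 : SZ := ⟨[(0, [5])], [], [], [], [(0, [3])]⟩

theorem toM_single (x : Int) : toM D [(0, [x])] = (x : ℝ) • E00 D := by
  ext i j
  obtain ⟨i, hi⟩ := i
  obtain ⟨j, hj⟩ := j
  cases i <;> cases j <;> simp [toM, mget, rget, E00]

theorem init_toS : St.init D (3 / 5) = toS D (1 / 5) S00 := by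
  refine St.ext' ?_ ?_ ?_ ?_ ?_ <;>
    simp [St.init, toS, S00, toM_single, toM_nil, smul_smul]
  norm_num

theorem pairN_toS (c c' : ℝ) (S S' : SZ) :
    pairN (toS D c S) (toS D c' S') = c * c' * (pN D S S' : ℝ) := by
  simp only [pairN, toS, pN, transpose_smul, Matrix.smul_mul, Matrix.mul_smul, trace_smul,
    trace_toM, smul_eq_mul]
  ring

theorem pairH_toS (c c' : ℝ) (S S' : SZ) :
    pairH (toS D c S) (toS D c' S') = c * c' * (pH D S S' : ℝ) := by
  simp only [pairH, toS, pH, Fin.sum_univ_three, bar0, bar1, bar2, cons_val_zero, cons_val_one,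
    cons_val, transpose_smul, Matrix.smul_mul, Matrix.mul_smul, trace_smul, trace_toM, smul_eq_mul]
  push_cast
  ring

/-- `S` is reachable from the left end (field `+3/5`) in `n` steps -/
def Rch (D n : Nat) (f : ℝ) (S : SZ) : Prop :=
  ∃ (l : List (Fin 3 → MD D)) (c : ℝ), l.length = n ∧ 0 < c ∧ (St.init D f).run l = toS D c S

/-- the same with a known scale `1 / K` -/
def RchK (D n : Nat) (f : ℝ) (K : Nat) (S : SZ) : Prop :=
  0 < K ∧ ∃ l : List (Fin 3 → MD D), l.length = n ∧ (St.init D f).run l = toS D (1 / (K : ℝ)) S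

theorem rch0 : RchK D 0 (3 / 5) 5 S00 := ⟨by norm_num, [], rfl, init_toS⟩

theorem RchK.step {n K : Nat} {f : ℝ} {S : SZ} (h : RchK D n f K S) (d : Nat) (hd : 0 < d) (A : T3) :
    RchK D (n + 1) f (K * d ^ 2) (stepZ D S A) := by
  obtain ⟨hK, l, hl, hr⟩ := h
  refine ⟨by positivity, l ++ [toT D (1 / (d : ℝ)) A], by simp [hl], ?_⟩
  rw [run_append, hr]
  show (toS D _ S).step _ = _
  rw [step_toS]
  congr 1
  push_cast
  field_simp

theorem RchK.eq {n K : Nat} {f : ℝ} {S S' : SZ} (h : RchK D n f K S) (he : eqS S S' = true) :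
    RchK D n f K S' := by
  obtain ⟨hK, l, hl, hr⟩ := h
  exact ⟨hK, l, hl, by rw [hr, eqS_sound _ he]⟩

theorem RchK.flip {n K : Nat} {f : ℝ} {S : SZ} (h : RchK D n f K S) :
    RchK D n (-f) K (flipZ S) := by
  obtain ⟨hK, l, hl, hr⟩ := h
  exact ⟨hK, l.map flipT, by simp [hl], by rw [← flip_init, flip_run, hr, flip_toS]⟩

/-- the check for a single length -/
noncomputable def chkFin (D k : Nat) (S S' : SZ) : Bool :=
  decide (0 < pN D S S') &&
    decide (1000000 * pH D S S' ≤ (-1401478 * (k : Int) - 2398600) * pN D S S')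

theorem fin_case {a b K K' k : Nat} {S S' : SZ} (h : RchK D a (3 / 5) K S)
    (h' : RchK D b (-(3 / 5)) K' S') (hk : a + b = k + 2) (hc : chkFin D k S S' = true) :
    ∃ ψ : Cfg (k + 2) → ℝ, ψ ≠ 0 ∧ ψ ⬝ᵥ (HOn k (-1) *ᵥ ψ) ≤ 0 := by
  obtain ⟨hK, l, hl, hr⟩ := h
  obtain ⟨hK', l', hl', hr'⟩ := h'
  simp only [chkFin, Bool.and_eq_true, decide_eq_true_eq] at hc
  obtain ⟨h1, h2⟩ := hc
  obtain ⟨ψ, e1, e2⟩ := mps_var (l ++ l'.reverse.map trT) (k + 1) (by simp [hl, hl', hk]) (-1)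
  have hf : (-(3 / 5) * (-1) : ℝ) = 3 / 5 := by norm_num
  rw [hf, run_append, (pair_run _ _ _).1, hr, hr', pairN_toS] at e1
  rw [hf, run_append, (pair_run _ _ _).2, hr, hr', pairH_toS] at e2
  have hc : (0 : ℝ) < 1 / (K : ℝ) * (1 / (K' : ℝ)) := by positivity
  have h1' : (0 : ℝ) < (pN D S S' : ℝ) := by exact_mod_cast h1
  have h2' : (1000000 : ℝ) * (pH D S S' : ℝ) ≤ (-1401478 * (k : ℝ) - 2398600) * (pN D S S' : ℝ) := by
    exact_mod_cast h2
  refine ⟨ψ, fun h0 => ?_, ?_⟩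
  · rw [h0, zero_dotProduct] at e1
    exact (mul_pos hc h1').ne e1
  · rw [HOn, sub_mulVec, dotProduct_sub, e2, smul_mulVec, one_mulVec, dotProduct_smul, e1,
      smul_eq_mul]
    have : (pH D S S' : ℝ) ≤ ((k : ℝ) * e0 + eb0) * (pN D S S' : ℝ) := by
      simp only [e0, eb0, e0q, eb0q]
      push_cast
      linarith
    nlinarith

end Crest.Agent.R347.Z
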