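import Crest.Agent.R347.Defs

/-!
# R347: matrix product states, Gram recursion and the variational bound (theory)

`S·S = ∑ a, Dm a ⊗ Dm (bar a)` with `Dm 0 = P = S⁺/√2`, `Dm 1 = Pᵀ`, `Dm 2 = S^z`.
For a list of site tensors `A₁,…,A_n` put `Φ α σ = (A₁ (σ 0) * ⋯ * A_n (σ (n-1))) 0 α`.  The state
`(N, X, Y)` after the list consists of the Gram matrices `N α β = ⟨Φ α, Φ β⟩`,
`X α β = ⟨Φ α, H^L Φ β⟩` (`H^L` = bonds + left field), `Y a α β = ⟨Φ α, Dm a (last site) Φ β⟩`.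
-/

set_option autoImplicit false

namespace Crest.Agent.R347

open Matrix

abbrev MD (D : ℕ) := Matrix (Fin D) (Fin D) ℝ

def Dm : Fin 3 → M3 :=
  ![!![0, 1, 0; 0, 0, 1; 0, 0, 0], !![0, 0, 0; 1, 0, 0; 0, 1, 0], !![1, 0, 0; 0, 0, 0; 0, 0, -1]]

def bar : Fin 3 → Fin 3 := ![1, 0, 2]

structure St (D : ℕ) where
  N : MD D
  X : MD D
  Y : Fin 3 → MD D

variable {D : ℕ}

/-- `∑ s t, O s t • (A s)ᵀ W (A t)` -/
noncomputable def sand (A : Fin 3 → MD D) (O : M3) (W : MD D) : MD D :=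
  ∑ s, ∑ t, O s t • ((A s)ᵀ * W * A t)

noncomputable def St.step (S : St D) (A : Fin 3 → MD D) : St D :=
  ⟨sand A 1 S.N, sand A 1 S.X + ∑ a, sand A (Dm (bar a)) (S.Y a), fun a => sand A (Dm a) S.N⟩

/-- the matrix unit `E₀₀` -/
def E00 (D : ℕ) : MD D := Matrix.of fun i j => if i.val = 0 ∧ j.val = 0 then 1 else 0

/-- virtual initial state producing the field term `f • S^z` on the first site -/
noncomputable def St.init (D : ℕ) (f : ℝ) : St D :=
  ⟨E00 D, 0, fun a => if a = 2 then f • E00 D else 0⟩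

noncomputable def St.run (S : St D) (l : List (Fin 3 → MD D)) : St D := l.foldl St.step S

noncomputable def pairN (S S' : St D) : ℝ := trace (S.N * S'.Nᵀ)

noncomputable def pairH (S S' : St D) : ℝ :=
  trace (S.X * S'.Nᵀ) + trace (S.N * S'.Xᵀ) + ∑ a, trace (S.Y a * (S'.Y (bar a))ᵀ)

/-- sitewise transpose -/
def trT (A : Fin 3 → MD D) : Fin 3 → MD D := fun s => (A s)ᵀ

/-- entrywise `ℓ¹` norm -/
noncomputable def l1 (W : MD D) : ℝ := ∑ i, ∑ j, |W i j|

end Crest.Agent.R347
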