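import Crest.Agent.R347.MpsBound

/-!
# R347: integer matrices (rows with an offset) for kernel computations, and their real meaning
-/

set_option autoImplicit false

namespace Crest.Agent.R347.Z

open Matrix

abbrev Row := Nat × List Int
abbrev Mat := List Row

noncomputable def vsm (c : Int) (l : List Int) : List Int :=
  List.rec [] (fun x _ ih => Int.mul c x :: ih) l

noncomputable def vax (c : Int) (l : List Int) : List Int → List Int :=
  List.rec (fun acc => acc) (fun x _ ih acc =>
    List.casesOn (motive := fun _ => List Int) acc (Int.mul c x :: ih [])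
      (fun y acc' => Int.add (Int.mul c x) y :: ih acc')) l

noncomputable def pad (n : Nat) (l : List Int) : List Int := Nat.rec l (fun _ ih => Int.ofNat 0 :: ih) n

noncomputable def rax (c : Int) (r acc : Row) : Row :=
  List.casesOn (motive := fun _ => Row) acc.2 (r.1, vsm c r.2) (fun _ _ =>
    List.casesOn (motive := fun _ => Row) r.2 acc (fun _ _ =>
      cond (Nat.ble r.1 acc.1) (r.1, vax c r.2 (pad (Nat.sub acc.1 r.1) acc.2))
        (acc.1, vax c (pad (Nat.sub r.1 acc.1) r.2) acc.2)))

/-- `c • r + acc`, skipping `c = 0` -/
noncomputable def rax0 (c : Int) (r acc : Row) : Row :=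
  Int.casesOn (motive := fun _ => Row) c
    (fun n => Nat.casesOn (motive := fun _ => Row) n acc (fun m => rax (Int.ofNat (Nat.succ m)) r acc))
    (fun n => Nat.casesOn (motive := fun _ => Row) n (rax (Int.negSucc 0) r acc)
      (fun m => rax (Int.negSucc (Nat.succ m)) r acc))

noncomputable def rcomb (l : List Int) : Mat → Row :=
  List.rec (fun _ => (0, [])) (fun c _ ih M =>
    List.casesOn (motive := fun _ => Row) M (0, []) (fun r M' => rax0 c r (ih M'))) l

noncomputable def mmap {α β : Type} (f : α → β) (l : List α) : List β :=
  List.rec [] (fun x _ ih => f x :: ih) l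

noncomputable def tk {α : Type} (n : Nat) : List α → List α :=
  Nat.rec (fun _ => []) (fun _ ih l =>
    List.casesOn (motive := fun _ => List α) l [] (fun x l' => x :: ih l')) n

noncomputable def dr {α : Type} (n : Nat) : List α → List α :=
  Nat.rec (fun l => l) (fun _ ih l =>
    List.casesOn (motive := fun _ => List α) l [] (fun _ l' => ih l')) n

noncomputable def mul (D : Nat) (M N : Mat) : Mat := mmap (fun r => rcomb r.2 (dr r.1 (tk D N))) M

/-- `c • M + N` -/
noncomputable def madd (c : Int) (M : Mat) : Mat → Mat :=
  List.rec (fun N => N) (fun r _ ih N =>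
    List.casesOn (motive := fun _ => Mat) N (rax c r (0, []) :: ih [])
      (fun r' N' => rax c r r' :: ih N')) M

noncomputable def isz (x : Int) : Bool :=
  Int.casesOn (motive := fun _ => Bool) x (fun n => Nat.beq n 0) (fun _ => false)

noncomputable def rtrim (l : List Int) : List Int :=
  List.rec [] (fun x _ ih =>
    List.casesOn (motive := fun _ => List Int) ih (cond (isz x) [] [x]) (fun _ _ => x :: ih)) l

noncomputable def ltrim (l : List Int) : Row :=
  List.rec (0, []) (fun x l' ih => cond (isz x) (Nat.succ ih.1, ih.2) (0, x :: l')) l

noncomputable def hd (l : List Int) : Int :=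
  List.casesOn (motive := fun _ => Int) l (Int.ofNat 0) (fun x _ => x)
noncomputable def tl (l : List Int) : List Int :=
  List.casesOn (motive := fun _ => List Int) l [] (fun _ l' => l')

noncomputable def cols (n : Nat) : List (List Int) → Mat :=
  Nat.rec (fun _ => []) (fun _ ih L => ltrim (rtrim (mmap hd L)) :: ih (mmap tl L)) n

noncomputable def tr (D : Nat) (M : Mat) : Mat := cols D (mmap (fun r => pad r.1 r.2) M)

noncomputable def vl1 (l : List Int) : Nat := List.rec 0 (fun x _ ih => Nat.add (Int.natAbs x) ih) l
noncomputable def ml1 (M : Mat) : Nat := List.rec 0 (fun r _ ih => Nat.add (vl1 r.2) ih) M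

noncomputable def vdot (l : List Int) : List Int → Int :=
  List.rec (fun _ => Int.ofNat 0) (fun x _ ih m =>
    List.casesOn (motive := fun _ => Int) m (Int.ofNat 0)
      (fun y m' => Int.add (Int.mul x y) (ih m'))) l

noncomputable def mdot0 (D : Nat) (M : Mat) : Mat → Int :=
  List.rec (fun _ => Int.ofNat 0) (fun r _ ih N =>
    List.casesOn (motive := fun _ => Int) N (Int.ofNat 0)
      (fun r' N' => Int.add (vdot (tk D (pad r.1 r.2)) (pad r'.1 r'.2)) (ih N'))) M

noncomputable def mdot (D : Nat) (M N : Mat) : Int := mdot0 D (tk D M) N

noncomputable def idM0 (n : Nat) : Nat → Mat :=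
  Nat.rec (fun _ => []) (fun _ ih i => (i, [Int.ofNat 1]) :: ih (Nat.succ i)) n
noncomputable def idM (D : Nat) : Mat := idM0 D 0

/-! ### meaning -/

def rget (r : Row) (j : Nat) : Int := if j < r.1 then 0 else r.2.getD (j - r.1) 0
def mget (M : Mat) (i j : Nat) : Int := rget (M.getD i (0, [])) j
noncomputable def toM (D : Nat) (M : Mat) : MD D := Matrix.of fun i j => (mget M i j : ℝ)

theorem rget_nil (n j : Nat) : rget (n, []) j = 0 := by simp [rget]

theorem vsm_get (c : Int) (l : List Int) (j : Nat) : (vsm c l).getD j 0 = c * l.getD j 0 := by
  induction l generalizing j with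
  | nil => simp [vsm]
  | cons x l ih =>
    show (Int.mul c x :: vsm c l).getD j 0 = _
    cases j with
    | zero => simp
    | succ j => simpa using ih j

theorem vax_get (c : Int) (l acc : List Int) (j : Nat) :
    (vax c l acc).getD j 0 = c * l.getD j 0 + acc.getD j 0 := by
  induction l generalizing acc j with
  | nil => simp [vax]
  | cons x l ih =>
    cases acc with
    | nil =>
      show (Int.mul c x :: vax c l []).getD j 0 = _
      cases j with
      | zero => simp
      | succ j => simpa using ih [] j
    | cons y acc =>
      show (Int.add (Int.mul c x) y :: vax c l acc).getD j 0 = _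
      cases j with
      | zero => simp
      | succ j => simpa using ih acc j

theorem pad_get (n : Nat) (l : List Int) (j : Nat) : (pad n l).getD j 0 = rget (n, l) j := by
  induction n generalizing j with
  | zero => simp [pad, rget]
  | succ n ih =>
    show (Int.ofNat 0 :: pad n l).getD j 0 = _
    cases j with
    | zero => simp [rget]
    | succ j =>
      have := ih j
      simp only [rget] at this ⊢
      simpa using this

theorem rax_get (c : Int) (r acc : Row) (j : Nat) :
    rget (rax c r acc) j = c * rget r j + rget acc j := by
  obtain ⟨a, l⟩ := r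
  obtain ⟨b, m⟩ := acc
  cases m with
  | nil =>
    show rget (a, vsm c l) j = _
    rw [rget_nil]
    simp only [rget, vsm_get]
    split_ifs <;> simp
  | cons y m =>
    cases l with
    | nil =>
      show rget (b, y :: m) j = _
      rw [rget_nil]; simp
    | cons x l =>
      show rget (cond (Nat.ble a b) (a, vax c (x :: l) (pad (b - a) (y :: m)))
        (b, vax c (pad (a - b) (x :: l)) (y :: m))) j = _
      cases h : Nat.ble a b with
      | true =>
        have h' : a ≤ b := Nat.le_of_ble_eq_true h
        simp only [cond_true, rget, vax_get, pad_get]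
        by_cases h1 : j < a
        · have h2 : j < b := by omega
          simp [h1, h2]
        · by_cases h2 : j < b
          · have h3 : j - a < b - a := by omega
            simp only [h1, h2, h3, if_true, if_false]
          · have h3 : ¬ j - a < b - a := by omega
            have h4 : j - a - (b - a) = j - b := by omega
            simp only [h1, h2, h3, if_false, h4]
      | false =>
        have h' : ¬ a ≤ b := fun hh => by rw [Nat.ble_eq_true_of_le hh] at h; cases h
        simp only [cond_false, rget, vax_get, pad_get]
        by_cases h2 : j < b
        · have h1 : j < a := by omega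
          simp [h1, h2]
        · by_cases h1 : j < a
          · have h3 : j - b < a - b := by omega
            simp only [h1, h2, h3, if_true, if_false]
          · have h3 : ¬ j - b < a - b := by omega
            have h4 : j - b - (a - b) = j - a := by omega
            simp only [h1, h2, h3, if_false, h4]

theorem rax0_get (c : Int) (r acc : Row) (j : Nat) :
    rget (rax0 c r acc) j = c * rget r j + rget acc j := by
  cases c with
  | ofNat n =>
    cases n with
    | zero => show rget acc j = _; simp
    | succ m => exact rax_get _ _ _ _
  | negSucc n =>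
    cases n with
    | zero => exact rax_get _ _ _ _
    | succ m => exact rax_get _ _ _ _

theorem rcomb_get (l : List Int) (M : Mat) (n : Nat) (hn : M.length ≤ n) (j : Nat) :
    rget (rcomb l M) j = ∑ k ∈ Finset.range n, l.getD k 0 * mget M k j := by
  induction l generalizing M n with
  | nil => show rget (0, []) j = _; simp [rget_nil]
  | cons c l ih =>
    cases M with
    | nil => show rget (0, []) j = _; simp [rget_nil, mget]
    | cons r M =>
      show rget (rax0 c r (rcomb l M)) j = _
      obtain ⟨n, rfl⟩ : ∃ m, n = m + 1 := ⟨n - 1, by simp at hn; omega⟩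
      rw [rax0_get, Finset.sum_range_succ', ih M n (by simpa using hn), add_comm]
      simp [mget]

theorem mmap_eq {α β : Type} (f : α → β) (l : List α) : mmap f l = l.map f := by
  induction l with
  | nil => rfl
  | cons x l ih => show f x :: mmap f l = _; rw [ih]; rfl

theorem tk_eq {α : Type} (n : Nat) (l : List α) : tk n l = l.take n := by
  induction n generalizing l with
  | zero => rfl
  | succ n ih =>
    cases l with
    | nil => rfl
    | cons x l => show x :: tk n l = _; rw [ih]; rfl

theorem dr_eq {α : Type} (n : Nat) (l : List α) : dr n l = l.drop n := by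
  induction n generalizing l with
  | zero => rfl
  | succ n ih =>
    cases l with
    | nil => rfl
    | cons x l => show dr n l = _; rw [ih]; rfl

theorem mget_take {D k : Nat} (hk : k < D) (N : Mat) (j : Nat) : mget (N.take D) k j = mget N k j := by
  simp [mget, List.getD_eq_getElem?_getD, hk]

theorem mget_take_ge {D k : Nat} (hk : D ≤ k) (N : Mat) (j : Nat) : mget (N.take D) k j = 0 := by
  have : ¬ k < D := by omega
  simp [mget, List.getD_eq_getElem?_getD, this, rget_nil]

theorem mget_drop (a k : Nat) (N : Mat) (j : Nat) : mget (N.drop a) k j = mget N (a + k) j := by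
  simp [mget, List.getD_eq_getElem?_getD, List.getElem?_drop]

theorem row_mul (D : Nat) (r : Row) (N : Mat) (j : Nat) :
    rget (rcomb r.2 (dr r.1 (tk D N))) j = ∑ k ∈ Finset.range D, rget r k * mget N k j := by
  obtain ⟨a, l⟩ := r
  rw [dr_eq, tk_eq, rcomb_get l _ D (by simp)]
  simp only [mget_drop]
  have h1 : ∑ k ∈ Finset.range (a + D), rget (a, l) k * mget (N.take D) k j =
      ∑ k ∈ Finset.range D, l.getD k 0 * mget (N.take D) (a + k) j := by
    rw [Finset.sum_range_add, Finset.sum_eq_zero, zero_add]
    · refine Finset.sum_congr rfl fun k _ => ?_
      simp [rget]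
    · intro k hk
      simp [rget, Finset.mem_range.1 hk]
  rw [← h1, add_comm a D, Finset.sum_range_add, Finset.sum_eq_zero (s := Finset.range a), add_zero]
  · exact Finset.sum_congr rfl fun k hk => by rw [mget_take (Finset.mem_range.1 hk)]
  · intro k _
    rw [mget_take_ge (by omega), mul_zero]

theorem toM_mul (D : Nat) (M N : Mat) : toM D (mul D M N) = toM D M * toM D N := by
  ext i j
  simp only [toM, of_apply, mul_apply, mul, mmap_eq]
  have : mget (M.map fun r => rcomb r.2 (dr r.1 (tk D N))) i j =
      ∑ k ∈ Finset.range D, mget M i k * mget N k j := by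
    simp only [mget, List.getD_eq_getElem?_getD, List.getElem?_map]
    cases M[(i : Nat)]? with
    | none => simp [rget_nil]
    | some r => simpa [mget, List.getD_eq_getElem?_getD] using row_mul D r N j
  rw [this, Finset.sum_range]
  push_cast
  rfl

theorem madd_get (c : Int) (M N : Mat) (i j : Nat) :
    mget (madd c M N) i j = c * mget M i j + mget N i j := by
  induction M generalizing N i with
  | nil => show mget N i j = _; simp [mget, rget_nil]
  | cons r M ih =>
    cases N with
    | nil =>
      show mget (rax c r (0, []) :: madd c M []) i j = _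
      cases i with
      | zero => simpa [mget] using rax_get c r (0, []) j
      | succ i => simpa [mget] using ih [] i
    | cons r' N =>
      show mget (rax c r r' :: madd c M N) i j = _
      cases i with
      | zero => simpa [mget] using rax_get c r r' j
      | succ i => simpa [mget] using ih N i

theorem toM_madd (D : Nat) (c : Int) (M N : Mat) :
    toM D (madd c M N) = (c : ℝ) • toM D M + toM D N := by
  ext i j
  simp [toM, madd_get]

theorem isz_true {x : Int} (h : isz x = true) : x = 0 := by
  cases x with
  | ofNat n =>
    have : n = 0 := Nat.eq_of_beq_eq_true h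
    rw [this]; rfl
  | negSucc n => cases h

theorem rtrim_get (l : List Int) (j : Nat) : (rtrim l).getD j 0 = l.getD j 0 := by
  induction l generalizing j with
  | nil => rfl
  | cons x l ih =>
    show (List.casesOn (motive := fun _ => List Int) (rtrim l) (cond (isz x) [] [x])
      (fun _ _ => x :: rtrim l)).getD j 0 = _
    cases h : rtrim l with
    | nil =>
      rw [h] at ih
      cases hx : isz x with
      | true =>
        rw [isz_true hx]
        cases j with
        | zero => simp
        | succ j => simpa using ih j
      | false =>
        cases j with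
        | zero => simp
        | succ j => simpa using ih j
    | cons y m =>
      rw [h] at ih
      cases j with
      | zero => simp
      | succ j => simpa using ih j

theorem ltrim_get (l : List Int) (j : Nat) : rget (ltrim l) j = l.getD j 0 := by
  induction l generalizing j with
  | nil => exact rget_nil _ _
  | cons x l ih =>
    show rget (cond (isz x) (Nat.succ (ltrim l).1, (ltrim l).2) (0, x :: l)) j = _
    cases hx : isz x with
    | true =>
      rw [isz_true hx]
      cases j with
      | zero => simp [rget]
      | succ j =>
        have := ih j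
        simp only [rget] at this
        simpa [rget] using this
    | false => simp [rget]

theorem hd_eq (l : List Int) : hd l = l.getD 0 0 := by cases l <;> rfl
theorem tl_get (l : List Int) (i : Nat) : (tl l).getD i 0 = l.getD (i + 1) 0 := by
  cases l with
  | nil => rfl
  | cons x l => rfl

theorem cols_get (n : Nat) (L : List (List Int)) (i j : Nat) (hi : i < n) :
    mget (cols n L) i j = (L.getD j []).getD i 0 := by
  induction n generalizing L i with
  | zero => omega
  | succ n ih =>
    show mget (ltrim (rtrim (mmap hd L)) :: cols n (mmap tl L)) i j = _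
    cases i with
    | zero =>
      show rget (ltrim (rtrim (mmap hd L))) j = _
      rw [ltrim_get, rtrim_get, mmap_eq]
      simp only [List.getD_eq_getElem?_getD, List.getElem?_map]
      cases L[j]? with
      | none => simp
      | some r => simp [hd_eq]
    | succ i =>
      show mget (cols n (mmap tl L)) i j = _
      rw [ih _ i (by omega), mmap_eq]
      simp only [List.getD_eq_getElem?_getD (l := List.map tl L), List.getElem?_map,
        List.getD_eq_getElem?_getD (l := L)]
      cases L[j]? with
      | none => simp
      | some r => simpa using tl_get r i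

theorem toM_tr (D : Nat) (M : Mat) : toM D (tr D M) = (toM D M)ᵀ := by
  ext i j
  simp only [toM, of_apply, transpose_apply, tr]
  rw [cols_get _ _ _ _ i.2, mmap_eq]
  congr 1
  simp only [mget, List.getD_eq_getElem?_getD (l := List.map _ M), List.getElem?_map,
    List.getD_eq_getElem?_getD (l := M)]
  cases M[(j : Nat)]? with
  | none => simp [rget_nil]
  | some r => simpa using pad_get r.1 r.2 i

theorem vl1_ge (l : List Int) (n : Nat) : ∑ k ∈ Finset.range n, |l.getD k 0| ≤ (vl1 l : Int) := by
  induction l generalizing n with
  | nil => simp
  | cons x l ih =>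
    show _ ≤ ((x.natAbs + vl1 l : Nat) : Int)
    cases n with
    | zero => simp; positivity
    | succ n =>
      rw [Finset.sum_range_succ']
      have := ih n
      push_cast
      simp only [List.getD_cons_succ, List.getD_cons_zero]
      linarith

theorem vl1_pad (n : Nat) (l : List Int) : vl1 (pad n l) = vl1 l := by
  induction n with
  | zero => rfl
  | succ n ih => show Nat.add (Int.natAbs (Int.ofNat 0)) (vl1 (pad n l)) = _; rw [ih]; simp

theorem ml1_ge (M : Mat) (n m : Nat) :
    ∑ i ∈ Finset.range n, ∑ j ∈ Finset.range m, |mget M i j| ≤ (ml1 M : Int) := by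
  induction M generalizing n with
  | nil => simp [mget, rget_nil]
  | cons r M ih =>
    show _ ≤ ((vl1 r.2 + ml1 M : Nat) : Int)
    cases n with
    | zero => simp; positivity
    | succ n =>
      rw [Finset.sum_range_succ']
      have h1 := ih n
      have h2 := vl1_ge (pad r.1 r.2) m
      rw [vl1_pad] at h2
      simp only [pad_get] at h2
      push_cast
      simp only [mget, List.getD_cons_succ, List.getD_cons_zero] at h1 ⊢
      linarith

theorem l1_toM (D : Nat) (M : Mat) : l1 (toM D M) ≤ (ml1 M : ℝ) := by
  have := ml1_ge M D D
  rw [Finset.sum_range] at this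
  simp only [Finset.sum_range] at this
  simp only [l1, toM, of_apply]
  exact_mod_cast this

theorem vdot_eq (l m : List Int) (n : Nat) (hn : l.length ≤ n) :
    vdot l m = ∑ k ∈ Finset.range n, l.getD k 0 * m.getD k 0 := by
  induction l generalizing m n with
  | nil => show Int.ofNat 0 = _; simp
  | cons x l ih =>
    cases m with
    | nil => show Int.ofNat 0 = _; simp
    | cons y m =>
      show x * y + vdot l m = _
      obtain ⟨n, rfl⟩ : ∃ k, n = k + 1 := ⟨n - 1, by simp at hn; omega⟩
      rw [Finset.sum_range_succ', ih m n (by simpa using hn), add_comm]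
      simp

theorem mdot0_eq (D : Nat) (M N : Mat) (n : Nat) (hn : M.length ≤ n) :
    mdot0 D M N = ∑ i ∈ Finset.range n, ∑ j ∈ Finset.range D, mget M i j * mget N i j := by
  induction M generalizing N n with
  | nil => show Int.ofNat 0 = _; simp [mget, rget_nil]
  | cons r M ih =>
    cases N with
    | nil => show Int.ofNat 0 = _; simp [mget, rget_nil]
    | cons r' N =>
      show vdot (tk D (pad r.1 r.2)) (pad r'.1 r'.2) + mdot0 D M N = _
      obtain ⟨n, rfl⟩ : ∃ k, n = k + 1 := ⟨n - 1, by simp at hn; omega⟩
      rw [Finset.sum_range_succ', ih N n (by simpa using hn), add_comm, tk_eq,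
        vdot_eq _ _ D (by simp)]
      congr 1
      refine Finset.sum_congr rfl fun j hj => ?_
      have hj' := Finset.mem_range.1 hj
      rw [pad_get]
      have : ((pad r.1 r.2).take D).getD j 0 = (pad r.1 r.2).getD j 0 := by
        simp [List.getD_eq_getElem?_getD, hj']
      rw [this, pad_get]
      rfl

theorem trace_toM (D : Nat) (M N : Mat) : trace (toM D M * (toM D N)ᵀ) = (mdot D M N : ℝ) := by
  rw [mdot, tk_eq, mdot0_eq D _ N D (by simp), Finset.sum_range]
  simp only [Finset.sum_range, trace, diag, mul_apply, transpose_apply, toM, of_apply]
  push_cast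
  refine Finset.sum_congr rfl fun i _ => Finset.sum_congr rfl fun j _ => ?_
  rw [mget_take i.2]

theorem idM0_get (n s i j : Nat) (hi : i < n) : mget (idM0 n s) i j = if s + i = j then 1 else 0 := by
  induction n generalizing s i with
  | zero => omega
  | succ n ih =>
    show mget ((s, [Int.ofNat 1]) :: idM0 n (s + 1)) i j = _
    cases i with
    | zero =>
      show rget (s, [Int.ofNat 1]) j = _
      simp only [rget]
      by_cases h1 : j < s
      · have : ¬ s + 0 = j := by omega
        simp only [h1, this, if_true, if_false]
      · by_cases h2 : s + 0 = j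
        · have : j - s = 0 := by omega
          simp only [h1, h2, this, if_true, if_false]; rfl
        · obtain ⟨t, ht⟩ : ∃ t, j - s = t + 1 := ⟨j - s - 1, by omega⟩
          simp only [h1, h2, ht, if_false]; rfl
    | succ i =>
      show mget (idM0 n (s + 1)) i j = _
      rw [ih _ i (by omega)]
      have : s + 1 + i = s + (i + 1) := by omega
      rw [this]

theorem toM_idM (D : Nat) : toM D (idM D) = 1 := by
  ext i j
  simp only [toM, of_apply, idM, idM0_get D 0 i j i.2, one_apply, zero_add, Fin.ext_iff]
  split_ifs <;> simp

theorem toM_nil (D : Nat) : toM D [] = 0 := by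
  ext i j
  simp [toM, mget, rget_nil]

end Crest.Agent.R347.Z
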