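import Mathlib

/-!
# R347: Gauss / Radau quadrature bounds from exact moments: the checker
-/

set_option autoImplicit false

namespace Crest.Agent.R347

def hd (l : List ℤ) : ℤ := List.rec (motive := fun _ => ℤ) 0 (fun a _ _ => a) l
def tl (l : List ℤ) : List ℤ := List.rec (motive := fun _ => List ℤ) [] (fun _ t _ => t) l

/-- `l j ↦ c * l j - d * l (j+1)` (one entry shorter) -/
def nxt (c d : ℤ) (l : List ℤ) : List ℤ :=
  List.rec (motive := fun _ => List ℤ) []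
    (fun a t ih => List.rec (motive := fun _ => List ℤ) []
      (fun b _ _ => Int.sub (Int.mul c a) (Int.mul d b) :: ih) t) l

/-- Newton moments `ν_j = ∑ ω ∏_{i<j} (c0 - a_i - d X)`, `j ≤ as.length` -/
def newt (c0 d : ℤ) (as : List ℕ) : List ℤ → List ℤ :=
  List.rec (motive := fun _ => List ℤ → List ℤ) (fun l => [hd l])
    (fun a _ ih l => hd l :: ih (nxt (Int.sub c0 (Int.ofNat a)) d l)) as

/-- `v j ↦ a j * v j + v (j+1)`, truncated to the length of `as` -/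
def pstep (as : List ℕ) : List ℤ → List ℤ :=
  List.rec (motive := fun _ => List ℤ → List ℤ) (fun _ => [])
    (fun a _ ih v => Int.add (Int.mul (Int.ofNat a) (hd v)) (hd (tl v)) :: ih (tl v)) as

/-- the first `as.length` entries -/
def trunc (as : List ℕ) : List ℤ → List ℤ :=
  List.rec (motive := fun _ => List ℤ → List ℤ) (fun _ => []) (fun _ _ ih v => hd v :: ih (tl v)) as

/-- pseudo-moments `0, …, n-1` -/
def pm (as : List ℕ) (n : ℕ) : List ℤ → List ℤ :=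
  Nat.rec (motive := fun _ => List ℤ → List ℤ) (fun _ => [])
    (fun _ ih v => hd v :: ih (pstep as v)) n

/-- `∑ m, p^m * l m * ∏_{m < m' < length} d m'` (call with `m = 0`, `pw = 1`, `acc = 0`) -/
def tay (p d : ℕ) (l : List ℤ) : ℕ → ℕ → ℤ → ℤ :=
  List.rec (motive := fun _ => ℕ → ℕ → ℤ → ℤ) (fun _ _ acc => acc)
    (fun x _ ih m pw acc => ih (Nat.succ m) (Nat.mul pw p)
      (Int.add (Int.mul acc (Int.ofNat (Nat.mul d m))) (Int.mul (Int.ofNat pw) x))) l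

/-- every node twice -/
def dbl (as : List ℕ) : List ℕ := List.rec (motive := fun _ => List ℕ) [] (fun a _ ih => a :: a :: ih) as

/-- `∏ (y - a)²` -/
def sqP (y : ℕ) (as : List ℕ) : ℕ :=
  List.rec (motive := fun _ => ℕ) 1 (fun a _ ih => Nat.mul (Nat.mul (Nat.sub y a) (Nat.sub y a)) ih) as

/-- a target: rate `p/q`, bounds `El ≤ exp γ ≤ Eu`, claimed interval `[lo, hi]` -/
structure Tg where
  p : ℕ
  q : ℕ
  El : ℚ
  Eu : ℚ
  lo : ℚ
  hi : ℚ

/-- the top of the spectrum of `Y = 2^s (R - X)` is below `y` -/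
def certChk (den : ℕ) (as : List ℕ) (y : ℕ) (nu : List ℤ) : Bool :=
  as.all (fun a => Nat.ble a y) && decide (nu.getLastD 0 < (den : ℤ) * (sqP y as : ℕ))

def loChk (s T den : ℕ) (l : List ℤ) (t : Tg) : Bool :=
  decide (t.lo ≤ 0) || decide (t.lo * t.Eu * ((den * (t.q * 2 ^ s) ^ T * T.factorial : ℕ) : ℚ) ≤
    ((tay t.p (t.q * 2 ^ s) l 0 1 0 : ℤ) : ℚ))

/-- Taylor polynomial plus the tail `2 μ₀ (p y/d)^(T+1)/(T+1)!` -/
def hiChk (s T den y : ℕ) (mu0 : ℤ) (l : List ℤ) (t : Tg) : Bool :=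
  Nat.ble (2 * (t.p * y)) ((T + 2) * (t.q * 2 ^ s)) &&
    decide (((tay t.p (t.q * 2 ^ s) l 0 1 0 * ((t.q * 2 ^ s * (T + 1) : ℕ) : ℤ) +
        2 * mu0 * (((t.p * y) ^ (T + 1) : ℕ) : ℤ) : ℤ) : ℚ) ≤
      t.hi * t.El * ((den * (t.q * 2 ^ s) ^ (T + 1) * (T + 1).factorial : ℕ) : ℚ))

def allLo (s T den : ℕ) (tg : List Tg) (l : List ℤ) : Bool := tg.all (loChk s T den l)
def allHi (s T den y : ℕ) (mu0 : ℤ) (tg : List Tg) (l : List ℤ) : Bool := tg.all (hiChk s T den y mu0 l)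

def quadLo (s T den : ℕ) (as : List ℕ) (y : ℕ) (tg : List Tg) (nu : List ℤ) : Bool :=
  certChk den as y nu && allLo s T den tg (pm (dbl as) (T + 1) (trunc (dbl as) nu))

/-- `mu` = `den` times the moments of `X`; `as` Gauss nodes, `bs` Radau nodes, `y` upper end -/
def quadChk (R s T den : ℕ) (mu : List ℤ) (as bs : List ℕ) (y : ℕ) (tg : List Tg) : Bool :=
  Nat.blt 0 den && Nat.blt (2 * as.length) mu.length && Nat.blt (2 * bs.length) mu.length &&
    tg.all (fun t => Nat.blt 0 t.q && decide (0 < t.El) && decide (0 ≤ t.hi)) &&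
    quadLo s T den as y tg (newt ((2 ^ s * R : ℕ) : ℤ) ((2 ^ s : ℕ) : ℤ) (dbl as) mu) &&
    allHi s T den y (hd mu) tg
      (pm (dbl bs ++ [y]) (T + 1) (newt ((2 ^ s * R : ℕ) : ℤ) ((2 ^ s : ℕ) : ℤ) (dbl bs) mu))

/-- bounds `El ≤ exp (p/q) ≤ Eu` by a Taylor polynomial of degree `T` -/
def expChk (p q T : ℕ) (El Eu : ℚ) : Bool :=
  Nat.blt 0 q && Nat.ble (2 * p) ((T + 2) * q) &&
    decide (El * ((q ^ T * T.factorial : ℕ) : ℚ) ≤ ((tay p q (List.replicate (T + 1) 1) 0 1 0 : ℤ) : ℚ)) &&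
    decide (((tay p q (List.replicate (T + 1) 1) 0 1 0 * ((q * (T + 1) : ℕ) : ℤ) +
        2 * ((p ^ (T + 1) : ℕ) : ℤ) : ℤ) : ℚ) ≤ Eu * ((q ^ (T + 1) * (T + 1).factorial : ℕ) : ℚ))

end Crest.Agent.R347
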