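import Crest.Agent.R347.Quad
import Crest.Agent.R347.Mom

/-!
# R347: interval bounds for the sector partition functions
-/

set_option autoImplicit false

namespace Crest.Agent.R347

open Matrix

/-- normalisation exponent of the ring -/
def gR (L β : ℕ) : ℚ := β * (L * (1 - e0q))

/-- normalisation exponent of the chain on `k + 2` sites -/
def gO (k β : ℕ) : ℚ := β * (k + 1 + 6 / 5 - k * e0q - eb0q)

theorem quadG {N : ℕ} (X P : Op N) (hX : X.IsHermitian) (hP : IsProj X P) (R : ℕ)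
    (hR : ∀ v : Cfg N → ℝ, |v ⬝ᵥ (X *ᵥ v)| ≤ (R : ℝ) * (v ⬝ᵥ v)) (den : ℕ) (mu : List ℤ)
    (hm : Mom P X den mu) (s T : ℕ) (as bs : List ℕ) (y : ℕ) (tg : List Tg)
    (h : quadChk R s T den mu as bs y tg = true) (t : Tg) (ht : t ∈ tg) (γ : ℚ) (hγ : EB γ t.El t.Eu)
    (H : Op N) (β a c : ℝ) (hH : H = a • X - c • (1 : Op N)) (ha : β * a = (t.p : ℝ) / t.q)
    (hc : β * c = -(γ : ℝ) + (t.p : ℝ) / t.q * R) :
    IB (trace (P * NormedSpace.exp ((-β) • H))) (t.lo, t.hi) := by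
  have h1 := quad_core (wt hX P) hX.eigenvalues (wt_nonneg hX hP) (wt_mass hX hP) R
    (fun i => (abs_le.1 (eig_abs_le hX R hR i)).2) s T den mu
    (fun k hk => by rw [← trace_mul_pow]; exact hm k hk) as bs y tg h t ht γ hγ
  have h2 : trace (P * NormedSpace.exp ((-β) • H)) =
      Real.exp (-(γ : ℝ)) * ∑ i, wt hX P i * Real.exp ((t.p : ℝ) / t.q * (R - hX.eigenvalues i)) := by
    rw [hH, exp_shift, smul_smul, Matrix.mul_smul, trace_smul, trace_mul_exp hX, smul_eq_mul,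
      Finset.mul_sum, Finset.mul_sum]
    refine Finset.sum_congr rfl fun i _ => ?_
    rw [mul_left_comm, mul_left_comm (Real.exp _), ← Real.exp_add, ← Real.exp_add]
    congr 2
    rw [neg_mul, neg_neg, hc, neg_mul, ha]
    ring
  rw [h2]
  exact h1

/-- Plan: `ω = wt hX P`, eigenvalues of `X = XR L g`; `wt_nonneg`, `wt_mass` (`isProj_shift`), `eig_abs_le`,
`trace_mul_pow`, `trace_mul_exp`; `HRn L g = XR L g - (L + L e0) • 1`, `exp_shift`. -/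
theorem quadP (L : ℕ) (hL : 2 ≤ L) (g : Fin 4) (P : Op L) (hP : IsProj (HR L g) P) (den : ℕ) (mu : List ℤ)
    (hm : Mom P (XR L g) den mu) (s T : ℕ) (as bs : List ℕ) (y : ℕ) (tg : List Tg)
    (h : quadChk (2 * L) s T den mu as bs y tg = true) (β : ℕ) (El Eu lo hi : ℚ)
    (ht : (⟨β, 1, El, Eu, lo, hi⟩ : Tg) ∈ tg) (hE : EB (gR L β) El Eu) :
    IB (trace (P * NormedSpace.exp ((-(β : ℝ)) • HRn L g))) (lo, hi) := by
  refine quadG (XR L g) P (XR_symm L hL g) (isProj_shift hP _ _) (2 * L) (XR_bound L hL g) den mu hm s T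
    as bs y tg h _ ht (gR L β) hE (HRn L g) β 1 (L + L * e0) ?_ ?_ ?_
  · rw [HRn, XR]
    module
  · simp
  · simp only [gR, e0]
    push_cast
    ring

theorem quadR {L : ℕ} {g : Fin 4} {lo hi : ℕ} {mu : List ℤ} (hm : Mom (PI L lo hi) (XR L g) 1 mu)
    (s T : ℕ) (as bs : List ℕ) (y β1 β2 : ℕ) {El1 Eu1 El2 Eu2 : ℚ} (I1 I2 : ℚ × ℚ)
    (hE1 : EB (gR L β1) El1 Eu1) (hE2 : EB (gR L β2) El2 Eu2) (hc : 2 ≤ L ∧ (g = 0 ∨ g = 3))
    (h : quadChk (2 * L) s T 1 mu as bs y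
      [⟨β1, 1, El1, Eu1, I1.1, I1.2⟩, ⟨β2, 1, El2, Eu2, I2.1, I2.2⟩] = true) :
    IB (AR L g lo hi β1) I1 ∧ IB (AR L g lo hi β2) I2 := by
  exact ⟨quadP L hc.1 g _ (isProj_PI_R L hc.1 g hc.2 lo hi) 1 mu hm s T as bs y _ h β1 El1 Eu1 I1.1 I1.2
      (by simp) hE1,
    quadP L hc.1 g _ (isProj_PI_R L hc.1 g hc.2 lo hi) 1 mu hm s T as bs y _ h β2 El2 Eu2 I2.1 I2.2
      (by simp) hE2⟩

theorem quadF {L : ℕ} {e : ℤ} {mu : List ℤ} (hm : Mom (PF L e) (XR L 3) 2 mu)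
    (s T : ℕ) (as bs : List ℕ) (y β1 β2 : ℕ) {El1 Eu1 El2 Eu2 : ℚ} (I1 I2 : ℚ × ℚ)
    (hE1 : EB (gR L β1) El1 Eu1) (hE2 : EB (gR L β2) El2 Eu2) (hc : 2 ≤ L ∧ (e = 1 ∨ e = -1))
    (h : quadChk (2 * L) s T 2 mu as bs y
      [⟨β1, 1, El1, Eu1, I1.1, I1.2⟩, ⟨β2, 1, El2, Eu2, I2.1, I2.2⟩] = true) :
    IB (AF L e β1) I1 ∧ IB (AF L e β2) I2 := by
  have he : (e : ℝ) = 1 ∨ (e : ℝ) = -1 := by
    rcases hc.2 with h | h <;> simp [h]
  exact ⟨quadP L hc.1 3 _ (isProj_PF L hc.1 e he) 2 mu hm s T as bs y _ h β1 El1 Eu1 I1.1 I1.2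
      (by simp) hE1,
    quadP L hc.1 3 _ (isProj_PF L hc.1 e he) 2 mu hm s T as bs y _ h β2 El2 Eu2 I2.1 I2.2
      (by simp) hE2⟩

/-- `HOn k s = (1/5) • XO (k+1) s - ((5(k+1)+6)/5 + k e0 + eb0) • 1`, `R = 10 (k+1) + 12` -/
theorem quadO {k : ℕ} {sb : Bool} {lo hi : ℕ} {mu : List ℤ}
    (hm : Mom (PI (k + 1 + 1) lo hi) (XO (k + 1) (if sb then 1 else -1)) 1 mu)
    (s T : ℕ) (as bs : List ℕ) (y β1 β2 : ℕ) {El1 Eu1 El2 Eu2 : ℚ} (I1 I2 : ℚ × ℚ)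
    (hE1 : EB (gO k β1) El1 Eu1) (hE2 : EB (gO k β2) El2 Eu2)
    (h : quadChk (10 * (k + 1) + 12) s T 1 mu as bs y
      [⟨β1, 5, El1, Eu1, I1.1, I1.2⟩, ⟨β2, 5, El2, Eu2, I2.1, I2.2⟩] = true) :
    IB (AC k (if sb then 1 else -1) lo hi β1) I1 ∧ IB (AC k (if sb then 1 else -1) lo hi β2) I2 := by
  have hs : (if sb then (1 : ℝ) else -1) = 1 ∨ (if sb then (1 : ℝ) else -1) = -1 := by
    cases sb <;> simp
  generalize (if sb then (1 : ℝ) else -1) = σ at hm hs ⊢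
  have key : ∀ (β : ℕ) (El Eu : ℚ) (I : ℚ × ℚ), EB (gO k β) El Eu → (⟨β, 5, El, Eu, I.1, I.2⟩ : Tg) ∈
      [(⟨β1, 5, El1, Eu1, I1.1, I1.2⟩ : Tg), ⟨β2, 5, El2, Eu2, I2.1, I2.2⟩] → IB (AC k σ lo hi β) I := by
    intro β El Eu I hE ht
    refine quadG (XO (k + 1) σ) (PI (k + 1 + 1) lo hi) (XO_symm (k + 1) σ)
      (isProj_shift (isProj_PI_O (k + 1) σ lo hi) _ _) (10 * (k + 1) + 12) (XO_bound (k + 1) σ hs) 1 mu hm s T
      as bs y _ h _ ht (gO k β) hE (HOn k σ) β (1 / 5) ((5 * (k + 1) + 6) / 5 + k * e0 + eb0) ?_ ?_ ?_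
    · rw [HOn, XO]
      push_cast
      module
    · push_cast
      ring
    · simp only [gO, e0, eb0]
      push_cast
      ring
  exact ⟨key β1 El1 Eu1 I1 hE1 (by simp), key β2 El2 Eu2 I2 hE2 (by simp)⟩

end Crest.Agent.R347
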