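import Crest.Agent.R347.Defs

/-!
# R347: one Trotter step as a tensor network; tensor-product algebra

A label `a : Fin 4` on every bond (`0` = nothing happens, `a.succ` = the spin component `a`).
-/

set_option autoImplicit false

namespace Crest.Agent.R347

open Matrix

/-- spin matrix of a nonzero label -/
noncomputable def Cl (a : Fin 4) : M3 := Fin.cases 0 Cm a

/-- bulk site tensor -/
noncomputable def Gm (u : ℝ) (a b : Fin 4) : M3 :=
  if a = 0 then (if b = 0 then 1 else u • Cl b) else (if b = 0 then u • Cl a else 0)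

/-- boundary site tensor with field `s` -/
noncomputable def Gb (u s : ℝ) (a : Fin 4) : M3 :=
  if a = 0 then 1 + (u ^ 2 * (3 / 5) * s) • Cm 2 else u • Cl a

/-- one Trotter step on the ring; `ω j` is the label of the bond `(j, j+1)` -/
noncomputable def MR (L : ℕ) (g : Fin 4) (u : ℝ) : Op L :=
  ∑ ω : Fin L → Fin 4, (∏ j, chr 2 (ω j) * chr (if j.val + 1 = L then g else 0) (ω j)) •
    tens fun j => Gm u (ω ((finRotate L).symm j)) (ω j)

/-- site tensors of the chain with `k + 2` sites; `ω j` is the label of the bond `(j, j+1)` -/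
noncomputable def GO (k : ℕ) (u s : ℝ) (ω : Fin (k + 1) → Fin 4) : Fin (k + 2) → M3 :=
  Fin.cons (Gb u s (ω 0))
    (Fin.snoc (α := fun _ => M3) (fun j : Fin k => Gm u (ω j.castSucc) (ω j.succ))
      (Gb u 1 (ω (Fin.last k))))

/-- one Trotter step on the chain -/
noncomputable def MO (k : ℕ) (s u : ℝ) : Op (k + 2) :=
  ∑ ω : Fin (k + 1) → Fin 4, (∏ j, chr 2 (ω j)) • tens (GO k u s ω)

/-- character of a column of labels -/
def Ug (n : ℕ) (g : Fin 4) (ω : Fin n → Fin 4) : ℝ := ∏ s, chr g (ω s)

/-- spatial transfer matrix with `n` time slices and time twist `h` -/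
noncomputable def Tm (n : ℕ) (h : Fin 4) (u : ℝ) : Matrix (Fin n → Fin 4) (Fin n → Fin 4) ℝ :=
  Matrix.of fun ω ω' => trace (Vm h * (List.ofFn fun s => Gm u (ω s) (ω' s)).prod) * Ug n 2 ω'

/-- boundary vector -/
noncomputable def bv (n : ℕ) (h : Fin 4) (u s : ℝ) (ω : Fin n → Fin 4) : ℝ :=
  trace (Vm h * (List.ofFn fun t => Gb u s (ω t)).prod)

theorem tens_mul {L : ℕ} (A B : Fin L → M3) : tens A * tens B = tens fun j => A j * B j := by
  ext σ τ
  simp only [tens, Matrix.mul_apply, Matrix.of_apply]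
  rw [Finset.prod_univ_sum, Fintype.piFinset_univ]
  exact Finset.sum_congr rfl fun ρ _ => (Finset.prod_mul_distrib).symm

theorem tens_one {L : ℕ} : tens (fun _ : Fin L => (1 : M3)) = 1 := by
  ext σ τ
  simp only [tens, Matrix.of_apply, Matrix.one_apply]
  rw [Finset.prod_ite_zero]
  simp [funext_iff]

theorem trace_tens {L : ℕ} (A : Fin L → M3) : trace (tens A) = ∏ j, trace (A j) := by
  simp only [trace, tens, Matrix.diag_apply, Matrix.of_apply]
  rw [Finset.prod_univ_sum, Fintype.piFinset_univ]

theorem tens_transpose {L : ℕ} (A : Fin L → M3) : (tens A)ᵀ = tens fun j => (A j)ᵀ := by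
  ext σ τ
  simp [tens]

theorem onS_eq_tens {L : ℕ} (A : M3) (j : Fin L) :
    onS A j = tens (Function.update (fun _ => (1 : M3)) j A) := by
  ext σ τ
  simp only [tens, onS, Matrix.of_apply]
  rw [← Finset.mul_prod_erase _ _ (Finset.mem_univ j), Function.update_self]
  have e : ∏ k ∈ Finset.univ.erase j, Function.update (fun _ => (1 : M3)) j A k (σ k) (τ k) =
      ∏ k ∈ Finset.univ.erase j, if σ k = τ k then (1 : ℝ) else 0 :=
    Finset.prod_congr rfl fun k hk => by
      rw [Function.update_of_ne (Finset.ne_of_mem_erase hk), Matrix.one_apply]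
  rw [e, Finset.prod_ite_zero]
  simp

theorem tens_list_prod {L : ℕ} (l : List (Fin L → M3)) :
    (l.map tens).prod = tens fun j => (l.map fun A => A j).prod := by
  induction l with
  | nil => simp [tens_one]
  | cons A l ih => simp [ih, tens_mul]

theorem Vm_mul_self (g : Fin 4) : Vm g * Vm g = 1 := by
  fin_cases g <;> simp [Vm, Matrix.one_fin_three]

theorem Vm_transpose (g : Fin 4) : (Vm g)ᵀ = Vm g := by
  fin_cases g <;> ext i j <;> fin_cases i <;> fin_cases j <;> simp [Vm]

theorem Vm_comm (g h : Fin 4) : Vm g * Vm h = Vm h * Vm g := by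
  fin_cases g <;> fin_cases h <;> simp [Vm]

theorem Vm_mul_Cm (g : Fin 4) (a : Fin 3) : Vm g * Cm a = chr g a.succ • (Cm a * Vm g) := by
  fin_cases g <;> fin_cases a <;> simp [Vm, Cm, chr] <;> ext i j <;> fin_cases i <;> fin_cases j <;>
    simp

theorem Cm_transpose (a : Fin 3) : (Cm a)ᵀ = eps a • Cm a := by
  fin_cases a <;> ext i j <;> fin_cases i <;> fin_cases j <;> simp [Cm, eps]

theorem tens_update_smul {L : ℕ} (A : Fin L → M3) (j : Fin L) (c : ℝ) (B : M3) :
    tens (Function.update A j (c • B)) = c • tens (Function.update A j B) := by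
  ext σ τ
  simp only [tens, Matrix.of_apply, Matrix.smul_apply, smul_eq_mul]
  rw [← Finset.mul_prod_erase _ _ (Finset.mem_univ j), ← Finset.mul_prod_erase _ _ (Finset.mem_univ j),
    Function.update_self, Function.update_self, Matrix.smul_apply, smul_eq_mul, mul_assoc]
  congr 2
  exact Finset.prod_congr rfl fun k hk => by
    rw [Function.update_of_ne (Finset.ne_of_mem_erase hk),
      Function.update_of_ne (Finset.ne_of_mem_erase hk)]

theorem onS_smul {L : ℕ} (c : ℝ) (A : M3) (j : Fin L) : onS (c • A) j = c • onS A j := by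
  rw [onS_eq_tens, onS_eq_tens, tens_update_smul]

theorem onS_transpose {L : ℕ} (A : M3) (j : Fin L) : (onS A j)ᵀ = onS Aᵀ j := by
  rw [onS_eq_tens, onS_eq_tens, tens_transpose]
  congr 1
  funext k
  by_cases h : k = j
  · subst h; simp
  · simp [h]

theorem onS_comm {L : ℕ} (A B : M3) {i j : Fin L} (h : i ≠ j) :
    onS A i * onS B j = onS B j * onS A i := by
  rw [onS_eq_tens, onS_eq_tens, tens_mul, tens_mul]
  congr 1
  funext k
  by_cases h1 : k = i
  · subst h1; simp [h]
  · by_cases h2 : k = j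
    · subst h2; simp [h1]
    · simp [h1, h2]

theorem eps_mul_self (a : Fin 3) : eps a * eps a = 1 := by
  fin_cases a <;> simp [eps]

theorem chr_mul_self (g a : Fin 4) : chr g a * chr g a = 1 := by
  unfold chr; split_ifs <;> norm_num

theorem chr_zero_left (a : Fin 4) : chr 0 a = 1 := by simp [chr]

theorem chr_zero_right (g : Fin 4) : chr g 0 = 1 := by simp [chr]

theorem chr_two_succ (a : Fin 3) : chr 2 a.succ = -eps a := by
  fin_cases a <;> simp [chr, eps]

theorem bondR_transpose {L : ℕ} (g : Fin 4) {i j : Fin L} (h : i ≠ j) :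
    (bondR g i j)ᵀ = bondR g i j := by
  unfold bondR
  rw [transpose_sum]
  refine Finset.sum_congr rfl fun a _ => ?_
  rw [transpose_smul, transpose_mul, onS_transpose, onS_transpose, Cm_transpose, onS_smul, onS_smul,
    smul_mul_smul_comm, eps_mul_self, one_smul, onS_comm _ _ h]

theorem finRotate_ne {L : ℕ} (hL : 2 ≤ L) (j : Fin L) : j ≠ finRotate L j := by
  obtain ⟨n, rfl⟩ : ∃ n, L = n + 2 := ⟨L - 2, by omega⟩
  rw [finRotate_succ_apply]
  intro h
  have : (1 : Fin (n + 2)) = 0 := by simpa using h.symm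
  exact absurd this (by simp)

theorem isHermitian_of_transpose {n : Type} {A : Matrix n n ℝ} (h : Aᵀ = A) : A.IsHermitian := by
  rw [Matrix.IsHermitian, conjTranspose_eq_transpose_of_trivial, h]

theorem HR_transpose (L : ℕ) (hL : 2 ≤ L) (g : Fin 4) : (HR L g)ᵀ = HR L g := by
  unfold HR
  rw [transpose_sum]
  exact Finset.sum_congr rfl fun j _ => bondR_transpose _ (finRotate_ne hL j)

theorem HO_transpose (n : ℕ) (s : ℝ) : (HO n s)ᵀ = HO n s := by
  have h2 : (Cm 2)ᵀ = Cm 2 := by rw [Cm_transpose]; simp [eps]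
  unfold HO
  rw [transpose_sub, transpose_sum, transpose_smul, transpose_add, transpose_smul, onS_transpose,
    onS_transpose, h2]
  congr 1
  exact Finset.sum_congr rfl fun j _ => bondR_transpose _ (Fin.castSucc_lt_succ (i := j)).ne

theorem HR_symm (L : ℕ) (hL : 2 ≤ L) (g : Fin 4) : (HR L g).IsHermitian := by
  exact isHermitian_of_transpose (HR_transpose L hL g)

theorem HO_symm (n : ℕ) (s : ℝ) : (HO n s).IsHermitian := by
  exact isHermitian_of_transpose (HO_transpose n s)

theorem HRn_symm (L : ℕ) (hL : 2 ≤ L) (g : Fin 4) : (HRn L g).IsHermitian := by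
  refine isHermitian_of_transpose ?_
  rw [HRn, transpose_sub, transpose_smul, transpose_one, HR_transpose L hL]

theorem HOn_symm (k : ℕ) (s : ℝ) : (HOn k s).IsHermitian := by
  refine isHermitian_of_transpose ?_
  rw [HOn, transpose_sub, transpose_smul, transpose_one, HO_transpose]

theorem VV_mul_self (L : ℕ) (h : Fin 4) : VV L h * VV L h = 1 := by
  simp only [VV, tens_mul, Vm_mul_self, tens_one]

theorem VV_zero (L : ℕ) : VV L 0 = 1 := by
  exact tens_one

theorem VV_transpose (L : ℕ) (h : Fin 4) : (VV L h)ᵀ = VV L h := by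
  simp only [VV, tens_transpose, Vm_transpose]

theorem VV_mul_onS (L : ℕ) (h : Fin 4) (a : Fin 3) (j : Fin L) :
    VV L h * onS (Cm a) j = chr h a.succ • (onS (Cm a) j * VV L h) := by
  rw [onS_eq_tens, VV, tens_mul, tens_mul]
  have e1 : (fun k => Vm h * Function.update (fun _ => (1 : M3)) j (Cm a) k) =
      Function.update (fun _ => Vm h) j (chr h a.succ • (Cm a * Vm h)) := by
    funext k
    by_cases hk : k = j
    · subst hk; simp [Vm_mul_Cm]
    · simp [hk]
  have e2 : (fun k => Function.update (fun _ => (1 : M3)) j (Cm a) k * Vm h) =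
      Function.update (fun _ => Vm h) j (Cm a * Vm h) := by
    funext k
    by_cases hk : k = j
    · subst hk; simp
    · simp [hk]
  rw [e1, e2, tens_update_smul]

theorem VV_comm_bondR (L : ℕ) (g h : Fin 4) (i j : Fin L) :
    VV L h * bondR g i j = bondR g i j * VV L h := by
  unfold bondR
  rw [Finset.mul_sum, Finset.sum_mul]
  refine Finset.sum_congr rfl fun a _ => ?_
  rw [mul_smul_comm, smul_mul_assoc, ← mul_assoc, VV_mul_onS, smul_mul_assoc, mul_assoc, VV_mul_onS,
    mul_smul_comm, smul_smul (chr h a.succ), chr_mul_self, one_smul, mul_assoc]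

theorem VV_comm_HR (L : ℕ) (g h : Fin 4) : VV L h * HR L g = HR L g * VV L h := by
  unfold HR
  rw [Finset.mul_sum, Finset.sum_mul]
  exact Finset.sum_congr rfl fun j _ => VV_comm_bondR L _ h _ _

end Crest.Agent.R347
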