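import Crest.Agent.R347.RP1Aux

/-!
# R347: expansion of the Trotter step
-/

set_option autoImplicit false

namespace Crest.Agent.R347

open Matrix

/-- Plan: with `u = √t`, the labelling `ω` with `j` nonzero labels contributes `u^(2j) = t^j` times a
fixed matrix (`Gm u a b = u^([a≠0]+[b≠0]) • Gm 1 a b`, each bond label is seen by two sites; pull the
scalars out of `tens`).  `j = 0` gives `1`; `j = 1` (`ω = Pi.single i a.succ`) gives
`chr 2 a.succ * chr g_i a.succ • onS (Cm a) i * onS (Cm a) (i+1)` and `chr 2 a.succ = - eps a`;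
`j ≥ 2`: `t^j ≤ t²`. -/
theorem MR_expand (L : ℕ) (hL : 2 ≤ L) (g : Fin 4) : ∃ C : ℝ, ∀ t : ℝ, 0 ≤ t → t ≤ 1 → ∀ σ τ,
    |(MR L g (Real.sqrt t) - 1 - t • (-HR L g)) σ τ| ≤ C * t ^ 2 := by
  classical
  let c : (Fin L → Fin 4) → ℝ := fun ω =>
    ∏ j, chr 2 (ω j) * chr (if j.val + 1 = L then g else 0) (ω j)
  let K : (Fin L → Fin 4) → Op L := fun ω =>
    c ω • tens fun j => Gm 1 (ω ((finRotate L).symm j)) (ω j)
  have h0 : ∑ ω, (if RP1A.cnt ω = 0 then K ω else 0) = 1 := by
    rw [RP1A.sum_cnt_zero]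
    simp [K, c, Gm, chr_zero_right, tens_one]
  have h1 : ∑ ω : Fin L → Fin 4, (if RP1A.cnt ω = 0 then (0 : Op L) else 0) +
      ∑ ω, (if RP1A.cnt ω = 1 then K ω else 0) = -HR L g := by
    rw [RP1A.sum_cnt_zero (fun _ => (0 : Op L)), RP1A.sum_cnt_one, zero_add, HR,
      ← Finset.sum_neg_distrib]
    refine Finset.sum_congr rfl fun i _ => ?_
    rw [bondR, ← Finset.sum_neg_distrib]
    refine Finset.sum_congr rfl fun a _ => ?_
    have hc : c (Pi.single i a.succ) = -(chr (if i.val + 1 = L then g else 0) a.succ * eps a) := by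
      simp only [c]
      rw [Finset.prod_eq_single i]
      · rw [Pi.single_eq_same, chr_two_succ]; ring
      · intro j _ hj
        rw [Pi.single_eq_of_ne hj, chr_zero_right, chr_zero_right, one_mul]
      · simp
    have hne := finRotate_ne hL i
    have ht : (tens fun j => Gm 1 ((Pi.single i a.succ : Fin L → Fin 4) ((finRotate L).symm j))
        ((Pi.single i a.succ : Fin L → Fin 4) j)) = onS (Cm a) i * onS (Cm a) (finRotate L i) := by
      rw [onS_eq_tens, onS_eq_tens, tens_mul]
      congr 1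
      funext j
      by_cases h1 : j = i
      · subst h1
        have h2 : (finRotate L).symm j ≠ j := fun h => hne (by
          conv_rhs => rw [← h]
          rw [Equiv.apply_symm_apply])
        rw [Pi.single_eq_same, Pi.single_eq_of_ne h2, Function.update_self, Function.update_of_ne hne]
        simp [Gm, Fin.succ_ne_zero, RP1A.Cl_succ]
      · by_cases h2 : j = finRotate L i
        · rw [Pi.single_eq_of_ne h1, Function.update_of_ne h1, h2, Equiv.symm_apply_apply,
            Pi.single_eq_same, Function.update_self]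
          simp [Gm, Fin.succ_ne_zero, RP1A.Cl_succ]
        · have h3 : (finRotate L).symm j ≠ i := fun h => h2 (by rw [← h, Equiv.apply_symm_apply])
          rw [Pi.single_eq_of_ne h1, Pi.single_eq_of_ne h3, Function.update_of_ne h1,
            Function.update_of_ne h2]
          simp [Gm]
    simp only [K]
    rw [hc, ht, neg_smul]
  obtain ⟨C, hC⟩ := RP1A.expand RP1A.cnt K (fun _ => 0) (fun _ => 0) (-HR L g) h0 h1
  refine ⟨C, fun t ht ht1 σ τ => ?_⟩
  have e : MR L g (Real.sqrt t) =
      ∑ ω, t ^ RP1A.cnt ω • (K ω + t • (0 : Op L) + t ^ 2 • (0 : Op L)) := by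
    refine Finset.sum_congr rfl fun ω _ => ?_
    simp only [smul_zero, add_zero, K]
    rw [smul_comm]
    congr 1
    simp only [RP1A.Gm_eq (Real.sqrt t)]
    rw [RP1A.tens_smul, Finset.prod_mul_distrib,
      Equiv.prod_comp (finRotate L).symm (fun j => Real.sqrt t ^ RP1A.ind (ω j)), RP1A.prod_pow_ind,
      ← mul_pow, Real.mul_self_sqrt ht]
  rw [e]
  exact hC t ht ht1 σ τ

end Crest.Agent.R347
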