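import Crest.Agent.R347.RP0

/-!
# R347: auxiliary lemmas for the expansion of the Trotter step
-/

set_option autoImplicit false

namespace Crest.Agent.R347

namespace RP1A

open Matrix Finset

/-- number of nonzero labels -/
def cnt {ι : Type} [Fintype ι] (ω : ι → Fin 4) : ℕ := ∑ j, if ω j = 0 then 0 else 1

theorem scalar_bd (N : ℕ) (k0 k1 k2 t : ℝ) (h0 : 0 ≤ t) (h1 : t ≤ 1) :
    |t ^ N * (k0 + t * k1 + t ^ 2 * k2) - (if N = 0 then k0 else 0) -
      t * ((if N = 0 then k1 else 0) + (if N = 1 then k0 else 0))| ≤ (|k0| + |k1| + |k2|) * t ^ 2 := by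
  have a0 := abs_nonneg k0
  have a1 := abs_nonneg k1
  have a2 := abs_nonneg k2
  have ht2 : 0 ≤ t ^ 2 := by positivity
  have key : ∀ s : ℝ, 0 ≤ s → s ≤ 1 → ∀ k : ℝ, |s * k| ≤ |k| := fun s hs hs' k => by
    rw [abs_mul, abs_of_nonneg hs]; nlinarith [abs_nonneg k]
  rcases N with _ | _ | N
  · have : t ^ 0 * (k0 + t * k1 + t ^ 2 * k2) - k0 - t * (k1 + 0) = k2 * t ^ 2 := by ring
    simp only [if_true, zero_ne_one, if_false]
    rw [this, abs_mul, abs_of_nonneg ht2]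
    nlinarith
  · have : t ^ (0 + 1) * (k0 + t * k1 + t ^ 2 * k2) - 0 - t * (0 + k0) = (k1 + t * k2) * t ^ 2 := by ring
    simp only [zero_add, one_ne_zero, if_false, if_true] at this ⊢
    rw [this, abs_mul, abs_of_nonneg ht2]
    have := (abs_add_le k1 (t * k2)).trans (add_le_add le_rfl (key t h0 h1 k2))
    nlinarith
  · have e : t ^ (N + 1 + 1) * (k0 + t * k1 + t ^ 2 * k2) - 0 - t * (0 + 0) =
        (t ^ N * k0 + t ^ (N + 1) * k1 + t ^ (N + 2) * k2) * t ^ 2 := by ring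
    rw [if_neg (by omega), if_neg (by omega), if_neg (by omega), e, abs_mul, abs_of_nonneg ht2]
    have b0 := key _ (pow_nonneg h0 N) (pow_le_one₀ h0 h1) k0
    have b1 := key _ (pow_nonneg h0 (N + 1)) (pow_le_one₀ h0 h1) k1
    have b2 := key _ (pow_nonneg h0 (N + 2)) (pow_le_one₀ h0 h1) k2
    have := abs_add_three (t ^ N * k0) (t ^ (N + 1) * k1) (t ^ (N + 2) * k2)
    gcongr
    linarith

theorem expand {ι n : Type} [Fintype ι] [Fintype n] [DecidableEq n] (N : ι → ℕ)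
    (K0 K1 K2 : ι → Matrix n n ℝ) (X : Matrix n n ℝ)
    (h0 : ∑ ω, (if N ω = 0 then K0 ω else 0) = 1)
    (h1 : ∑ ω, (if N ω = 0 then K1 ω else 0) + ∑ ω, (if N ω = 1 then K0 ω else 0) = X) :
    ∃ C : ℝ, ∀ t : ℝ, 0 ≤ t → t ≤ 1 → ∀ σ τ,
      |((∑ ω, t ^ N ω • (K0 ω + t • K1 ω + t ^ 2 • K2 ω)) - 1 - t • X) σ τ| ≤ C * t ^ 2 := by
  refine ⟨∑ σ, ∑ τ, ∑ ω, (|K0 ω σ τ| + |K1 ω σ τ| + |K2 ω σ τ|), fun t ht ht1 σ τ => ?_⟩
  have e : ((∑ ω, t ^ N ω • (K0 ω + t • K1 ω + t ^ 2 • K2 ω)) - 1 - t • X) σ τ =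
      ∑ ω, (t ^ N ω * (K0 ω σ τ + t * K1 ω σ τ + t ^ 2 * K2 ω σ τ) - (if N ω = 0 then K0 ω σ τ else 0) -
        t * ((if N ω = 0 then K1 ω σ τ else 0) + (if N ω = 1 then K0 ω σ τ else 0))) := by
    rw [← h0, ← h1, ← sum_add_distrib, smul_sum, ← sum_sub_distrib, ← sum_sub_distrib, Matrix.sum_apply]
    refine sum_congr rfl fun ω _ => ?_
    simp only [Matrix.sub_apply, Matrix.smul_apply, Matrix.add_apply, smul_eq_mul]
    split_ifs <;> simp
  rw [e]
  calc _ ≤ ∑ ω, (|K0 ω σ τ| + |K1 ω σ τ| + |K2 ω σ τ|) * t ^ 2 :=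
        (abs_sum_le_sum_abs _ _).trans (sum_le_sum fun ω _ => scalar_bd _ _ _ _ t ht ht1)
    _ = (∑ ω, (|K0 ω σ τ| + |K1 ω σ τ| + |K2 ω σ τ|)) * t ^ 2 := by rw [sum_mul]
    _ ≤ _ := by
        gcongr
        refine le_trans ?_ (single_le_sum (f := fun σ => ∑ τ, ∑ ω,
          (|K0 ω σ τ| + |K1 ω σ τ| + |K2 ω σ τ|)) (fun _ _ => by positivity) (mem_univ σ))
        exact single_le_sum (f := fun τ => ∑ ω, (|K0 ω σ τ| + |K1 ω σ τ| + |K2 ω σ τ|))
          (fun _ _ => by positivity) (mem_univ τ)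

theorem cnt_eq_zero {ι : Type} [Fintype ι] (ω : ι → Fin 4) : cnt ω = 0 ↔ ω = 0 := by
  simp [cnt, funext_iff]

theorem sum_cnt_zero {ι M : Type} [Fintype ι] [DecidableEq ι] [AddCommMonoid M]
    (F : (ι → Fin 4) → M) : ∑ ω, (if cnt ω = 0 then F ω else 0) = F 0 := by
  simp only [cnt_eq_zero]
  rw [sum_ite_eq']
  simp

theorem cnt_single {ι : Type} [Fintype ι] [DecidableEq ι] (i : ι) (a : Fin 3) :
    cnt (Pi.single i a.succ : ι → Fin 4) = 1 := by
  unfold cnt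
  rw [sum_eq_single i]
  · simp [Fin.succ_ne_zero]
  · intro j _ hj; simp [hj]
  · simp

theorem sum_cnt_one {ι M : Type} [Fintype ι] [DecidableEq ι] [AddCommMonoid M]
    (F : (ι → Fin 4) → M) :
    ∑ ω, (if cnt ω = 1 then F ω else 0) = ∑ i, ∑ a : Fin 3, F (Pi.single i a.succ) := by
  rw [← sum_filter, ← Fintype.sum_prod_type']
  symm
  refine sum_bij (fun p _ => (Pi.single p.1 p.2.succ : ι → Fin 4)) (fun p _ => ?_) ?_ ?_ fun _ _ => rfl
  · simp [cnt_single]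
  · rintro ⟨i, a⟩ _ ⟨j, b⟩ _ h
    simp only at h
    have hij : i = j := by
      by_contra hne
      have := congrFun h i
      rw [Pi.single_eq_same, Pi.single_eq_of_ne hne] at this
      exact Fin.succ_ne_zero _ this
    subst hij
    have := congrFun h i
    rw [Pi.single_eq_same, Pi.single_eq_same] at this
    rw [Fin.succ_injective _ this]
  · intro ω hω
    have h1 : cnt ω = 1 := (mem_filter.1 hω).2
    have h2 : (univ.filter fun j => ω j ≠ 0).card = 1 := by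
      rw [← h1, cnt, card_filter]
      exact sum_congr rfl fun j _ => by by_cases h : ω j = 0 <;> simp [h]
    obtain ⟨i, hi⟩ := card_eq_one.1 h2
    have hmem : ∀ j, ω j ≠ 0 ↔ j = i := fun j => by
      rw [← mem_singleton, ← hi]; simp
    obtain ⟨a, ha⟩ := Fin.exists_succ_eq.2 ((hmem i).2 rfl)
    refine ⟨(i, a), mem_univ _, ?_⟩
    funext j
    by_cases hj : j = i
    · subst hj; simp [ha]
    · rw [Pi.single_eq_of_ne hj]
      by_contra hne
      exact hj ((hmem j).1 (Ne.symm hne))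

theorem tens_smul {L : ℕ} (c : Fin L → ℝ) (A : Fin L → M3) :
    tens (fun j => c j • A j) = (∏ j, c j) • tens A := by
  ext σ τ
  simp [tens, prod_mul_distrib]

/-- indicator of a nonzero label -/
def ind (a : Fin 4) : ℕ := if a = 0 then 0 else 1

theorem Gm_eq (u : ℝ) (a b : Fin 4) : Gm u a b = (u ^ ind a * u ^ ind b) • Gm 1 a b := by
  unfold Gm ind
  split_ifs <;> simp

theorem prod_pow_ind {ι : Type} [Fintype ι] (u : ℝ) (ω : ι → Fin 4) :
    ∏ j, u ^ ind (ω j) = u ^ cnt ω := by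
  rw [prod_pow_eq_pow_sum]; rfl

theorem Cl_succ (a : Fin 3) : Cl a.succ = Cm a := rfl

theorem onS_one {L : ℕ} (j : Fin L) : onS (1 : M3) j = 1 := by
  rw [onS_eq_tens, Function.update_eq_self, tens_one]

theorem onS_add {L : ℕ} (A B : M3) (j : Fin L) : onS (A + B) j = onS A j + onS B j := by
  ext σ τ
  simp only [onS, Matrix.of_apply, Matrix.add_apply]
  split_ifs <;> simp

end RP1A

end Crest.Agent.R347
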