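import Crest.Agent.R347.RP1Aux

/-!
# R347: expansion of the Trotter step, chain with free ends
-/

set_option autoImplicit false

namespace Crest.Agent.R347

open Matrix

namespace RP1o

open RP1A

/-- boundary tensor without field -/
noncomputable def B0 (a : Fin 4) : M3 := if a = 0 then 1 else Cl a

noncomputable def G0 (k : ℕ) (ω : Fin (k + 1) → Fin 4) : Fin (k + 2) → M3 :=
  Fin.cons (B0 (ω 0))
    (Fin.snoc (α := fun _ => M3) (fun j : Fin k => Gm 1 (ω j.castSucc) (ω j.succ)) (B0 (ω (Fin.last k))))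

theorem G0_zero (k : ℕ) : G0 k 0 = fun _ => 1 := by
  funext j
  refine Fin.cases ?_ (fun j => ?_) j
  · simp [G0, B0]
  · refine Fin.lastCases ?_ (fun j => ?_) j
    · simp [G0, B0]
    · simp [G0, Gm]

theorem G0_single (k : ℕ) (i : Fin (k + 1)) (a : Fin 3) :
    tens (G0 k (Pi.single i a.succ)) = onS (Cm a) i.castSucc * onS (Cm a) i.succ := by
  rw [onS_eq_tens, onS_eq_tens, tens_mul]
  congr 1
  funext j
  refine Fin.cases ?_ (fun j => ?_) j
  · rw [Function.update_of_ne (Fin.succ_ne_zero i).symm, mul_one]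
    simp only [G0, Fin.cons_zero]
    by_cases h : i = 0
    · subst h
      simp [B0, Fin.succ_ne_zero, Cl_succ]
    · rw [Pi.single_eq_of_ne (Ne.symm h), Function.update_of_ne]
      · simp [B0]
      · intro h'
        apply h
        have := congrArg Fin.val h'
        simp only [Fin.val_zero, Fin.val_castSucc] at this
        exact Fin.ext this.symm
  · refine Fin.lastCases ?_ (fun j => ?_) j
    · simp only [G0, Fin.cons_succ, Fin.snoc_last]
      rw [Function.update_of_ne (a := (Fin.last k).succ) (a' := i.castSucc)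
        (by rw [Fin.succ_last]; exact (Fin.castSucc_lt_last i).ne'), one_mul]
      by_cases h : i = Fin.last k
      · subst h
        simp [B0, Fin.succ_ne_zero, Cl_succ]
      · rw [Pi.single_eq_of_ne (Ne.symm h), Function.update_of_ne]
        · simp [B0]
        · exact fun h' => h (Fin.succ_injective _ h').symm
    · simp only [G0, Fin.cons_succ, Fin.snoc_castSucc]
      have hne : j.castSucc ≠ j.succ := (Fin.castSucc_lt_succ (i := j)).ne
      by_cases h1 : i = j.castSucc
      · subst h1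
        rw [Pi.single_eq_same, Pi.single_eq_of_ne hne.symm, Function.update_self,
          Function.update_of_ne (Fin.castSucc_lt_succ (i := j.castSucc)).ne', one_mul]
        simp [Gm, Fin.succ_ne_zero, Cl_succ]
      · rw [Pi.single_eq_of_ne (Ne.symm h1),
          Function.update_of_ne (a := j.castSucc.succ) (a' := i.succ)
            (fun h' => h1 (Fin.succ_injective _ h').symm), mul_one]
        by_cases h2 : i = j.succ
        · subst h2
          rw [Pi.single_eq_same, Fin.succ_castSucc, Function.update_self]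
          simp [Gm, Fin.succ_ne_zero, Cl_succ]
        · rw [Pi.single_eq_of_ne (Ne.symm h2), Function.update_of_ne]
          · simp [Gm]
          · rw [Fin.succ_castSucc]
            exact fun h' => h2 (Fin.castSucc_injective _ h').symm

theorem Gb_eq (u s : ℝ) (a : Fin 4) : Gb u s a =
    (u ^ ind a) • ((1 + (u ^ 2 * if a = 0 then 3 / 5 * s else 0) • Cm 2) * B0 a) := by
  unfold Gb B0 ind
  split_ifs <;> simp [mul_assoc]

theorem tens_GO (k : ℕ) (u s : ℝ) (ω : Fin (k + 1) → Fin 4) : tens (GO k u s ω) =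
    (u ^ cnt ω * u ^ cnt ω) •
      ((1 + (u ^ 2 * if ω 0 = 0 then 3 / 5 * s else 0) • onS (Cm 2) (0 : Fin (k + 2))) *
        (1 + (u ^ 2 * if ω (Fin.last k) = 0 then 3 / 5 * 1 else 0) • onS (Cm 2) (Fin.last (k + 1))) *
        tens (G0 k ω)) := by
  rw [← onS_smul, ← onS_smul, ← onS_one (0 : Fin (k + 2)), ← onS_add, onS_one,
    ← onS_one (Fin.last (k + 1)), ← onS_add, onS_eq_tens, onS_eq_tens, tens_mul, tens_mul]
  let cf : Fin (k + 2) → ℝ := Fin.cons (u ^ ind (ω 0))
    (Fin.snoc (α := fun _ => ℝ) (fun j : Fin k => u ^ ind (ω j.castSucc) * u ^ ind (ω j.succ))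
      (u ^ ind (ω (Fin.last k))))
  have hcf : ∏ j, cf j = u ^ cnt ω * u ^ cnt ω := by
    rw [Fin.prod_cons, Fin.prod_snoc, Finset.prod_mul_distrib]
    conv_rhs => rw [← prod_pow_ind, Fin.prod_univ_succ]
    conv_rhs => rw [← Fin.prod_univ_succ (fun j => u ^ ind (ω j))]
    nth_rewrite 1 [Fin.prod_univ_succ (fun j => u ^ ind (ω j))]
    rw [Fin.prod_univ_castSucc (fun j => u ^ ind (ω j))]
    ring
  rw [← hcf, ← tens_smul]
  congr 1
  funext j
  refine Fin.cases ?_ (fun j => ?_) j
  · rw [Function.update_self, Function.update_of_ne (Fin.last_pos.ne), mul_one]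
    simp only [GO, G0, cf, Fin.cons_zero]
    exact Gb_eq u s _
  · rw [Function.update_of_ne (Fin.succ_ne_zero j), one_mul]
    refine Fin.lastCases ?_ (fun j => ?_) j
    · simp only [GO, G0, cf, Fin.cons_succ, Fin.snoc_last]
      rw [Fin.succ_last, Function.update_self]
      exact Gb_eq u 1 _
    · simp only [GO, G0, cf, Fin.cons_succ, Fin.snoc_castSucc]
      rw [Function.update_of_ne (by rw [Fin.succ_castSucc]; exact (Fin.castSucc_lt_last _).ne), one_mul]
      exact Gm_eq u _ _

end RP1o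

/-- Plan: as `MR_expand`; in addition `Gb u s 0 = 1 + t (3/5) s S^z` at the two ends: for `ω = 0` the
term is `(1 + t(3/5)s S^z_0)(1 + t(3/5) S^z_last)`, for one nonzero label it is `t` times a matrix
polynomial in `t` whose constant term is `- eps a • onS (Cm a) i * onS (Cm a) (i+1)`.  A convenient
route: every entry of `tens (GO k √t s ω)` is `t^j * (polynomial in t)`; or write
`Gb u s 0 = 1 + t • F` and use multilinearity of `tens` in the first and last slot. -/
theorem MO_expand (k : ℕ) (s : ℝ) : ∃ C : ℝ, ∀ t : ℝ, 0 ≤ t → t ≤ 1 → ∀ σ τ,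
    |(MO k s (Real.sqrt t) - 1 - t • (-HO (k + 1) s)) σ τ| ≤ C * t ^ 2 := by
  classical
  let c : (Fin (k + 1) → Fin 4) → ℝ := fun ω => ∏ j, chr 2 (ω j)
  let α : (Fin (k + 1) → Fin 4) → ℝ := fun ω => if ω 0 = 0 then 3 / 5 * s else 0
  let β : (Fin (k + 1) → Fin 4) → ℝ := fun ω => if ω (Fin.last k) = 0 then 3 / 5 * 1 else 0
  let Z0 : Op (k + 2) := onS (Cm 2) 0
  let Z1 : Op (k + 2) := onS (Cm 2) (Fin.last (k + 1))
  let K : (Fin (k + 1) → Fin 4) → Op (k + 2) := fun ω => c ω • tens (RP1o.G0 k ω)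
  let K1 : (Fin (k + 1) → Fin 4) → Op (k + 2) := fun ω => (α ω • Z0 + β ω • Z1) * K ω
  let K2 : (Fin (k + 1) → Fin 4) → Op (k + 2) := fun ω => (α ω * β ω) • (Z0 * Z1) * K ω
  have hK0 : K 0 = 1 := by simp [K, c, chr_zero_right, RP1o.G0_zero, tens_one]
  have h0 : ∑ ω, (if RP1A.cnt ω = 0 then K ω else 0) = 1 := by
    rw [RP1A.sum_cnt_zero, hK0]
  have h1 : ∑ ω, (if RP1A.cnt ω = 0 then K1 ω else 0) +
      ∑ ω, (if RP1A.cnt ω = 1 then K ω else 0) = -HO (k + 1) s := by
    rw [RP1A.sum_cnt_zero, RP1A.sum_cnt_one, HO, neg_sub, sub_eq_add_neg]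
    congr 1
    · simp only [K1, hK0, mul_one, α, β, Pi.zero_apply, if_true, smul_add, smul_smul, Z0, Z1]
    · rw [← Finset.sum_neg_distrib]
      refine Finset.sum_congr rfl fun i _ => ?_
      rw [bondR, ← Finset.sum_neg_distrib]
      refine Finset.sum_congr rfl fun a _ => ?_
      have hc : c (Pi.single i a.succ) = -(chr 0 a.succ * eps a) := by
        simp only [c]
        rw [Finset.prod_eq_single i]
        · rw [Pi.single_eq_same, chr_two_succ, chr_zero_left]; ring
        · intro j _ hj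
          rw [Pi.single_eq_of_ne hj, chr_zero_right]
        · simp
      simp only [K]
      rw [hc, RP1o.G0_single, neg_smul]
  obtain ⟨C, hC⟩ := RP1A.expand RP1A.cnt K K1 K2 (-HO (k + 1) s) h0 h1
  refine ⟨C, fun t ht ht1 σ τ => ?_⟩
  have e : MO k s (Real.sqrt t) = ∑ ω, t ^ RP1A.cnt ω • (K ω + t • K1 ω + t ^ 2 • K2 ω) := by
    refine Finset.sum_congr rfl fun ω _ => ?_
    rw [RP1o.tens_GO, ← mul_pow, Real.mul_self_sqrt ht, Real.sq_sqrt ht, smul_comm]
    congr 1
    simp only [K1, K2, K, add_mul, mul_add, one_mul, smul_mul_assoc, mul_smul_comm, smul_add, smul_smul,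
      mul_assoc, Z0, Z1, α, β, c]
    module
  rw [e]
  exact hC t ht ht1 σ τ

end Crest.Agent.R347
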