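import Crest.Agent.R347.RP0

/-!
# R347: reading the tensor network in the space direction
-/

set_option autoImplicit false

namespace Crest.Agent.R347

open Matrix

theorem dot_pow_path {ι : Type} [Fintype ι] [DecidableEq ι] (T : Matrix ι ι ℝ) (x y : ι → ℝ) (k : ℕ) :
    x ⬝ᵥ (T ^ k *ᵥ y) =
      ∑ ω : Fin (k + 1) → ι, x (ω 0) * (∏ j : Fin k, T (ω j.castSucc) (ω j.succ)) * y (ω (Fin.last k)) := by
  induction k generalizing x with
  | zero =>
    rw [pow_zero, one_mulVec, ← (Equiv.funUnique (Fin 1) ι).symm.sum_comp]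
    simp [dotProduct]
  | succ k ih =>
    rw [pow_succ', ← mulVec_mulVec, dotProduct_mulVec, ih,
      ← (Fin.consEquiv (fun _ : Fin (k + 1 + 1) => ι)).sum_comp, Fintype.sum_prod_type,
      Finset.sum_comm]
    refine Finset.sum_congr rfl fun ω _ => ?_
    simp only [vecMul, dotProduct, Finset.sum_mul]
    refine Finset.sum_congr rfl fun a _ => ?_
    rw [Fin.prod_univ_succ]
    simp only [Fin.consEquiv, Equiv.coe_fn_mk, Fin.cons_zero, Fin.castSucc_zero, Fin.cons_succ,
      ← Fin.succ_castSucc, ← Fin.succ_last]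
    ring

/-- cyclic expansion of the trace of a product with a diagonal insertion -/
theorem trace_pow_cyc {ι : Type} [Fintype ι] [DecidableEq ι] (T : Matrix ι ι ℝ) (d : ι → ℝ) (m : ℕ) :
    trace (T ^ (m + 1) * diagonal d) =
      ∑ ω : Fin (m + 1) → ι, (∏ j, T (ω ((finRotate (m + 1)).symm j)) (ω j)) * d (ω (Fin.last m)) := by
  have h1 : ∀ i, (T ^ (m + 1) * diagonal d) i i = T i ⬝ᵥ (T ^ m *ᵥ Pi.single i (d i)) := by
    intro i
    rw [mul_diagonal, pow_succ', Matrix.mul_apply, mulVec_single]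
    simp [dotProduct, Finset.sum_mul, mul_assoc]
  have h2 : (finRotate (m + 1)).symm 0 = Fin.last m := by
    rw [Equiv.symm_apply_eq, finRotate_last]
  have h3 : ∀ j : Fin m, (finRotate (m + 1)).symm j.succ = j.castSucc := by
    intro j
    rw [Equiv.symm_apply_eq, finRotate_apply, Fin.coeSucc_eq_succ]
  simp only [trace, diag, h1, dot_pow_path]
  rw [Finset.sum_comm]
  refine Finset.sum_congr rfl fun ω _ => ?_
  rw [Finset.sum_eq_single (ω (Fin.last m)), Fin.prod_univ_succ, h2]
  · simp only [h3, Pi.single_eq_same]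
  · intro i _ hi
    rw [Pi.single_eq_of_ne hi.symm, mul_zero]
  · simp

/-- a power of a finite sum as a sum over time-ordered products -/
theorem sum_pow_expand {ι R : Type} [Fintype ι] [Semiring R] (f : ι → R) (n : ℕ) :
    (∑ i, f i) ^ n = ∑ Ω : Fin n → ι, (List.ofFn fun s => f (Ω s)).prod := by
  induction n with
  | zero => simp
  | succ n ih =>
    rw [pow_succ', ih, Finset.sum_mul_sum, ← (Fin.consEquiv (fun _ : Fin (n + 1) => ι)).sum_comp,
      Fintype.sum_prod_type]
    refine Finset.sum_congr rfl fun a _ => Finset.sum_congr rfl fun Ω _ => ?_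
    rw [List.ofFn_succ, List.prod_cons]
    rfl

theorem RP2.prod_smul {R : Type} [Semiring R] [Algebra ℝ R] {n : ℕ} (c : Fin n → ℝ) (M : Fin n → R) :
    (List.ofFn fun s => c s • M s).prod = (∏ s, c s) • (List.ofFn M).prod := by
  induction n with
  | zero => simp
  | succ n ih =>
    rw [List.ofFn_succ, List.ofFn_succ, List.prod_cons, List.prod_cons, ih, Fin.prod_univ_succ,
      smul_mul_smul_comm]

theorem RP2.trace_net {L : ℕ} {ι : Type} [Fintype ι] (c : ι → ℝ) (A : ι → Fin L → M3) (h : Fin 4)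
    (n : ℕ) : trace (VV L h * (∑ ω, c ω • tens (A ω)) ^ n) = ∑ Ω : Fin n → ι, (∏ s, c (Ω s)) *
      ∏ j, trace (Vm h * (List.ofFn fun s => A (Ω s) j).prod) := by
  rw [sum_pow_expand, Finset.mul_sum, trace_sum]
  refine Finset.sum_congr rfl fun Ω _ => ?_
  have := tens_list_prod (List.ofFn fun s => A (Ω s))
  rw [List.map_ofFn] at this
  rw [RP2.prod_smul, Matrix.mul_smul, trace_smul, smul_eq_mul]
  erw [this]
  rw [VV, tens_mul, trace_tens]
  simp only [List.map_ofFn]
  rfl

/-- Plan: `sum_pow_expand`, `tens_list_prod`, `tens_mul`, `trace_tens`, swap the arguments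
`(Fin n → Fin L → Fin 4) ≃ (Fin L → Fin n → Fin 4)`, `trace_pow_cyc`. -/
theorem trace_MR (m n : ℕ) (g h : Fin 4) (u : ℝ) :
    trace (VV (m + 1) h * MR (m + 1) g u ^ n) = trace (Tm n h u ^ (m + 1) * diagonal (Ug n g)) := by
  rw [MR, RP2.trace_net, trace_pow_cyc, ← (Equiv.piComm _).sum_comp]
  refine Finset.sum_congr rfl fun ω _ => ?_
  have h1 : ∏ j : Fin (m + 1), Ug n (if j.val + 1 = m + 1 then g else 0) (ω j) =
      Ug n g (ω (Fin.last m)) := by
    rw [Finset.prod_eq_single (Fin.last m)]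
    · simp
    · intro j _ hj
      rw [if_neg fun h => hj (Fin.ext (by simpa using h))]
      simp [Ug, chr]
    · simp
  rw [← h1]
  simp only [Tm, of_apply, Ug, Equiv.piComm_apply, Function.swap, Finset.prod_mul_distrib]
  rw [Finset.prod_comm (s := Finset.univ) (t := Finset.univ) (f := fun j s => chr 2 (ω j s)),
    Finset.prod_comm (s := Finset.univ) (t := Finset.univ)
      (f := fun (j : Fin (m + 1)) s => chr (if j.val + 1 = m + 1 then g else 0) (ω j s))]
  ring

theorem trace_MO (k n : ℕ) (h : Fin 4) (s u : ℝ) :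
    trace (VV (k + 2) h * MO k s u ^ n) =
      (fun ω => Ug n 2 ω * bv n h u s ω) ⬝ᵥ (Tm n h u ^ k *ᵥ bv n h u 1) := by
  rw [MO, RP2.trace_net, dot_pow_path, ← (Equiv.piComm _).sum_comp]
  refine Finset.sum_congr rfl fun ω _ => ?_
  rw [Finset.prod_comm, Fin.prod_univ_succ, Fin.prod_univ_succ, Fin.prod_univ_castSucc]
  simp only [Tm, of_apply, Ug, bv, GO, Equiv.piComm_apply, Function.swap, Finset.prod_mul_distrib,
    Fin.cons_zero, Fin.cons_succ, Fin.snoc_castSucc, Fin.snoc_last]
  ring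

end Crest.Agent.R347
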