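import Crest.Agent.R347.RP0

/-!
# R347: symmetries of the transfer matrix
-/

set_option autoImplicit false

namespace Crest.Agent.R347

open Matrix

/-- projection on the sector `σ` -/
noncomputable def Pg (n : ℕ) (σ : Fin 4) (ω : Fin n → Fin 4) : ℝ :=
  (1 / 4 : ℝ) * ∑ g : Fin 4, chr σ g * Ug n g ω

theorem RP3_chr_mul (a b : Fin 4) : ∃ c : Fin 4, ∀ g : Fin 4, chr g a * chr g b = chr g c := by
  refine ⟨if a = b then 0 else if a = 0 then b else if b = 0 then a else 6 - a - b, fun g => ?_⟩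
  fin_cases a <;> fin_cases b <;> fin_cases g <;> simp [chr] <;> decide

theorem RP3_chr_zero (g : Fin 4) : chr g 0 = 1 := by simp [chr]

theorem RP3_chr_zero' (g : Fin 4) : chr 0 g = 1 := by simp [chr]

theorem RP3_chr_sq (g a : Fin 4) : chr g a * chr g a = 1 := by
  unfold chr; split_ifs <;> norm_num

theorem RP3_Ug_eq (n : ℕ) (ω : Fin n → Fin 4) : ∃ c : Fin 4, ∀ g, Ug n g ω = chr g c := by
  induction n with
  | zero => exact ⟨0, fun g => by simp [Ug, chr]⟩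
  | succ n ih =>
    obtain ⟨c, hc⟩ := ih (fun s => ω s.succ)
    obtain ⟨d, hd⟩ := RP3_chr_mul (ω 0) c
    refine ⟨d, fun g => ?_⟩
    rw [← hd g, ← hc g]
    simp only [Ug, Fin.prod_univ_succ]

theorem RP3_Ug_sq (n : ℕ) (g : Fin 4) (ω : Fin n → Fin 4) : Ug n g ω * Ug n g ω = 1 := by
  obtain ⟨c, hc⟩ := RP3_Ug_eq n ω
  rw [hc]; exact RP3_chr_sq _ _

/-- Plan: the labels form the Klein group: `Ug n g ω = chr g (ksum ω)` for a label `ksum ω`
(induction on `n`, `∀ a b, ∃ c, ∀ g, chr g a * chr g b = chr g c`), and orthogonality of characters. -/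
theorem Pg_sq (n : ℕ) (σ : Fin 4) (ω : Fin n → Fin 4) : Pg n σ ω * Pg n σ ω = Pg n σ ω := by
  obtain ⟨c, hc⟩ := RP3_Ug_eq n ω
  unfold Pg
  simp only [hc, Fin.sum_univ_four]
  fin_cases σ <;> fin_cases c <;> simp [chr] <;> norm_num

theorem RP3_Vm_Cl (g a : Fin 4) : Vm g * Cl a = chr g a • (Cl a * Vm g) := by
  refine Fin.cases ?_ (fun b => ?_) a
  · simp [Cl]
  · simpa [Cl] using Vm_mul_Cm g b

theorem RP3_Vm_Gm (g : Fin 4) (u : ℝ) (a b : Fin 4) :
    Vm g * Gm u a b = (chr g a * chr g b) • (Gm u a b * Vm g) := by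
  unfold Gm
  by_cases ha : a = 0 <;> by_cases hb : b = 0
  · simp [ha, hb, RP3_chr_zero]
  · simp [ha, hb, RP3_chr_zero, RP3_Vm_Cl, smul_smul, mul_comm]
  · simp [ha, hb, RP3_chr_zero, RP3_Vm_Cl, smul_smul, mul_comm]
  · simp [ha, hb]

theorem RP3_list_conj (V : M3) (n : ℕ) (A B : Fin n → M3) (c : Fin n → ℝ)
    (h : ∀ s, V * A s = c s • (B s * V)) :
    V * (List.ofFn A).prod = (∏ s, c s) • ((List.ofFn B).prod * V) := by
  induction n with
  | zero => simp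
  | succ n ih =>
    rw [List.ofFn_succ, List.ofFn_succ, List.prod_cons, List.prod_cons, ← mul_assoc, h 0,
      Fin.prod_univ_succ, smul_mul_assoc, mul_assoc,
      ih (fun s => A s.succ) (fun s => B s.succ) (fun s => c s.succ) (fun s => h s.succ),
      mul_smul_comm, smul_smul, mul_assoc]

theorem RP3_trace_conj (g h : Fin 4) (P Q : M3) (c : ℝ) (hc : Vm g * P = c • (Q * Vm g)) :
    trace (Vm h * P) = c * trace (Vm h * Q) := by
  have h1 : Vm h * P = Vm g * (Vm h * (Vm g * P)) := by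
    rw [← mul_assoc, ← mul_assoc, Vm_comm g h, mul_assoc (Vm h), Vm_mul_self, mul_one]
  rw [h1, hc, mul_smul_comm, mul_smul_comm, trace_smul, smul_eq_mul, trace_mul_comm, mul_assoc,
    mul_assoc, Vm_mul_self, mul_one]

/-- Plan: `Vm g * Gm u a b * Vm g = (chr g a * chr g b) • Gm u a b`, conjugate the whole trace. -/
theorem Tm_Ug (n : ℕ) (h g : Fin 4) (u : ℝ) (ω ω' : Fin n → Fin 4) :
    Ug n g ω * Tm n h u ω ω' = Tm n h u ω ω' * Ug n g ω' := by
  have h1 := RP3_trace_conj g h _ _ _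
    (RP3_list_conj (Vm g) n (fun s => Gm u (ω s) (ω' s)) (fun s => Gm u (ω s) (ω' s))
      (fun s => chr g (ω s) * chr g (ω' s)) (fun s => RP3_Vm_Gm g u _ _))
  rw [Finset.prod_mul_distrib] at h1
  change _ = Ug n g ω * Ug n g ω' * _ at h1
  simp only [Tm, of_apply]
  have h2 := RP3_Ug_sq n g ω
  set t := trace (Vm h * (List.ofFn fun s => Gm u (ω s) (ω' s)).prod)
  calc Ug n g ω * (t * Ug n 2 ω') = Ug n g ω * ((Ug n g ω * Ug n g ω' * t) * Ug n 2 ω') := by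
        rw [← h1]
    _ = (Ug n g ω * Ug n g ω) * (t * Ug n 2 ω' * Ug n g ω') := by ring
    _ = _ := by rw [h2, one_mul]

theorem RP3_Gm_symm (u : ℝ) (a b : Fin 4) : Gm u a b = Gm u b a := by
  unfold Gm
  by_cases ha : a = 0 <;> by_cases hb : b = 0 <;> simp [ha, hb]

/-- Plan: `Gm u a b = Gm u b a` and `Tm_Ug` with `g = 2`. -/
theorem Tm_symm (n : ℕ) (h : Fin 4) (u : ℝ) : (Tm n h u)ᵀ = Tm n h u := by
  ext ω ω'
  have h1 := Tm_Ug n h 2 u ω ω'
  have h2 := RP3_Ug_sq n 2 ω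
  have h3 := RP3_Ug_sq n 2 ω'
  simp only [Tm, of_apply, transpose_apply] at h1 ⊢
  have h4 : (fun s => Gm u (ω' s) (ω s)) = fun s => Gm u (ω s) (ω' s) := by
    funext s; exact RP3_Gm_symm _ _ _
  rw [h4]
  set t := trace (Vm h * (List.ofFn fun s => Gm u (ω s) (ω' s)).prod)
  calc t * Ug n 2 ω = (Ug n 2 ω' * Ug n 2 ω') * (t * Ug n 2 ω) := by rw [h3, one_mul]
    _ = (Ug n 2 ω * (t * Ug n 2 ω')) * Ug n 2 ω' := by ring
    _ = (t * Ug n 2 ω') * (Ug n 2 ω' * Ug n 2 ω') := by rw [h1]; ring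
    _ = _ := by rw [h3, mul_one]

theorem RP3_Vm_Gb (g : Fin 4) (u s : ℝ) (a : Fin 4) :
    Vm g * Gb u s a = chr g a • (Gb u (chr g 3 * s) a * Vm g) := by
  unfold Gb
  by_cases ha : a = 0
  · have := Vm_mul_Cm g 2
    have h3 : (2 : Fin 3).succ = (3 : Fin 4) := rfl
    rw [h3] at this
    simp only [ha, if_true, RP3_chr_zero, one_smul, mul_add, add_mul, mul_one, one_mul,
      mul_smul_comm, smul_mul_assoc, this, smul_smul]
    congr 2
    ring
  · simp [ha, RP3_Vm_Cl, smul_smul, mul_comm]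

theorem RP3_bv (n : ℕ) (g h : Fin 4) (u s : ℝ) (ω : Fin n → Fin 4) :
    Ug n g ω * bv n h u s ω = bv n h u (chr g 3 * s) ω := by
  have h1 := RP3_trace_conj g h _ _ _
    (RP3_list_conj (Vm g) n (fun t => Gb u s (ω t)) (fun t => Gb u (chr g 3 * s) (ω t))
      (fun t => chr g (ω t)) (fun t => RP3_Vm_Gb g u s _))
  change bv n h u s ω = Ug n g ω * bv n h u (chr g 3 * s) ω at h1
  rw [h1, ← mul_assoc, RP3_Ug_sq, one_mul]

theorem bv_U2 (n : ℕ) (h : Fin 4) (u s : ℝ) (ω : Fin n → Fin 4) :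
    Ug n 2 ω * bv n h u s ω = bv n h u (-s) ω := by
  rw [RP3_bv]
  have : chr 2 3 = -1 := by simp [chr]
  rw [this, neg_one_mul]

theorem bv_U3 (n : ℕ) (h : Fin 4) (u s : ℝ) (ω : Fin n → Fin 4) :
    Ug n 3 ω * bv n h u s ω = bv n h u s ω := by
  rw [RP3_bv]
  have : chr 3 3 = 1 := by simp [chr]
  rw [this, one_mul]

theorem Ug_one (n : ℕ) (ω : Fin n → Fin 4) : Ug n 1 ω = Ug n 2 ω * Ug n 3 ω := by
  obtain ⟨c, hc⟩ := RP3_Ug_eq n ω
  simp only [hc]
  fin_cases c <;> simp [chr]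

theorem Ug_zero (n : ℕ) (ω : Fin n → Fin 4) : Ug n 0 ω = 1 := by
  simp [Ug, chr]

end Crest.Agent.R347
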