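import Crest.Agent.R347.Defs

/-!
# R347: Trotter-type limit
-/

set_option autoImplicit false

namespace Crest.Agent.R347

open Matrix Filter Topology

private lemma trot_tel {A : Type*} [NormedRing A] [NormOneClass A] (a b : A) (R : ℝ) (hR : 1 ≤ R)
    (ha : ‖a‖ ≤ R) (hb : ‖b‖ ≤ R) (m : ℕ) : ‖a ^ m - b ^ m‖ ≤ m * ‖a - b‖ * R ^ m := by
  induction m with
  | zero => simp
  | succ m ih =>
    have e : a ^ (m + 1) - b ^ (m + 1) = (a ^ m - b ^ m) * a + b ^ m * (a - b) := by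
      rw [pow_succ, pow_succ]; noncomm_ring
    have hR0 : 0 ≤ R := by linarith
    have h1 : ‖(a ^ m - b ^ m) * a‖ ≤ m * ‖a - b‖ * R ^ m * R :=
      (norm_mul_le _ _).trans (mul_le_mul ih ha (norm_nonneg _) (by positivity))
    have h2 : ‖b ^ m‖ ≤ R ^ m :=
      (norm_pow_le _ _).trans (pow_le_pow_left₀ (norm_nonneg _) hb m)
    have h3 : R ^ m ≤ R ^ (m + 1) := pow_le_pow_right₀ hR (Nat.le_succ m)
    have h4 : ‖b ^ m * (a - b)‖ ≤ R ^ (m + 1) * ‖a - b‖ :=
      (norm_mul_le _ _).trans (mul_le_mul_of_nonneg_right (h2.trans h3) (norm_nonneg _))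
    rw [e]
    refine (norm_add_le _ _).trans ?_
    push_cast
    calc _ ≤ m * ‖a - b‖ * R ^ m * R + R ^ (m + 1) * ‖a - b‖ := add_le_add h1 h4
      _ = _ := by ring

private lemma trot_bd {A : Type*} [NormedRing A] [NormOneClass A] [NormedAlgebra ℝ A] (Y a : A)
    (m : ℕ) (hm : 1 ≤ m) (h : (m : ℝ) * ‖a - 1 - (1 / m : ℝ) • Y‖ ≤ 1) :
    ‖a‖ ≤ Real.exp ((‖Y‖ + 1) / m) := by
  have hm' : (0 : ℝ) < m := by exact_mod_cast hm
  have h1 : ‖a - 1 - (1 / m : ℝ) • Y‖ ≤ 1 / m := by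
    rw [le_div_iff₀ hm']; linarith
  have e : a = (a - 1 - (1 / m : ℝ) • Y) + 1 + (1 / m : ℝ) • Y := by abel
  have h2 : ‖(1 / m : ℝ) • Y‖ = ‖Y‖ / m := by
    rw [norm_smul, Real.norm_of_nonneg (by positivity)]; ring
  have h3 : ‖a‖ ≤ ‖a - 1 - (1 / m : ℝ) • Y‖ + ‖(1 : A)‖ + ‖(1 / m : ℝ) • Y‖ := by
    conv_lhs => rw [e]
    exact norm_add₃_le
  rw [norm_one, h2] at h3
  have h4 := Real.add_one_le_exp ((‖Y‖ + 1) / m)
  have h5 : (‖Y‖ + 1) / m = ‖Y‖ / m + 1 / m := by ring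
  linarith

private lemma trot_seq {A : Type*} [NormedRing A] [NormOneClass A] [NormedAlgebra ℝ A] (Y : A)
    (a b : ℕ → A)
    (ha : Tendsto (fun m : ℕ => (m : ℝ) * ‖a m - 1 - (1 / m : ℝ) • Y‖) atTop (𝓝 0))
    (hb : Tendsto (fun m : ℕ => (m : ℝ) * ‖b m - 1 - (1 / m : ℝ) • Y‖) atTop (𝓝 0)) :
    Tendsto (fun m : ℕ => a m ^ m - b m ^ m) atTop (𝓝 0) := by
  rw [tendsto_zero_iff_norm_tendsto_zero]
  have hlim : Tendsto (fun m : ℕ => ((m : ℝ) * ‖a m - 1 - (1 / m : ℝ) • Y‖ +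
      (m : ℝ) * ‖b m - 1 - (1 / m : ℝ) • Y‖) * Real.exp (‖Y‖ + 1)) atTop (𝓝 0) := by
    simpa using (ha.add hb).mul_const (Real.exp (‖Y‖ + 1))
  refine squeeze_zero' (Eventually.of_forall fun _ => norm_nonneg _) ?_ hlim
  filter_upwards [eventually_ge_atTop 1, ha.eventually (ge_mem_nhds one_pos),
    hb.eventually (ge_mem_nhds one_pos)] with m hm h1 h2
  have hm' : (0 : ℝ) < m := by exact_mod_cast hm
  have hR : 1 ≤ Real.exp ((‖Y‖ + 1) / m) := Real.one_le_exp (by positivity)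
  have h3 := trot_tel (a m) (b m) _ hR (trot_bd Y _ m hm h1) (trot_bd Y _ m hm h2) m
  have h4 : Real.exp ((‖Y‖ + 1) / m) ^ m = Real.exp (‖Y‖ + 1) := by
    rw [← Real.exp_nat_mul]; congr 1; field_simp
  rw [h4] at h3
  refine h3.trans (mul_le_mul_of_nonneg_right ?_ (Real.exp_pos _).le)
  rw [← mul_add]
  refine mul_le_mul_of_nonneg_left ?_ hm'.le
  have e : a m - b m = (a m - 1 - (1 / m : ℝ) • Y) - (b m - 1 - (1 / m : ℝ) • Y) := by abel
  rw [e]
  exact norm_sub_le _ _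

private lemma trot_gen {A : Type*} [NormedRing A] [NormOneClass A] [NormedAlgebra ℝ A]
    [NormedAlgebra ℚ A] [CompleteSpace A] (X : A) (M : ℝ → A) (C : ℝ)
    (h : ∀ t, 0 ≤ t → t ≤ 1 → ‖M t - 1 - t • X‖ ≤ C * t ^ 2) (β : ℝ) (hβ : 0 ≤ β) :
    Tendsto (fun m : ℕ => M (β / m) ^ m) atTop (𝓝 (NormedSpace.exp (β • X))) := by
  have hsm : ∀ m : ℕ, (1 / m : ℝ) • (β • X) = (β / m) • X := by
    intro m; rw [smul_smul]; congr 1; ring
  have ht : Tendsto (fun m : ℕ => β / m) atTop (𝓝 0) := tendsto_const_div_atTop_nhds_zero_nat β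
  have ha : Tendsto (fun m : ℕ => (m : ℝ) * ‖M (β / m) - 1 - (1 / m : ℝ) • (β • X)‖) atTop
      (𝓝 0) := by
    have hlim : Tendsto (fun m : ℕ => C * β * (β / m)) atTop (𝓝 0) := by
      simpa using ht.const_mul (C * β)
    refine squeeze_zero' (Eventually.of_forall fun _ => by positivity) ?_ hlim
    filter_upwards [eventually_ge_atTop 1, ht.eventually (ge_mem_nhds one_pos)] with m hm h1
    have hm' : (0 : ℝ) < m := by exact_mod_cast hm
    rw [hsm]
    calc _ ≤ (m : ℝ) * (C * (β / m) ^ 2) :=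
          mul_le_mul_of_nonneg_left (h _ (by positivity) h1) hm'.le
      _ = _ := by field_simp
  have hb : Tendsto (fun m : ℕ => (m : ℝ) *
      ‖NormedSpace.exp ((β / m) • X) - 1 - (1 / m : ℝ) • (β • X)‖) atTop (𝓝 0) := by
    have hd : HasDerivAt (fun u : ℝ => NormedSpace.exp (u • X)) X 0 := by
      simpa using hasDerivAt_exp_smul_const (𝕂 := ℝ) X 0
    have ho := (hasDerivAt_iff_isLittleO.1 hd).comp_tendsto ht
    rw [Metric.tendsto_atTop]
    intro ε hε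
    have h1 := ho.def (c := ε / (β + 1)) (by positivity)
    obtain ⟨N, hN⟩ := eventually_atTop.1 h1
    refine ⟨max N 1, fun m hm => ?_⟩
    have hm1 : 1 ≤ m := le_trans (le_max_right _ _) hm
    have hm' : (0 : ℝ) < m := by exact_mod_cast hm1
    have h2 := hN m (le_trans (le_max_left _ _) hm)
    simp only [Function.comp, zero_smul, NormedSpace.exp_zero, sub_zero] at h2
    rw [Real.norm_of_nonneg (by positivity : 0 ≤ β / m)] at h2
    rw [Real.dist_eq, sub_zero, abs_of_nonneg (by positivity), hsm]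
    calc _ ≤ (m : ℝ) * (ε / (β + 1) * (β / m)) := mul_le_mul_of_nonneg_left h2 hm'.le
      _ = ε * (β / (β + 1)) := by field_simp
      _ < ε := by
        refine mul_lt_of_lt_one_right hε ?_
        rw [div_lt_one (by positivity)]; linarith
  have h1 := trot_seq (β • X) _ _ ha hb
  have h2 := h1.add_const (NormedSpace.exp (β • X))
  rw [zero_add] at h2
  refine h2.congr' ?_
  filter_upwards [eventually_ge_atTop 1] with m hm
  have hm' : (m : ℝ) ≠ 0 := by
    have : (0 : ℝ) < m := by exact_mod_cast hm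
    exact this.ne'
  have e : NormedSpace.exp ((β / m) • X) ^ m = NormedSpace.exp (β • X) := by
    rw [← NormedSpace.exp_nsmul, ← Nat.cast_smul_eq_nsmul ℝ, smul_smul]
    congr 2; field_simp
  rw [e]; abel

open scoped Matrix.Norms.Operator in
private lemma trot_norm {n : Type} [Fintype n] [DecidableEq n] (A : Matrix n n ℝ) (c : ℝ)
    (hc : 0 ≤ c) (h : ∀ i j, |A i j| ≤ c) : ‖A‖ ≤ Fintype.card n * c := by
  rw [Matrix.linfty_opNorm_def]
  have : (Finset.univ.sup fun i => ∑ j, ‖A i j‖₊) ≤ (Fintype.card n : NNReal) * ⟨c, hc⟩ := by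
    refine Finset.sup_le fun i _ => ?_
    calc ∑ j, ‖A i j‖₊ ≤ ∑ _j : n, (⟨c, hc⟩ : NNReal) :=
          Finset.sum_le_sum fun j _ => by
            rw [← NNReal.coe_le_coe]; exact h i j
      _ = _ := by rw [Finset.sum_const, Finset.card_univ, nsmul_eq_mul]; rfl
  exact_mod_cast this

set_option backward.isDefEq.respectTransparency false in
/-- Plan: work with the `L∞` operator norm (`Matrix.linftyOpNormedRing`, `linftyOpNormedAlgebra` as local
instances; same topology).  With `E m = exp ((β/m) • X)`, `E m ^ m = exp (β • X)`,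
`‖M - E‖ ≤ C'/m²` and `‖M‖, ‖E‖ ≤ 1 + C''/m` (careful with `‖1‖ ≤ 1` when `n` is empty), telescoping
`‖M^m - E^m‖ ≤ m ‖M - E‖ (1 + C''/m)^m ≤ C' e^{C''} / m`. -/
theorem trotter {n : Type} [Fintype n] [DecidableEq n] (X : Matrix n n ℝ) (M : ℝ → Matrix n n ℝ)
    (C : ℝ) (h : ∀ t, 0 ≤ t → t ≤ 1 → ∀ i j, |(M t - 1 - t • X) i j| ≤ C * t ^ 2)
    (β : ℝ) (hβ : 0 ≤ β) :
    Tendsto (fun m : ℕ => M (β / m) ^ m) atTop (𝓝 (NormedSpace.exp (β • X))) := by
  rcases isEmpty_or_nonempty n with hn | hn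
  · have : (fun m : ℕ => M (β / m) ^ m) = fun _ => NormedSpace.exp (β • X) :=
      funext fun _ => Subsingleton.elim _ _
    rw [this]; exact tendsto_const_nhds
  · open scoped Matrix.Norms.Operator in
      refine trot_gen X M (Fintype.card n * C) (fun t h0 h1 => ?_) β hβ
    obtain ⟨i⟩ := hn
    have hc : 0 ≤ C * t ^ 2 := (abs_nonneg _).trans (h t h0 h1 i i)
    have := trot_norm _ _ hc (h t h0 h1)
    rwa [← mul_assoc] at this

end Crest.Agent.R347
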