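import Crest.Agent.R347.RP1
import Crest.Agent.R347.RP1o
import Crest.Agent.R347.RP2
import Crest.Agent.R347.RP3
import Crest.Agent.R347.Trot
import Crest.Agent.R347.Mat
import Crest.Agent.R347.Lim

/-!
# R347: the spectral families of the spatial transfer operator
-/

set_option autoImplicit false

namespace Crest.Agent.R347

open Matrix Filter Topology

theorem RP4_comm (n : ℕ) (h σ : Fin 4) (u : ℝ) :
    diagonal (Pg n σ) * Tm n h u = Tm n h u * diagonal (Pg n σ) := by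
  ext ω ω'
  rw [diagonal_mul, mul_diagonal]
  unfold Pg
  rw [mul_assoc, Finset.sum_mul, mul_left_comm, Finset.mul_sum _ _ (Tm n h u ω ω')]
  congr 1
  refine Finset.sum_congr rfl fun g _ => ?_
  rw [mul_assoc, Tm_Ug]; ring

theorem RP4_idem (n : ℕ) (σ : Fin 4) :
    diagonal (Pg n σ) * diagonal (Pg n σ) = diagonal (Pg n σ) := by
  rw [diagonal_mul_diagonal]
  congr 1
  funext ω
  exact Pg_sq n σ ω

theorem RP4_herm (n : ℕ) (h σ : Fin 4) (u : ℝ) : (Tm n h u * diagonal (Pg n σ)).IsHermitian := by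
  unfold IsHermitian
  rw [conjTranspose_eq_transpose_of_trivial, transpose_mul, Tm_symm, diagonal_transpose, RP4_comm]

theorem RP4_comm_pow (n : ℕ) (h σ : Fin 4) (u : ℝ) (k : ℕ) :
    diagonal (Pg n σ) * Tm n h u ^ k = Tm n h u ^ k * diagonal (Pg n σ) :=
  (Commute.pow_right (RP4_comm n h σ u) k)

theorem RP4_pow_mul (n : ℕ) (h σ : Fin 4) (u : ℝ) (k : ℕ) :
    (Tm n h u * diagonal (Pg n σ)) ^ k * diagonal (Pg n σ) = Tm n h u ^ k * diagonal (Pg n σ) := by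
  induction k with
  | zero => simp
  | succ k ih =>
    rw [pow_succ', mul_assoc, ih, mul_assoc, ← mul_assoc (diagonal _), RP4_comm_pow, mul_assoc,
      RP4_idem, pow_succ', mul_assoc]

theorem RP4_pow (n : ℕ) (h σ : Fin 4) (u : ℝ) (k : ℕ) :
    (Tm n h u * diagonal (Pg n σ)) ^ (k + 1) = Tm n h u ^ (k + 1) * diagonal (Pg n σ) := by
  rw [← RP4_pow_mul, pow_succ, mul_assoc, mul_assoc, RP4_idem]

theorem RP4_sum_eig (n : ℕ) (h σ : Fin 4) (u : ℝ) (m : ℕ) :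
    ∑ i, (RP4_herm n h σ u).eigenvalues i ^ (m + 1) =
      (1 / 4 : ℝ) * ∑ g : Fin 4, chr σ g * trace (VV (m + 1) h * MR (m + 1) g u ^ n) := by
  have h1 := trace_mul_pow (RP4_herm n h σ u) 1 (m + 1)
  simp only [wt_one, one_mul] at h1
  rw [← h1, RP4_pow]
  simp only [trace_MR]
  have h2 : diagonal (Pg n σ) = (1 / 4 : ℝ) • ∑ g : Fin 4, chr σ g • diagonal (Ug n g) := by
    ext ω ω'
    by_cases hω : ω = ω'
    · subst hω
      simp [Pg, Matrix.sum_apply]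
    · simp [Matrix.sum_apply, diagonal_apply_ne _ hω]
  rw [h2, Matrix.mul_smul, trace_smul, Finset.mul_sum, trace_sum, smul_eq_mul]
  congr 1
  refine Finset.sum_congr rfl fun g _ => ?_
  rw [Matrix.mul_smul, trace_smul, smul_eq_mul]

theorem RP4_Pb (n : ℕ) (h σ : Fin 4) (u : ℝ) :
    diagonal (Pg n σ) *ᵥ bv n h u 1 =
      ((chr σ 0 + chr σ 3) / 4) • (fun ω => Ug n 2 ω * bv n h u (-1) ω) +
        ((chr σ 1 + chr σ 2) / 4) • (fun ω => Ug n 2 ω * bv n h u 1 ω) := by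
  funext ω
  have h1 := bv_U2 n h u (-1) ω
  rw [neg_neg] at h1
  have h3 := bv_U3 n h u 1 ω
  simp only [mulVec_diagonal, Pi.add_apply, Pi.smul_apply, smul_eq_mul, Pg, Fin.sum_univ_four,
    Ug_zero, Ug_one, h1]
  calc 1 / 4 * (chr σ 0 * 1 + chr σ 1 * (Ug n 2 ω * Ug n 3 ω) + chr σ 2 * Ug n 2 ω +
        chr σ 3 * Ug n 3 ω) * bv n h u 1 ω
      = 1 / 4 * (chr σ 0 * bv n h u 1 ω + chr σ 1 * (Ug n 2 ω * (Ug n 3 ω * bv n h u 1 ω)) +
          chr σ 2 * Ug n 2 ω * bv n h u 1 ω + chr σ 3 * (Ug n 3 ω * bv n h u 1 ω)) := by ring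
    _ = _ := by rw [h3]; ring

theorem RP4_sum_w (n : ℕ) (h σ : Fin 4) (u : ℝ) (k : ℕ) :
    ∑ i, (ev (RP4_herm n h σ u) i ⬝ᵥ (diagonal (Pg n σ) *ᵥ bv n h u 1)) ^ 2 *
        (RP4_herm n h σ u).eigenvalues i ^ k =
      ((chr σ 0 + chr σ 3) / 4) * trace (VV (k + 2) h * MO k (-1) u ^ n) +
        ((chr σ 1 + chr σ 2) / 4) * trace (VV (k + 2) h * MO k 1 u ^ n) := by
  rw [← dot_pow_mulVec, mulVec_mulVec, RP4_pow_mul, ← RP4_comm_pow, ← mulVec_mulVec,
    dotProduct_mulVec, vecMul_diagonal_eq]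
  · rw [trace_MO, trace_MO, RP4_Pb, add_dotProduct, smul_dotProduct, smul_dotProduct, smul_eq_mul,
      smul_eq_mul]
where
  vecMul_diagonal_eq : (diagonal (Pg n σ) *ᵥ bv n h u 1) ᵥ* diagonal (Pg n σ) =
      diagonal (Pg n σ) *ᵥ bv n h u 1 := by
    funext ω
    rw [vecMul_diagonal, mulVec_diagonal, mul_right_comm, Pg_sq]

theorem RP4_limR (L : ℕ) (hL : 2 ≤ L) (g h : Fin 4) (β : ℝ) (hβ : 0 ≤ β) :
    Tendsto (fun n : ℕ => Real.exp (β * e0) ^ L *
      trace (VV L h * MR L g (Real.sqrt (β / n)) ^ n)) atTop (𝓝 (ZR g h L β)) := by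
  obtain ⟨C, hC⟩ := MR_expand L hL g
  have h1 := trotter (-HR L g) (fun t => MR L g (Real.sqrt t)) C hC β hβ
  have h2 : Continuous fun A : Op L => trace (VV L h * A) :=
    (continuous_const.matrix_mul continuous_id).matrix_trace
  have h3 := ((h2.tendsto _).comp h1).const_mul (Real.exp (β * e0) ^ L)
  have h4 : ZR g h L β = Real.exp (β * e0) ^ L *
      trace (VV L h * NormedSpace.exp (β • (-HR L g))) := by
    unfold ZR HRn
    rw [exp_shift, Matrix.mul_smul, trace_smul, smul_eq_mul, smul_neg, neg_smul, ← Real.exp_nat_mul]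
    congr 2
    ring
  rw [h4]
  exact h3

theorem RP4_limO (k : ℕ) (s : ℝ) (h : Fin 4) (β : ℝ) (hβ : 0 ≤ β) :
    Tendsto (fun n : ℕ => (Real.exp (β * eb0) * Real.exp (β * e0) ^ k) *
      trace (VV (k + 2) h * MO k s (Real.sqrt (β / n)) ^ n)) atTop (𝓝 (ZO s h k β)) := by
  obtain ⟨C, hC⟩ := MO_expand k s
  have h1 := trotter (-HO (k + 1) s) (fun t => MO k s (Real.sqrt t)) C hC β hβ
  have h2 : Continuous fun A : Op (k + 2) => trace (VV (k + 2) h * A) :=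
    (continuous_const.matrix_mul continuous_id).matrix_trace
  have h3 := ((h2.tendsto _).comp h1).const_mul (Real.exp (β * eb0) * Real.exp (β * e0) ^ k)
  have h4 : ZO s h k β = (Real.exp (β * eb0) * Real.exp (β * e0) ^ k) *
      trace (VV (k + 2) h * NormedSpace.exp (β • (-HO (k + 1) s))) := by
    unfold ZO HOn
    rw [exp_shift, Matrix.mul_smul, trace_smul, smul_eq_mul, smul_neg, neg_smul, ← Real.exp_nat_mul,
      ← Real.exp_add]
    congr 2
    ring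
  rw [h4]
  exact h3

/-- Plan: `u = √(β/n)`, `S = Tm n h u * diagonal (Pg n σ)` is symmetric (`Tm_symm`, `Tm_Ug`),
`S^L = T^L P` for `L ≥ 1`; `x n i = exp (β e0) * eigenvalue i of S`,
`w n i = exp (β eb0) * ⟨ev i, P b⟩²` with `b = bv n h u 1`.  `∑ x^L = exp (β L e0) (1/4) ∑ g, chr σ g *
trace (VV h * MR g ^ n)` (`trace_mul_pow`, `trace_MR`), `trotter` with `MR_expand`, `exp_shift`.
`∑ w x^k = ⟨P b, T^k P b⟩ = ⟨P b, T^k b⟩` (`dot_pow_mulVec`), and by `bv_U3`, `Ug_one`: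
`P_0 b = (b + U₂ b)/2`, `P_3 b = (b - U₂ b)/2`, `P_1 b = P_2 b = 0`; `trace_MO` with `s = -1` has left vector
`U₂ b(-1) = b` (`bv_U2`), with `s = 1` left vector `U₂ b`. -/
theorem rp_approx (h σ : Fin 4) (β : ℝ) (hβ : 0 ≤ β) :
    ∃ x w : ∀ n : ℕ, (Fin n → Fin 4) → ℝ, (∀ n i, 0 ≤ w n i) ∧
      (∀ L, 2 ≤ L → Tendsto (fun n => ∑ i, x n i ^ L) atTop (𝓝 (Zs h σ L β))) ∧
      ∀ k, Tendsto (fun n => ∑ i, w n i * x n i ^ k) atTop (𝓝 (cs h σ k β)) := by
  refine ⟨fun n i => Real.exp (β * e0) * (RP4_herm n h σ (Real.sqrt (β / n))).eigenvalues i,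
    fun n i => Real.exp (β * eb0) * (ev (RP4_herm n h σ (Real.sqrt (β / n))) i ⬝ᵥ
      (diagonal (Pg n σ) *ᵥ bv n h (Real.sqrt (β / n)) 1)) ^ 2,
    fun n i => by positivity, fun L hL => ?_, fun k => ?_⟩
  · obtain ⟨m, rfl⟩ : ∃ m, L = m + 1 := ⟨L - 1, by omega⟩
    have h1 : Tendsto (fun n : ℕ => (1 / 4 : ℝ) * ∑ g : Fin 4, chr σ g *
        (Real.exp (β * e0) ^ (m + 1) *
          trace (VV (m + 1) h * MR (m + 1) g (Real.sqrt (β / n)) ^ n))) atTop
        (𝓝 (Zs h σ (m + 1) β)) :=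
      (tendsto_finsetSum _ fun g _ => (RP4_limR (m + 1) hL g h β hβ).const_mul _).const_mul _
    refine h1.congr fun n => ?_
    simp only [mul_pow]
    rw [← Finset.mul_sum, RP4_sum_eig, mul_left_comm, Finset.mul_sum _ _ (Real.exp _ ^ _)]
    congr 1
    refine Finset.sum_congr rfl fun g _ => ?_
    ring
  · have h1 := ((RP4_limO k (-1) h β hβ).const_mul ((chr σ 0 + chr σ 3) / 4)).add
      ((RP4_limO k 1 h β hβ).const_mul ((chr σ 1 + chr σ 2) / 4))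
    have h2 : (chr σ 0 + chr σ 3) / 4 * ZO (-1) h k β + (chr σ 1 + chr σ 2) / 4 * ZO 1 h k β =
        cs h σ k β := by
      fin_cases σ <;> simp [cs, chr] <;> ring
    rw [h2] at h1
    refine h1.congr fun n => ?_
    have h3 := RP4_sum_w n h σ (Real.sqrt (β / n)) k
    have h4 : ∀ a b c d : ℝ, a * b * (c * d) ^ k = (a * c ^ k) * (b * d ^ k) := by
      intro a b c d; rw [mul_pow]; ring
    simp only [h4]
    rw [← Finset.mul_sum, h3]
    ring

theorem fam_exists (h σ : Fin 4) (β : ℝ) (hβ : 0 ≤ β) :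
    ∃ X W : ℕ → ℝ, Fam (fun L => Zs h σ L β) (fun k => cs h σ k β) X W := by
  obtain ⟨x, w, h1, h2, h3⟩ := rp_approx h σ β hβ
  exact lim_exists x w h1 _ _ (fun L hL => h2 L (by omega)) h3

end Crest.Agent.R347
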